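import Crest.Agent.R176.StDef

-- ▼ part R176/Cover294Uni
section

/-! Row 176, part B, block COVER (helper294): unipotent subgroups of the Steinberg group
embed into matrices; normalisation lemmas. -/

set_option autoImplicit false

namespace Crest.Agent.R176.Cover294

open St
open scoped commutatorElement

variable {I R : Type*} [Ring R]

/-- conjugation formula, case `j = k` -/
theorem conj_right (i j l : I) (hij : i ≠ j) (hjl : j ≠ l) (hil : i ≠ l) (r s : R) :
    x i j hij r * x j l hjl s * (x i j hij r)⁻¹ = x i l hil (r * s) * x j l hjl s := by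
  rw [← x_comm i j l hij hjl hil r s, commutatorElement_def]
  group

/-- conjugation formula, case `i = l` -/
theorem conj_left (i j k : I) (hij : i ≠ j) (hki : k ≠ i) (hkj : k ≠ j) (r s : R) :
    x i j hij r * x k i hki s * (x i j hij r)⁻¹ = x k j hkj (-(s * r)) * x k i hki s := by
  rw [x_neg, ← x_comm k i j hki hij hkj s r, commutatorElement_def]
  group

theorem conj_triv (i j k l : I) (hij : i ≠ j) (hkl : k ≠ l) (hjk : j ≠ k) (hil : i ≠ l)
    (r s : R) : x i j hij r * x k l hkl s * (x i j hij r)⁻¹ = x k l hkl s := by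
  have := (x_commute i j k l hij hkl hjk hil r s).eq
  rw [this, mul_assoc, mul_inv_cancel, mul_one]

/-- generators of the subgroup attached to a set of pairs -/
def Gen (R : Type*) [Ring R] (P : I → I → Prop) : Set (St I R) :=
  {g | ∃ i j, ∃ h : i ≠ j, ∃ r, P i j ∧ g = x i j h r}

/-- the subgroup generated by the `x i j h r`, `P i j` -/
def Sub (R : Type*) [Ring R] (P : I → I → Prop) : Subgroup (St I R) :=
  Subgroup.closure (Gen R P)

theorem x_mem_Sub {P : I → I → Prop} {i j : I} (h : i ≠ j) (hP : P i j) (r : R) :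
    x i j h r ∈ Sub R P := Subgroup.subset_closure ⟨i, j, h, r, hP, rfl⟩

theorem Sub_mono {P Q : I → I → Prop} (h : ∀ i j, P i j → Q i j) : Sub R P ≤ Sub R Q := by
  apply Subgroup.closure_mono
  rintro _ ⟨i, j, hij, r, hP, rfl⟩
  exact ⟨i, j, hij, r, h i j hP, rfl⟩

/-- induction by left multiplication with generators -/
theorem Sub_induction {P : I → I → Prop} {p : ∀ g : St I R, g ∈ Sub R P → Prop}
    (h1 : p 1 (Sub R P).one_mem)
    (hx : ∀ i j h r g (hP : P i j) (hg : g ∈ Sub R P), p g hg →
      p (x i j h r * g) ((Sub R P).mul_mem (x_mem_Sub h hP r) hg)) (g : St I R)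
    (hg : g ∈ Sub R P) : p g hg := by
  have hg' : g ∈ Subgroup.closure (Gen R P) := hg
  suffices H : ∃ h : g ∈ Sub R P, p g h from H.2
  induction hg' using Subgroup.closure_induction_left with
  | one => exact ⟨_, h1⟩
  | mul_left a ha b hb ih =>
    obtain ⟨i, j, h, r, hP, rfl⟩ := ha
    obtain ⟨h1, h2⟩ := ih hb
    exact ⟨_, hx i j h r b hP h1 h2⟩
  | inv_mul_cancel a ha b hb ih =>
    obtain ⟨i, j, h, r, hP, rfl⟩ := ha
    obtain ⟨h1, h2⟩ := ih hb
    have h3 := hx i j h (-r) b hP h1 h2
    simp only [x_neg] at h3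
    exact ⟨_, h3⟩

/-- `x i j h r` normalises `Sub P` if `P` is stable -/
theorem conj_mem_Sub {P : I → I → Prop} {i j : I} (hij : i ≠ j)
    (h1 : ∀ k, P j k → i ≠ k ∧ P i k) (h2 : ∀ k, P k i → k ≠ j ∧ P k j) (r : R)
    (g : St I R) (hg : g ∈ Sub R P) : x i j hij r * g * (x i j hij r)⁻¹ ∈ Sub R P := by
  induction g, hg using Sub_induction with
  | h1 => simp
  | hx k l h s g hP hg ih =>
    have e : x i j hij r * (x k l h s * g) * (x i j hij r)⁻¹
        = (x i j hij r * x k l h s * (x i j hij r)⁻¹) * (x i j hij r * g * (x i j hij r)⁻¹) := by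
      group
    rw [e]
    refine (Sub R P).mul_mem ?_ ih
    by_cases hjk : j = k
    · subst hjk
      obtain ⟨hil, hPil⟩ := h1 l hP
      rw [conj_right i j l hij h hil]
      exact (Sub R P).mul_mem (x_mem_Sub _ hPil _) (x_mem_Sub _ hP _)
    · by_cases hil : i = l
      · subst hil
        obtain ⟨hkj, hPkj⟩ := h2 k hP
        rw [conj_left i j k hij h hkj]
        exact (Sub R P).mul_mem (x_mem_Sub _ hPkj _) (x_mem_Sub _ hP _)
      · rw [conj_triv i j k l hij h hjk hil]
        exact x_mem_Sub _ hP _

/-- same, with the inverse on the left -/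
theorem conj_mem_Sub' {P : I → I → Prop} {i j : I} (hij : i ≠ j)
    (h1 : ∀ k, P j k → i ≠ k ∧ P i k) (h2 : ∀ k, P k i → k ≠ j ∧ P k j) (r : R)
    (g : St I R) (hg : g ∈ Sub R P) : (x i j hij r)⁻¹ * g * x i j hij r ∈ Sub R P := by
  have := conj_mem_Sub hij h1 h2 (-r) g hg
  rwa [x_neg, inv_inv] at this

section Mat

variable [Fintype I] [DecidableEq I]

theorem toMat_x_mul_apply (i j : I) (h : i ≠ j) (r : R) (g : St I R) (k l : I) :
    (toMat (x i j h r * g) : Matrix I I R) k l
      = (toMat g : Matrix I I R) k l + (if k = i then r * (toMat g : Matrix I I R) j l else 0) := by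
  rw [map_mul, Units.val_mul, toMat_x, elem_val, add_mul, Matrix.one_mul, Matrix.add_apply]
  congr 1
  by_cases hk : k = i
  · subst hk; simp
  · rw [if_neg hk, Matrix.single_mul_apply_of_ne _ _ _ _ _ hk]

/-- matrices of elements of `Sub P`, `P` a strict order -/
theorem toMat_support {P : I → I → Prop} (htr : ∀ i j k, P i j → P j k → P i k)
    (hirr : ∀ i, ¬ P i i) (g : St I R) (hg : g ∈ Sub R P) :
    (∀ k l, k ≠ l → ¬ P k l → (toMat g : Matrix I I R) k l = 0) ∧
      ∀ k, (toMat g : Matrix I I R) k k = 1 := by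
  induction g, hg using Sub_induction with
  | h1 =>
    rw [map_one, Units.val_one]
    exact ⟨fun k l hkl _ => Matrix.one_apply_ne hkl, fun k => Matrix.one_apply_eq k⟩
  | hx i j h s g hP hg ih =>
    obtain ⟨ih1, ih2⟩ := ih
    constructor
    · intro k l hkl hPkl
      rw [toMat_x_mul_apply, ih1 k l hkl hPkl, zero_add]
      split_ifs with hki
      · subst hki
        have hjl : j ≠ l := by
          rintro rfl
          exact hPkl hP
        rw [ih1 j l hjl (fun hc => hPkl (htr _ _ _ hP hc)), mul_zero]
      · rfl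
    · intro k
      rw [toMat_x_mul_apply, ih2 k]
      split_ifs with hki
      · subst hki
        rw [ih1 j k h.symm (fun hc => hirr _ (htr _ _ _ hP hc)), mul_zero, add_zero]
      · rw [add_zero]

/-- **Unipotent subgroups embed into matrices.** -/
theorem Sub_inj {P : I → I → Prop} (htr : ∀ i j k, P i j → P j k → P i k)
    (hirr : ∀ i, ¬ P i i) (g : St I R) (hg : g ∈ Sub R P) (hM : toMat g = 1) : g = 1 := by
  classical
  obtain ⟨n, hn⟩ : ∃ n, n = (Finset.univ.filter fun p : I × I => P p.1 p.2).card := ⟨_, rfl⟩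
  induction n generalizing P g with
  | zero =>
    have hemp : ∀ i j, ¬ P i j := by
      intro i j hP
      have := Finset.card_eq_zero.mp hn.symm
      have h2 : (i, j) ∈ (Finset.univ.filter fun p : I × I => P p.1 p.2) := by simpa using hP
      rw [this] at h2
      exact absurd h2 (Finset.notMem_empty _)
    have : Sub R P = ⊥ := by
      rw [Sub, Subgroup.closure_eq_bot_iff]
      rintro _ ⟨i, j, h, r, hP, rfl⟩
      exact absurd hP (hemp i j)
    rw [this, Subgroup.mem_bot] at hg
    exact hg
  | succ n ih =>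
    -- choose an indecomposable pair
    have hne : (Finset.univ.filter fun p : I × I => P p.1 p.2).Nonempty := by
      rw [← Finset.card_pos, ← hn]; exact Nat.succ_pos n
    obtain ⟨⟨a, b⟩, hab, hmin⟩ := Finset.exists_min_image _
      (fun p : I × I => (Finset.univ.filter fun c => P p.1 c ∧ P c p.2).card) hne
    rw [Finset.mem_filter] at hab
    have hPab : P a b := hab.2
    have hindec : ∀ c, P a c → ¬ P c b := by
      intro c hac hcb
      have h1 := hmin (a, c) (by simpa using hac)
      have h2 : (Finset.univ.filter fun d => P a d ∧ P d c) ⊂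
          (Finset.univ.filter fun d => P a d ∧ P d b) := by
        rw [Finset.ssubset_iff_of_subset]
        · refine ⟨c, by simpa using ⟨hac, hcb⟩, ?_⟩
          simp only [Finset.mem_filter, Finset.mem_univ, true_and, not_and]
          exact fun _ => hirr c
        · intro d hd
          simp only [Finset.mem_filter, Finset.mem_univ, true_and] at hd ⊢
          exact ⟨hd.1, htr _ _ _ hd.2 hcb⟩
      exact absurd h1 (not_le.mpr (Finset.card_lt_card h2))
    have hane : a ≠ b := by
      rintro rfl
      exact hirr a hPab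
    let P' : I → I → Prop := fun i j => P i j ∧ ¬ (i = a ∧ j = b)
    have htr' : ∀ i j k, P' i j → P' j k → P' i k := by
      rintro i j k ⟨h1, _⟩ ⟨h3, _⟩
      refine ⟨htr _ _ _ h1 h3, ?_⟩
      rintro ⟨rfl, rfl⟩
      exact hindec j h1 h3
    have hirr' : ∀ i, ¬ P' i i := fun i h => hirr i h.1
    have hle : Sub R P' ≤ Sub R P := Sub_mono fun i j h => h.1
    -- decomposition
    have hdec : ∃ r : R, ∃ v ∈ Sub R P', g = x a b hane r * v := by
      clear hM
      induction g, hg using Sub_induction with
      | h1 => exact ⟨0, 1, (Sub R P').one_mem, by rw [x_zero, one_mul]⟩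
      | hx i j h s g hP hg ihg =>
        obtain ⟨r, v, hv, rfl⟩ := ihg
        by_cases hcase : i = a ∧ j = b
        · obtain ⟨rfl, rfl⟩ := hcase
          exact ⟨s + r, v, hv, by rw [x_add]; group⟩
        · refine ⟨r, ((x a b hane r)⁻¹ * x i j h s * x a b hane r) * v, ?_, by group⟩
          refine (Sub R P').mul_mem ?_ hv
          apply conj_mem_Sub' hane _ _ r _ (x_mem_Sub h ⟨hP, hcase⟩ s)
          · rintro k ⟨hbk, _⟩
            have hak := htr _ _ _ hPab hbk
            refine ⟨?_, hak, ?_⟩
            · rintro rfl; exact hirr _ hak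
            · rintro ⟨_, rfl⟩; exact hirr _ hbk
          · rintro k ⟨hka, _⟩
            have hkb := htr _ _ _ hka hPab
            refine ⟨?_, hkb, ?_⟩
            · rintro rfl; exact hirr _ hkb
            · rintro ⟨rfl, _⟩; exact hirr _ hka
    obtain ⟨r, v, hv, rfl⟩ := hdec
    obtain ⟨hs1, hs2⟩ := toMat_support htr' hirr' v hv
    have hr : r = 0 := by
      have h1 := toMat_x_mul_apply a b hane r v a b
      rw [hM, Units.val_one, Matrix.one_apply_ne hane, if_pos rfl, hs2 b, mul_one,
        hs1 a b hane (fun h => h.2 ⟨rfl, rfl⟩), zero_add] at h1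
      exact h1.symm
    subst hr
    rw [x_zero, one_mul] at hM ⊢
    apply ih htr' hirr' v hv hM
    have h3 : (Finset.univ.filter fun p : I × I => P' p.1 p.2)
        = (Finset.univ.filter fun p : I × I => P p.1 p.2).erase (a, b) := by
      ext ⟨i, j⟩
      simp only [P', Finset.mem_filter, Finset.mem_univ, true_and, Finset.mem_erase, ne_eq,
        Prod.mk.injEq]
      tauto
    have h4 := congrArg Finset.card h3
    rw [Finset.card_erase_of_mem (by simpa using hPab), ← hn, Nat.add_sub_cancel] at h4
    convert h4.symm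


end Mat

end Crest.Agent.R176.Cover294
end

-- ▼ part R176/Cover294Blk
section

/-! Row 176, part B, block COVER (helper294): the block map
`Blk : St I (Matrix N N R) →* St (I × N) R`. -/

set_option autoImplicit false

namespace Crest.Agent.R176.Cover294

open St
open scoped commutatorElement

variable {I N R : Type*} [Ring R]

theorem pne {i j : I} (h : i ≠ j) (p q : N) : (i, p) ≠ (j, q) :=
  fun e => h (congrArg Prod.fst e)

theorem pne2 {p q : N} (i : I) (h : p ≠ q) : (i, p) ≠ (i, q) :=
  fun e => h (congrArg Prod.snd e)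

/-- block product indexed by pairs -/
theorem blkF_aux (i j : I) (h : i ≠ j) (a b : N × N → R) (pq pq' : N × N) :
    Commute (x (i, pq.1) (j, pq.2) (pne h _ _) (a pq))
      (x (i, pq'.1) (j, pq'.2) (pne h _ _) (b pq')) :=
  x_commute _ _ _ _ _ _ (pne h.symm _ _) (pne h _ _) _ _

theorem blkF_pw (s : Finset (N × N)) (i j : I) (h : i ≠ j) (a : N × N → R) :
    (s : Set (N × N)).Pairwise (Function.onFun Commute
      (fun pq => (x (i, pq.1) (j, pq.2) (pne h _ _) (a pq) : St (I × N) R))) :=
  fun _ _ _ _ _ => blkF_aux i j h a a _ _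

/-- block product indexed by pairs -/
def blkF (s : Finset (N × N)) (i j : I) (h : i ≠ j) (a : N × N → R) : St (I × N) R :=
  s.noncommProd (fun pq => x (i, pq.1) (j, pq.2) (pne h _ _) (a pq)) (blkF_pw s i j h a)

theorem blkF_add (s : Finset (N × N)) (i j : I) (h : i ≠ j) (a b : N × N → R) :
    blkF s i j h (a + b) = blkF s i j h a * blkF s i j h b := by
  have h1 := Finset.noncommProd_mul_distrib
    (fun pq : N × N => (x (i, pq.1) (j, pq.2) (pne h _ _) (a pq) : St (I × N) R))
    (fun pq : N × N => (x (i, pq.1) (j, pq.2) (pne h _ _) (b pq) : St (I × N) R))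
    (blkF_pw s i j h a) (blkF_pw s i j h b) (fun _ _ _ _ _ => blkF_aux i j h b a _ _)
  refine Eq.trans ?_ h1
  apply Finset.noncommProd_congr rfl
  intro pq _
  simp only [Pi.mul_apply, Pi.add_apply, x_add]

theorem blkF_mem (s : Finset (N × N)) (H : Subgroup (St (I × N) R)) (i j : I) (h : i ≠ j)
    (a : N × N → R)
    (hA : ∀ p q, a (p, q) ≠ 0 → x (i, p) (j, q) (pne h _ _) (a (p, q)) ∈ H) :
    blkF s i j h a ∈ H := by
  apply Subgroup.noncommProd_mem
  rintro ⟨p, q⟩ _
  by_cases h0 : a (p, q) = 0
  · simp only [h0, x_zero]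
    exact H.one_mem
  · exact hA _ _ h0

theorem blkF_one (s : Finset (N × N)) (i j : I) (h : i ≠ j) (a : N × N → R)
    (ha : ∀ pq ∈ s, a pq = 0) : blkF s i j h a = 1 := by
  have : blkF s i j h a ∈ (⊥ : Subgroup (St (I × N) R)) := by
    apply Subgroup.noncommProd_mem
    rintro pq hpq
    simp only [ha pq hpq, x_zero]
    exact Subgroup.one_mem _
  simpa using this

theorem blkF_single [DecidableEq N] (s : Finset (N × N)) (i j : I) (h : i ≠ j) (a : N × N → R)
    (p q : N) (hs : (p, q) ∈ s) (ha : ∀ pq ∈ s, pq ≠ (p, q) → a pq = 0) :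
    blkF s i j h a = x (i, p) (j, q) (pne h _ _) (a (p, q)) := by
  have h1 : blkF s i j h a = x (i, p) (j, q) (pne h _ _) (a (p, q)) *
      blkF (s.erase (p, q)) i j h a := by
    exact (Finset.mul_noncommProd_erase s hs
      (fun pq : N × N => (x (i, pq.1) (j, pq.2) (pne h _ _) (a pq) : St (I × N) R))
      (blkF_pw s i j h a)).symm
  rw [h1, blkF_one _ _ _ _ _ (fun pq hpq => ?_), mul_one]
  rw [Finset.mem_erase] at hpq
  exact ha pq hpq.2 hpq.1

variable [Fintype N]

/-- the block generator -/
def blk (i j : I) (h : i ≠ j) (A : Matrix N N R) : St (I × N) R :=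
  blkF Finset.univ i j h (fun pq => A pq.1 pq.2)

theorem blk_add (i j : I) (h : i ≠ j) (A B : Matrix N N R) :
    blk i j h (A + B) = blk i j h A * blk i j h B :=
  blkF_add _ i j h (fun pq => A pq.1 pq.2) (fun pq => B pq.1 pq.2)

theorem blk_mem (H : Subgroup (St (I × N) R)) (i j : I) (h : i ≠ j) (A : Matrix N N R)
    (hA : ∀ p q, A p q ≠ 0 → x (i, p) (j, q) (pne h _ _) (A p q) ∈ H) : blk i j h A ∈ H :=
  blkF_mem _ H i j h (fun pq => A pq.1 pq.2) hA

theorem blk_zero (i j : I) (h : i ≠ j) : blk i j h (0 : Matrix N N R) = 1 :=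
  blkF_one _ i j h _ (fun _ _ => rfl)



theorem blk_commute (i j k l : I) (hij : i ≠ j) (hkl : k ≠ l) (hjk : j ≠ k) (hil : i ≠ l)
    (A B : Matrix N N R) : Commute (blk i j hij A) (blk k l hkl B) := by
  have h1 : ∀ (p q : N) (r : R), Commute (x (i, p) (j, q) (pne hij _ _) r) (blk k l hkl B) := by
    intro p q r
    have : blk k l hkl B ∈ Subgroup.centralizer {x (i, p) (j, q) (pne hij _ _) r} := by
      apply blk_mem
      intro p' q' _
      rw [Subgroup.mem_centralizer_singleton_iff]
      exact (x_commute _ _ _ _ _ _ (pne hjk _ _) (pne hil _ _) _ _).symm.eq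
    rw [Subgroup.mem_centralizer_singleton_iff] at this
    exact this.symm
  have : blk i j hij A ∈ Subgroup.centralizer {blk k l hkl B} := by
    apply blk_mem
    intro p' q' _
    rw [Subgroup.mem_centralizer_singleton_iff]
    exact (h1 _ _ _).eq
  rw [Subgroup.mem_centralizer_singleton_iff] at this
  exact this

variable [DecidableEq N]

theorem blk_single (i j : I) (h : i ≠ j) (p q : N) (r : R) :
    blk i j h (Matrix.single p q r) = x (i, p) (j, q) (pne h _ _) r := by
  have h2 := blkF_single (Finset.univ : Finset (N × N)) i j h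
    (fun pq : N × N => (Matrix.single p q r : Matrix N N R) pq.1 pq.2) p q (Finset.mem_univ _)
    (by
      rintro ⟨p', q'⟩ _ hne
      change (Matrix.single p q r : Matrix N N R) p' q' = 0
      rw [Matrix.single_apply]
      apply if_neg
      rintro ⟨rfl, rfl⟩
      exact hne rfl)
  refine h2.trans ?_
  change x (i, p) (j, q) _ ((Matrix.single p q r : Matrix N N R) p q) = _
  rw [Matrix.single_apply_same]

/-- To prove that a property holds for all block generators. -/
theorem blk_induction {p : Matrix N N R → Prop}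
    (h0 : p 0) (hadd : ∀ A B, p A → p B → p (A + B)) (hs : ∀ u v r, p (Matrix.single u v r))
    (A : Matrix N N R) : p A := Matrix.induction_on' A h0 hadd hs

theorem comm_mul_left {G : Type*} [Group G] (a b c : G) :
    ⁅a * b, c⁆ = a * ⁅b, c⁆ * a⁻¹ * ⁅a, c⁆ := by
  simp only [commutatorElement_def]; group

theorem comm_mul_right {G : Type*} [Group G] (a b c : G) :
    ⁅a, b * c⁆ = ⁅a, b⁆ * (b * ⁅a, c⁆ * b⁻¹) := by
  simp only [commutatorElement_def]; group

theorem blk_comm (i j k : I) (hij : i ≠ j) (hjk : j ≠ k) (hik : i ≠ k) (A B : Matrix N N R) :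
    ⁅blk i j hij A, blk j k hjk B⁆ = blk i k hik (A * B) := by
  induction A using blk_induction with
  | h0 => rw [blk_zero, zero_mul, blk_zero, commutatorElement_one_left]
  | hadd A A' ih ih' =>
    rw [blk_add, comm_mul_left, ih, ih', add_mul, blk_add]
    have h1 : blk i j hij A * blk i k hik (A' * B) * (blk i j hij A)⁻¹ = blk i k hik (A' * B) := by
      rw [(blk_commute i j i k hij hik hij.symm hik A (A' * B)).eq, mul_inv_cancel_right]
    rw [h1]
    exact (blk_commute i k i k hik hik hik.symm hik _ _).eq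
  | hs p q r =>
    rw [blk_single]
    induction B using blk_induction with
    | h0 => rw [blk_zero, mul_zero, blk_zero, commutatorElement_one_right]
    | hadd B B' ih ih' =>
      rw [blk_add, comm_mul_right, ih, ih', mul_add, blk_add]
      have h1 : blk j k hjk B * blk i k hik (Matrix.single p q r * B') * (blk j k hjk B)⁻¹
          = blk i k hik (Matrix.single p q r * B') := by
        rw [(blk_commute j k i k hjk hik hik.symm hjk _ _).eq, mul_inv_cancel_right]
      rw [h1]
    | hs q' s r' =>
      rw [blk_single]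
      by_cases hq : q = q'
      · subst hq
        rw [Matrix.single_mul_single_same, blk_single]
        exact x_comm _ _ _ _ _ (pne hik _ _) _ _
      · rw [Matrix.single_mul_single_of_ne _ _ _ _ hq, blk_zero]
        exact x_triv _ _ _ _ _ _ (pne2 j hq) (pne hik _ _) _ _

/-- The block map. -/
def Blk (I N R : Type*) [Ring R] [Fintype N] [DecidableEq N] :
    St I (Matrix N N R) →* St (I × N) R :=
  lift blk blk_add blk_comm (by
    intro i j k l hij hkl hjk hil A B
    exact commutatorElement_eq_one_iff_commute.mpr (blk_commute i j k l hij hkl hjk hil A B))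

@[simp] theorem Blk_x (i j : I) (h : i ≠ j) (A : Matrix N N R) :
    Blk I N R (x i j h A) = blk i j h A := lift_x _ _ _ _ _ _ _ _

section Mat

variable [Fintype I] [DecidableEq I]

theorem toMat_blk (i j : I) (h : i ≠ j) (A : Matrix N N R) :
    ((toMat (blk i j h A) : (Matrix (I × N) (I × N) R)ˣ) : Matrix (I × N) (I × N) R)
      = Matrix.compRingEquiv I N R (1 + Matrix.single i j A) := by
  induction A using blk_induction with
  | h0 => rw [blk_zero, Matrix.single_zero, add_zero, map_one, map_one, Units.val_one]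
  | hadd A B ih ih' =>
    rw [blk_add, map_mul, Units.val_mul, ih, ih', ← map_mul]
    congr 1
    rw [mul_add, add_mul, add_mul, Matrix.single_mul_single_of_ne _ _ _ _ h.symm]
    rw [Matrix.one_mul, Matrix.one_mul, Matrix.mul_one, add_zero, add_assoc, ← Matrix.single_add]
  | hs p q r =>
    rw [blk_single, toMat_x, elem_val, map_add, map_one]
    congr 1
    ext ⟨k, p'⟩ ⟨l, q'⟩
    simp only [Matrix.compRingEquiv_apply, Matrix.comp_apply, Matrix.single_apply,
      Prod.mk.injEq]
    by_cases h1 : i = k <;> by_cases h2 : j = l <;> simp [h1, h2, Matrix.single_apply]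

theorem toMat_Blk (g : St I (Matrix N N R)) :
    ((toMat (Blk I N R g) : (Matrix (I × N) (I × N) R)ˣ) : Matrix (I × N) (I × N) R)
      = Matrix.compRingEquiv I N R (toMat g : Matrix I I (Matrix N N R)) := by
  have : (toMat.comp (Blk I N R))
      = (Units.map (Matrix.compRingEquiv I N R).toRingHom.toMonoidHom).comp
        (toMat : St I (Matrix N N R) →* _) := by
    apply hom_ext
    intro i j h A
    apply Units.ext
    rw [MonoidHom.comp_apply, Blk_x, toMat_blk, MonoidHom.comp_apply, Units.coe_map, toMat_x,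
      elem_val]
    rfl
  have h2 := congrArg (fun u : (Matrix (I × N) (I × N) R)ˣ => (u : Matrix (I × N) (I × N) R))
    (DFunLike.congr_fun this g)
  exact h2

theorem toMat_Blk_eq_one (g : St I (Matrix N N R)) (hg : toMat g = 1) :
    toMat (Blk I N R g) = 1 := by
  apply Units.ext
  rw [toMat_Blk, hg, Units.val_one, map_one, Units.val_one]

/-- functoriality of `toMat` in the ring -/
theorem toMat_map {S : Type*} [Ring S] (f : R →+* S) (g : St I R) :
    ((toMat (map f g) : (Matrix I I S)ˣ) : Matrix I I S)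
      = (toMat g : Matrix I I R).map f := by
  have : toMat.comp (map (I := I) f)
      = (Units.map (f.mapMatrix (m := I)).toMonoidHom).comp (toMat : St I R →* _) := by
    apply hom_ext
    intro i j h A
    apply Units.ext
    rw [MonoidHom.comp_apply, map_x, toMat_x, elem_val, MonoidHom.comp_apply, Units.coe_map,
      toMat_x, elem_val]
    change _ = f.mapMatrix (1 + Matrix.single i j A)
    rw [map_add, map_one, RingHom.mapMatrix_apply, Matrix.map_single]
  have h2 := congrArg (fun u : (Matrix I I S)ˣ => (u : Matrix I I S)) (DFunLike.congr_fun this g)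
  exact h2

theorem toMat_map_eq_one {S : Type*} [Ring S] (f : R →+* S) (g : St I R) (hg : toMat g = 1) :
    toMat (map f g) = 1 := by
  apply Units.ext
  rw [toMat_map, hg, Units.val_one, Units.val_one]
  have := map_one (f.mapMatrix (m := I))
  rwa [RingHom.mapMatrix_apply] at this

end Mat


end Crest.Agent.R176.Cover294
end

-- ▼ part R176/Cover294Gr

/-! Row 176, part B, block COVER (helper294): the ring homomorphisms
`c_d ↦ c_d T^d`, `R →+* Matrix N N R`, for a graded ring `R` and a family of matrices `T`. -/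

set_option autoImplicit false

namespace Crest.Agent.R176.Cover294

open St
open scoped commutatorElement DirectSum

/-- a multiplicative family of matrices over `F_2` -/
structure MFam (N : Type*) [Fintype N] [DecidableEq N] where
  T : ℕ → Matrix N N (ZMod 2)
  zero : T 0 = 1
  add : ∀ a b, T (a + b) = T a * T b

section

variable {R : Type*} [Ring R] [Algebra (ZMod 2) R] (𝒜 : ℕ → Submodule (ZMod 2) R)
  [GradedAlgebra 𝒜] {N : Type*} [Fintype N] [DecidableEq N]

/-- one homogeneous component of the twist -/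
def twistAux (F : MFam N) (d : ℕ) : 𝒜 d →+ Matrix N N R where
  toFun c := Matrix.of fun p q => F.T d p q • (c : R)
  map_zero' := by ext p q; simp
  map_add' a b := by ext p q; simp

omit [GradedAlgebra 𝒜] in
theorem twistAux_apply (F : MFam N) (d : ℕ) (c : 𝒜 d) (p q : N) :
    twistAux 𝒜 F d c p q = F.T d p q • (c : R) := rfl

/-- the ring homomorphism `c_d ↦ c_d T^d` -/
def twist (F : MFam N) : R →+* Matrix N N R :=
  (DirectSum.toSemiring (twistAux 𝒜 F)
    (by
      ext p q
      rw [twistAux_apply, F.zero, SetLike.coe_gOne, Matrix.one_apply, Matrix.one_apply]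
      split_ifs <;> simp)
    (by
      intro a b c d
      ext p q
      rw [twistAux_apply, F.add, SetLike.coe_gMul, Matrix.mul_apply, Matrix.mul_apply,
        Finset.sum_smul]
      apply Finset.sum_congr rfl
      intro r _
      rw [twistAux_apply, twistAux_apply, smul_mul_smul_comm])).comp
    (DirectSum.decomposeRingEquiv 𝒜).toRingHom

theorem twist_apply_mem (F : MFam N) {d : ℕ} {c : R} (hc : c ∈ 𝒜 d) (p q : N) :
    twist 𝒜 F c p q = F.T d p q • c := by
  have : twist 𝒜 F c = twistAux 𝒜 F d ⟨c, hc⟩ := by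
    unfold twist
    rw [RingHom.comp_apply]
    change DirectSum.toSemiring _ _ _ (DirectSum.decompose 𝒜 c) = _
    rw [DirectSum.decompose_of_mem 𝒜 hc, DirectSum.toSemiring_of]
  rw [this, twistAux_apply]

/-- Two ring homs (or additive maps) out of a graded ring agree if they do on homogeneous
elements. -/
theorem hom_eq_of_homog {S : Type*} [AddCommMonoid S] {f g : R →+ S}
    (h : ∀ d, ∀ c ∈ 𝒜 d, f c = g c) (r : R) : f r = g r := by
  induction r using DirectSum.Decomposition.inductionOn 𝒜 with
  | zero => rw [map_zero, map_zero]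
  | @homogeneous i m => exact h i m m.2
  | add a b ha hb => rw [map_add, map_add, ha, hb]

/-- the trivial family -/
def oneFam (N : Type*) [Fintype N] [DecidableEq N] : MFam N where
  T _ := 1
  zero := rfl
  add _ _ := by rw [mul_one]

/-- the family projecting to degree zero -/
def zeroFam (N : Type*) [Fintype N] [DecidableEq N] : MFam N where
  T d := if d = 0 then 1 else 0
  zero := rfl
  add a b := by
    by_cases ha : a = 0 <;> by_cases hb : b = 0 <;> simp [ha, hb]

theorem twist_oneFam (r : R) : twist 𝒜 (oneFam N) r = Matrix.scalar N r := by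
  apply hom_eq_of_homog 𝒜 (f := (twist 𝒜 (oneFam N)).toAddMonoidHom)
    (g := (Matrix.scalar N).toAddMonoidHom)
  intro d c hc
  change twist 𝒜 (oneFam N) c = Matrix.scalar N c
  ext p q
  rw [twist_apply_mem 𝒜 _ hc, Matrix.scalar_apply, Matrix.diagonal_apply]
  change (1 : Matrix N N (ZMod 2)) p q • c = _
  rw [Matrix.one_apply]
  split_ifs <;> simp

theorem twist_zeroFam (r : R) :
    twist 𝒜 (zeroFam N) r = Matrix.scalar N (GradedRing.projZeroRingHom 𝒜 r) := by
  apply hom_eq_of_homog 𝒜 (f := (twist 𝒜 (zeroFam N)).toAddMonoidHom)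
    (g := ((Matrix.scalar N).comp (GradedRing.projZeroRingHom 𝒜)).toAddMonoidHom)
  intro d c hc
  change twist 𝒜 (zeroFam N) c = Matrix.scalar N (GradedRing.projZeroRingHom 𝒜 c)
  ext p q
  rw [twist_apply_mem 𝒜 _ hc, Matrix.scalar_apply, Matrix.diagonal_apply]
  by_cases hd : d = 0
  · subst hd
    have h1 : GradedRing.projZeroRingHom 𝒜 c = c := by
      rw [GradedRing.projZeroRingHom_apply, DirectSum.decompose_of_mem_same 𝒜 hc]
    rw [h1]
    change (1 : Matrix N N (ZMod 2)) p q • c = _
    rw [Matrix.one_apply]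
    split_ifs <;> simp
  · have h1 : GradedRing.projZeroRingHom 𝒜 c = 0 := by
      rw [GradedRing.projZeroRingHom_apply, DirectSum.decompose_of_mem_ne 𝒜 hc hd]
    rw [h1]
    have h2 : (zeroFam N).T d = 0 := by
      change (if d = 0 then (1 : Matrix N N (ZMod 2)) else 0) = 0
      rw [if_neg hd]
    rw [h2]
    simp

/-- conjugate family -/
def conjFam (F : MFam N) (u : (Matrix N N (ZMod 2))ˣ) : MFam N where
  T d := u * F.T d * (u⁻¹ : (Matrix N N (ZMod 2))ˣ)
  zero := by rw [F.zero, mul_one, Units.mul_inv]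
  add a b := by
    rw [F.add]
    simp only [mul_assoc, Units.inv_mul_cancel_left]

/-- coefficients `F_2 → R` -/
def emb (N R : Type*) [Fintype N] [DecidableEq N] [Ring R] [Algebra (ZMod 2) R] :
    Matrix N N (ZMod 2) →+* Matrix N N R := (algebraMap (ZMod 2) R).mapMatrix

theorem twist_conjFam (F : MFam N) (u : (Matrix N N (ZMod 2))ˣ) (r : R) :
    twist 𝒜 (conjFam F u) r = emb N R u * twist 𝒜 F r * emb N R (u⁻¹ : (Matrix N N (ZMod 2))ˣ) := by
  apply hom_eq_of_homog 𝒜 (f := (twist 𝒜 (conjFam F u)).toAddMonoidHom)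
    (g := ((AddMonoidHom.mulRight (emb N R (u⁻¹ : (Matrix N N (ZMod 2))ˣ))).comp
      (AddMonoidHom.mulLeft (emb N R u))).comp (twist 𝒜 F).toAddMonoidHom)
  intro d c hc
  change twist 𝒜 (conjFam F u) c
    = emb N R u * twist 𝒜 F c * emb N R (u⁻¹ : (Matrix N N (ZMod 2))ˣ)
  ext p q
  rw [twist_apply_mem 𝒜 _ hc]
  change (((u : Matrix N N (ZMod 2)) * F.T d * (u⁻¹ : (Matrix N N (ZMod 2))ˣ)) p q) • c = _
  simp only [Matrix.mul_apply, Finset.sum_smul, Finset.sum_mul]
  apply Finset.sum_congr rfl
  intro s _
  apply Finset.sum_congr rfl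
  intro t _
  rw [twist_apply_mem 𝒜 _ hc]
  change _ = algebraMap (ZMod 2) R ((u : Matrix N N (ZMod 2)) p t) * (F.T d t s • c) *
    algebraMap (ZMod 2) R (((u⁻¹ : (Matrix N N (ZMod 2))ˣ) : Matrix N N (ZMod 2)) s q)
  rw [← Algebra.commutes, ← Algebra.smul_def, ← Algebra.smul_def, smul_smul, smul_smul]
  congr 1
  ring

end

end Crest.Agent.R176.Cover294
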