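import Mathlib

/-! Row 176, part B: the Steinberg group `St I R` over an arbitrary (noncommutative) ring,
index type `I` arbitrary. Generators `x i j r` for `i ≠ j`. -/

set_option autoImplicit false

namespace Crest.Agent.R176

open scoped commutatorElement

/-- generator labels `(i, j, r)` with `i ≠ j` -/
abbrev StGen (I R : Type*) := {p : I × I // p.1 ≠ p.2} × R

/-- label of the generator `x i j r` -/
def stg {I R : Type*} (i j : I) (h : i ≠ j) (r : R) : StGen I R := (⟨(i, j), h⟩, r)

/-- the Steinberg relations -/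
inductive StRel (I R : Type*) [Ring R] : FreeGroup (StGen I R) → Prop
  | add (i j : I) (h : i ≠ j) (r s : R) :
      StRel I R (FreeGroup.of (stg i j h r) * FreeGroup.of (stg i j h s) *
        (FreeGroup.of (stg i j h (r + s)))⁻¹)
  | comm (i j k : I) (hij : i ≠ j) (hjk : j ≠ k) (hik : i ≠ k) (r s : R) :
      StRel I R (⁅FreeGroup.of (stg i j hij r), FreeGroup.of (stg j k hjk s)⁆ *
        (FreeGroup.of (stg i k hik (r * s)))⁻¹)
  | triv (i j k l : I) (hij : i ≠ j) (hkl : k ≠ l) (hjk : j ≠ k) (hil : i ≠ l) (r s : R) :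
      StRel I R ⁅FreeGroup.of (stg i j hij r), FreeGroup.of (stg k l hkl s)⁆

/-- The Steinberg group. -/
abbrev St (I R : Type*) [Ring R] : Type _ := PresentedGroup {w | StRel I R w}

namespace St

variable {I R : Type*} [Ring R]

/-- The elementary generator `x_ij(r)`. -/
def x (i j : I) (h : i ≠ j) (r : R) : St I R := PresentedGroup.of (stg i j h r)

theorem x_add (i j : I) (h : i ≠ j) (r s : R) : x i j h (r + s) = x i j h r * x i j h s := by
  have := PresentedGroup.one_of_mem (rels := {w | StRel I R w}) (StRel.add i j h r s)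
  rw [map_mul, map_mul, map_inv, mul_inv_eq_one] at this
  exact this.symm

theorem x_zero (i j : I) (h : i ≠ j) : x i j h (0 : R) = 1 := by
  have := x_add i j h (0 : R) 0
  rw [add_zero] at this
  exact left_eq_mul.mp this

theorem x_neg (i j : I) (h : i ≠ j) (r : R) : x i j h (-r) = (x i j h r)⁻¹ := by
  rw [eq_inv_iff_mul_eq_one, ← x_add, neg_add_cancel, x_zero]

theorem x_comm (i j k : I) (hij : i ≠ j) (hjk : j ≠ k) (hik : i ≠ k) (r s : R) :
    ⁅x i j hij r, x j k hjk s⁆ = x i k hik (r * s) := by
  have := PresentedGroup.one_of_mem (rels := {w | StRel I R w})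
    (StRel.comm i j k hij hjk hik r s)
  rw [map_mul, map_inv, mul_inv_eq_one, map_commutatorElement] at this
  exact this

theorem x_triv (i j k l : I) (hij : i ≠ j) (hkl : k ≠ l) (hjk : j ≠ k) (hil : i ≠ l) (r s : R) :
    ⁅x i j hij r, x k l hkl s⁆ = 1 := by
  have := PresentedGroup.one_of_mem (rels := {w | StRel I R w})
    (StRel.triv i j k l hij hkl hjk hil r s)
  rw [map_commutatorElement] at this
  exact this

theorem x_commute (i j k l : I) (hij : i ≠ j) (hkl : k ≠ l) (hjk : j ≠ k) (hil : i ≠ l)
    (r s : R) : Commute (x i j hij r) (x k l hkl s) :=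
  commutatorElement_eq_one_iff_commute.mp (x_triv i j k l hij hkl hjk hil r s)

/-- Universal property. -/
def lift {G : Type*} [Group G] (f : ∀ i j : I, i ≠ j → R → G)
    (hadd : ∀ i j h r s, f i j h (r + s) = f i j h r * f i j h s)
    (hcomm : ∀ i j k hij hjk hik r s, ⁅f i j hij r, f j k hjk s⁆ = f i k hik (r * s))
    (htriv : ∀ i j k l hij hkl, j ≠ k → i ≠ l → ∀ r s, ⁅f i j hij r, f k l hkl s⁆ = 1) :
    St I R →* G :=
  PresentedGroup.toGroup (f := fun g : StGen I R => f g.1.1.1 g.1.1.2 g.1.2 g.2) (by
    rintro w (hw : StRel I R w)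
    induction hw with
    | add i j h r s =>
      rw [map_mul, map_mul, map_inv, mul_inv_eq_one]
      simpa [stg] using (hadd i j h r s).symm
    | comm i j k hij hjk hik r s =>
      rw [map_mul, map_inv, mul_inv_eq_one, map_commutatorElement]
      simpa [stg] using hcomm i j k hij hjk hik r s
    | triv i j k l hij hkl hjk hil r s =>
      rw [map_commutatorElement]
      simpa [stg] using htriv i j k l hij hkl hjk hil r s)

@[simp] theorem lift_x {G : Type*} [Group G] (f : ∀ i j : I, i ≠ j → R → G) (hadd hcomm htriv)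
    (i j : I) (h : i ≠ j) (r : R) : lift f hadd hcomm htriv (x i j h r) = f i j h r := by
  unfold lift x
  rw [PresentedGroup.toGroup.of]
  rfl

theorem hom_ext {G : Type*} [Group G] {φ ψ : St I R →* G}
    (h : ∀ i j hij r, φ (x i j hij r) = ψ (x i j hij r)) : φ = ψ := by
  apply PresentedGroup.ext
  rintro ⟨⟨⟨i, j⟩, hij⟩, r⟩
  exact h i j hij r

theorem closure_x : Subgroup.closure {g : St I R | ∃ i j h r, g = x i j h r} = ⊤ := by
  rw [eq_top_iff, ← PresentedGroup.closure_range_of]
  apply Subgroup.closure_mono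
  rintro _ ⟨⟨⟨⟨i, j⟩, hij⟩, r⟩, rfl⟩
  exact ⟨i, j, hij, r, rfl⟩

@[elab_as_elim]
theorem induction {p : St I R → Prop} (h1 : p 1)
    (hx : ∀ i j h r g, p g → p (x i j h r * g)) (g : St I R) : p g := by
  have hg : g ∈ Subgroup.closure {g : St I R | ∃ i j h r, g = x i j h r} := by
    rw [closure_x]; trivial
  induction hg using Subgroup.closure_induction_left with
  | one => exact h1
  | mul_left a ha b _ ih =>
    obtain ⟨i, j, h, r, rfl⟩ := ha
    exact hx i j h r b ih
  | inv_mul_cancel a ha b _ ih =>
    obtain ⟨i, j, h, r, rfl⟩ := ha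
    rw [← x_neg]
    exact hx i j h (-r) b ih


/-- Functoriality in the ring. -/
def map {S : Type*} [Ring S] (φ : R →+* S) : St I R →* St I S :=
  lift (fun i j h r => x i j h (φ r)) (by intros; rw [map_add, x_add])
    (by intro i j k hij hjk hik r s; rw [x_comm i j k hij hjk hik, map_mul])
    (by intro i j k l hij hkl hjk hil r s; exact x_triv i j k l hij hkl hjk hil _ _)

@[simp] theorem map_x {S : Type*} [Ring S] (φ : R →+* S) (i j : I) (h : i ≠ j) (r : R) :
    map φ (x i j h r) = x i j h (φ r) := lift_x _ _ _ _ _ _ _ _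

theorem map_surjective {S : Type*} [Ring S] (φ : R →+* S) (hφ : Function.Surjective φ) :
    Function.Surjective (map (I := I) φ) := by
  intro g
  induction g using induction with
  | h1 => exact ⟨1, map_one _⟩
  | hx i j h r g ih =>
    obtain ⟨g', rfl⟩ := ih
    obtain ⟨r', rfl⟩ := hφ r
    exact ⟨x i j h r' * g', by rw [map_mul, map_x]⟩

/-- Functoriality in the index set (injective maps). -/
def mapI {J : Type*} (e : I ↪ J) : St I R →* St J R :=
  lift (fun i j h r => x (e i) (e j) (e.injective.ne h) r) (by intros; rw [x_add])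
    (by
      intro i j k hij hjk hik r s
      exact x_comm (e i) (e j) (e k) (e.injective.ne hij) (e.injective.ne hjk)
        (e.injective.ne hik) r s)
    (by
      intro i j k l hij hkl hjk hil r s
      exact x_triv _ _ _ _ _ _ (e.injective.ne hjk) (e.injective.ne hil) _ _)

@[simp] theorem mapI_x {J : Type*} (e : I ↪ J) (i j : I) (h : i ≠ j) (r : R) :
    mapI (R := R) e (x i j h r) = x (e i) (e j) (e.injective.ne h) r := lift_x _ _ _ _ _ _ _ _

section Matrix

variable [Fintype I] [DecidableEq I]

/-- the elementary matrix `1 + r E_ij` as a unit -/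
def elem (i j : I) (h : i ≠ j) (r : R) : (Matrix I I R)ˣ where
  val := 1 + Matrix.single i j r
  inv := 1 + Matrix.single i j (-r)
  val_inv := by
    rw [mul_add, add_mul, add_mul, Matrix.single_mul_single_of_ne _ _ _ _ h.symm]
    rw [Matrix.one_mul, Matrix.one_mul, Matrix.mul_one, add_zero, add_assoc, ← Matrix.single_add,
      add_neg_cancel, Matrix.single_zero, add_zero]
  inv_val := by
    rw [mul_add, add_mul, add_mul, Matrix.single_mul_single_of_ne _ _ _ _ h.symm]
    rw [Matrix.one_mul, Matrix.one_mul, Matrix.mul_one, add_zero, add_assoc, ← Matrix.single_add,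
      neg_add_cancel, Matrix.single_zero, add_zero]

@[simp] theorem elem_val (i j : I) (h : i ≠ j) (r : R) :
    (elem i j h r : Matrix I I R) = 1 + Matrix.single i j r := rfl

@[simp] theorem elem_inv_val (i j : I) (h : i ≠ j) (r : R) :
    ((elem i j h r)⁻¹ : (Matrix I I R)ˣ).val = 1 + Matrix.single i j (-r) := rfl

theorem elem_add (i j : I) (h : i ≠ j) (r s : R) :
    elem i j h (r + s) = elem i j h r * elem i j h s := by
  apply Units.ext
  rw [Units.val_mul, elem_val, elem_val, elem_val, mul_add, add_mul, add_mul,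
    Matrix.single_mul_single_of_ne _ _ _ _ h.symm, Matrix.one_mul, Matrix.one_mul,
    Matrix.mul_one, add_zero, add_assoc, ← Matrix.single_add]

theorem elem_comm (i j k : I) (hij : i ≠ j) (hjk : j ≠ k) (hik : i ≠ k) (r s : R) :
    ⁅elem i j hij r, elem j k hjk s⁆ = elem i k hik (r * s) := by
  rw [commutatorElement_def, mul_inv_eq_iff_eq_mul, mul_inv_eq_iff_eq_mul]
  apply Units.ext
  simp only [Units.val_mul, elem_val, mul_add, add_mul, Matrix.one_mul, Matrix.mul_one,
    Matrix.single_mul_single_same, Matrix.single_mul_single_of_ne _ _ _ _ hjk.symm,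
    Matrix.single_mul_single_of_ne _ _ _ _ hik.symm, add_zero]
  abel

theorem elem_triv (i j k l : I) (hij : i ≠ j) (hkl : k ≠ l) (hjk : j ≠ k) (hil : i ≠ l)
    (r s : R) : ⁅elem i j hij r, elem k l hkl s⁆ = 1 := by
  rw [commutatorElement_eq_one_iff_commute]
  apply Units.ext
  simp only [Units.val_mul, elem_val, mul_add, add_mul, Matrix.one_mul, Matrix.mul_one,
    Matrix.single_mul_single_of_ne _ _ _ _ hjk, Matrix.single_mul_single_of_ne _ _ _ _ hil.symm,
    add_zero]
  abel

/-- The canonical homomorphism to invertible matrices. -/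
def toMat : St I R →* (Matrix I I R)ˣ := lift elem elem_add elem_comm elem_triv

@[simp] theorem toMat_x (i j : I) (h : i ≠ j) (r : R) :
    toMat (x i j h r) = elem i j h r := lift_x _ _ _ _ _ _ _ _

end Matrix

end St

end Crest.Agent.R176
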