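import Mathlib
import Crest.Agent.R176.StDef

-- ▼ part R176/FP1
section

/-! Row 176, part B, block FP2 (Krstic-McCool for `|I| ≥ 5`), file 1: the inductive step.
Pure group theory: from finitely many relations on `g i j u`, `u ∈ {1} ∪ Y`, all Steinberg
relations for all monomials follow. -/

set_option autoImplicit false

namespace Crest.Agent.R176.FP

open scoped commutatorElement

section Key

variable {G : Type*} [Group G]

/-- `[A,[B,C]] = [[A,B],C]` when `A` commutes with `C`, `[A,B]` commutes with `[B,C]` and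
`[B,C]` commutes with `C`. -/
theorem key {A B C : G} (hAC : Commute A C) (hED : Commute ⁅A, B⁆ ⁅B, C⁆)
    (hDC : Commute ⁅B, C⁆ C) : ⁅A, ⁅B, C⁆⁆ = ⁅⁅A, B⁆, C⁆ := by
  have h1 : A * B = ⁅A, B⁆ * B * A := by
    simp [commutatorElement_def]
  have h2 : B * C = ⁅B, C⁆ * C * B := by
    simp [commutatorElement_def]
  have h3 : A * ⁅B, C⁆ = ⁅A, ⁅B, C⁆⁆ * ⁅B, C⁆ * A := by
    rw [commutatorElement_def A ⁅B, C⁆]; group
  set E := ⁅A, B⁆ with hE
  set D := ⁅B, C⁆ with hD
  set F := ⁅A, D⁆ with hF
  -- A * (B * C) computed in two ways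
  have e1 : A * (B * C) = E * D * C * B * A := by
    calc A * (B * C) = (A * B) * C := by group
      _ = E * B * A * C := by rw [h1]
      _ = E * B * (A * C) := by group
      _ = E * B * (C * A) := by rw [hAC.eq]
      _ = E * (B * C) * A := by group
      _ = E * (D * C * B) * A := by rw [h2]
      _ = _ := by group
  have e2 : A * (B * C) = F * D * C * E * B * A := by
    calc A * (B * C) = A * (D * C * B) := by rw [h2]
      _ = (A * D) * C * B := by group
      _ = (F * D * A) * C * B := by rw [h3]
      _ = F * D * (A * C) * B := by group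
      _ = F * D * (C * A) * B := by rw [hAC.eq]
      _ = F * D * C * (A * B) := by group
      _ = F * D * C * (E * B * A) := by rw [h1]
      _ = _ := by group
  have e3 : E * D * C = F * D * C * E := by
    have := e1.symm.trans e2
    exact mul_right_cancel (mul_right_cancel this)
  -- E * C = F * C * E
  have e4 : E * C = F * C * E := by
    have h4 : D * (E * C) = F * (C * E) * D := by
      calc D * (E * C) = (D * E) * C := by group
        _ = (E * D) * C := by rw [hED.eq]
        _ = F * D * C * E := e3
        _ = F * (D * C) * E := by group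
        _ = F * (C * D) * E := by rw [hDC.eq]
        _ = F * C * (D * E) := by group
        _ = F * C * (E * D) := by rw [hED.eq]
        _ = _ := by group
    have h5 : D * (E * C) = (E * C) * D := by
      calc D * (E * C) = (D * E) * C := by group
        _ = (E * D) * C := by rw [hED.eq]
        _ = E * (D * C) := by group
        _ = E * (C * D) := by rw [hDC.eq]
        _ = _ := by group
    have := h5.symm.trans h4
    have := mul_right_cancel this
    rw [this]; group
  rw [commutatorElement_def E C, eq_mul_inv_iff_mul_eq, eq_mul_inv_iff_mul_eq]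
  exact e4.symm

theorem comm_of_comm {A B C : G} (h1 : Commute A C) (h2 : Commute B C) : Commute ⁅A, B⁆ C := by
  rw [commutatorElement_def]
  exact ((h1.mul_left h2).mul_left h1.inv_left).mul_left h2.inv_left

theorem sq_comm {A B : G} (hA : A * A = 1) (h : Commute A ⁅A, B⁆) : ⁅A, B⁆ * ⁅A, B⁆ = 1 := by
  have h1 : A⁻¹ = A := inv_eq_of_mul_eq_one_right hA
  have h2 : ⁅A, B⁆ * ⁅A, B⁆ = A * ⁅A, B⁆ * A⁻¹ * ⁅A, B⁆ := by
    rw [h.eq]; group
  rw [h2, commutatorElement_def, h1]
  have e1 : A * (A * B * A * B⁻¹) * A * (A * B * A * B⁻¹) =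
      (A * A) * (B * A * B⁻¹) * (A * A) * (B * A * B⁻¹) := by simp only [mul_assoc]
  have e2 : (B * A * B⁻¹) * (B * A * B⁻¹) = B * (A * A) * B⁻¹ := by
    simp only [mul_assoc, inv_mul_cancel_left]
  rw [e1, hA, one_mul, mul_one, e2, hA, mul_one, mul_inv_cancel]

end Key

section Mono

variable {G : Type*} [Group G] {I Y : Type*}

/-- the finitely many relations on the generators `g i j u`, `u ∈ {1} ∪ Y` -/
structure Base (g : I → I → Option Y → G) : Prop where
  comm : ∀ i j k l, i ≠ j → k ≠ l → j ≠ k → i ≠ l → ∀ u v, Commute (g i j u) (g k l v)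
  left : ∀ i j k, i ≠ j → j ≠ k → i ≠ k → ∀ u, ⁅g i j none, g j k u⁆ = g i k u
  right : ∀ i j k, i ≠ j → j ≠ k → i ≠ k → ∀ u, ⁅g i j u, g j k none⁆ = g i k u
  sq : ∀ i j, i ≠ j → ∀ u, g i j u * g i j u = 1

/-- there are enough indices -/
def Enough (I : Type*) : Prop := ∀ i j k l : I, ∃ p : I, p ≠ i ∧ p ≠ j ∧ p ≠ k ∧ p ≠ l

/-- an index different from `i` and `j` -/
noncomputable def pick (hI : Enough I) (i j : I) : I := (hI i j i j).choose

theorem pick_left (hI : Enough I) (i j : I) : pick hI i j ≠ i := (hI i j i j).choose_spec.1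
theorem pick_right (hI : Enough I) (i j : I) : pick hI i j ≠ j := (hI i j i j).choose_spec.2.1

/-- the element attached to a monomial -/
noncomputable def X (hI : Enough I) (g : I → I → Option Y → G) : I → I → List Y → G
  | i, j, [] => g i j none
  | i, j, [y] => g i j (some y)
  | i, j, y :: y' :: w => ⁅g i (pick hI i j) (some y), X hI g (pick hI i j) j (y' :: w)⁆

variable (hI : Enough I) (g : I → I → Option Y → G)

@[simp] theorem X_nil (i j : I) : X hI g i j [] = g i j none := by rw [X]
@[simp] theorem X_single (i j : I) (y : Y) : X hI g i j [y] = g i j (some y) := by rw [X]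
theorem X_cons (i j : I) (y : Y) (w : List Y) (hw : w ≠ []) :
    X hI g i j (y :: w) = ⁅X hI g i (pick hI i j) [y], X hI g (pick hI i j) j w⁆ := by
  cases w with
  | nil => exact absurd rfl hw
  | cons y' w => rw [X, X]

/-- the induction statement -/
structure Q (N : ℕ) : Prop where
  comm : ∀ a b : List Y, a.length ≤ N → b.length ≤ N → ∀ i j k l, i ≠ j → k ≠ l → j ≠ k →
    i ≠ l → Commute (X hI g i j a) (X hI g k l b)
  mul : ∀ a b : List Y, (a ++ b).length ≤ N → ∀ i j k, i ≠ j → j ≠ k → i ≠ k →
    ⁅X hI g i j a, X hI g j k b⁆ = X hI g i k (a ++ b)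

variable {hI g}

theorem Q_one (hg : Base g) : Q hI g 1 := by
  have lem : ∀ a : List Y, a.length ≤ 1 → ∃ u : Option Y, ∀ i j, X hI g i j a = g i j u := by
    intro a ha
    match a, ha with
    | [], _ => exact ⟨none, fun i j => X_nil hI g i j⟩
    | [y], _ => exact ⟨some y, fun i j => X_single hI g i j y⟩
  constructor
  · intro a b ha hb i j k l hij hkl hjk hil
    obtain ⟨u, hu⟩ := lem a ha
    obtain ⟨v, hv⟩ := lem b hb
    rw [hu, hv]
    exact hg.comm i j k l hij hkl hjk hil u v
  · intro a b hab i j k hij hjk hik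
    match a, hab with
    | [], hab =>
      obtain ⟨u, hu⟩ := lem b (by simpa using hab)
      rw [X_nil, hu, List.nil_append, hu]
      exact hg.left i j k hij hjk hik u
    | [y], hab =>
      have : b = [] := by
        apply List.eq_nil_of_length_eq_zero
        simp only [List.cons_append, List.nil_append, List.length_cons] at hab
        omega
      subst this
      rw [X_nil, X_single, List.append_nil, X_single]
      exact hg.right i j k hij hjk hik _

/-- shift lemma -/
theorem Q.shift {N : ℕ} (h : Q hI g N) (a y b : List Y) (h1 : (a ++ y).length ≤ N)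
    (h2 : (y ++ b).length ≤ N) (i j p k : I) (hij : i ≠ j) (hjk : j ≠ k) (hik : i ≠ k)
    (hip : i ≠ p) (hpk : p ≠ k) (hpj : p ≠ j) :
    ⁅X hI g i j (a ++ y), X hI g j k b⁆ = ⁅X hI g i p a, X hI g p k (y ++ b)⁆ := by
  have la : a.length ≤ N := le_trans (by simp) h1
  have lb : b.length ≤ N := le_trans (by simp) h2
  have e1 := h.mul a y h1 i p j hip hpj hij
  have e2 := h.mul y b h2 p j k hpj hjk hpk
  rw [← e1, ← e2]
  symm
  apply key
  · exact h.comm a b la lb i p j k hip hjk hpj hik
  · rw [e1, e2]
    exact h.comm _ _ h1 h2 i j p k hij hpk hpj.symm hik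
  · rw [e2]
    exact h.comm _ _ h2 lb p k j k hpk hjk hjk.symm hpk

/-- product relations for splittings into two nonempty parts -/
theorem Q.split {N : ℕ} (hN : 1 ≤ N) (h : Q hI g N) (a b : List Y) (ha : a ≠ []) (hb : b ≠ [])
    (hab : (a ++ b).length = N + 1) (i j k : I) (hij : i ≠ j) (hjk : j ≠ k) (hik : i ≠ k) :
    ⁅X hI g i j a, X hI g j k b⁆ = X hI g i k (a ++ b) := by
  obtain ⟨y, a', rfl⟩ := List.exists_cons_of_ne_nil ha
  have hb' : 1 ≤ b.length := List.length_pos_iff.mpr hb
  simp only [List.cons_append, List.length_cons, List.length_append] at hab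
  have hw : a' ++ b ≠ [] := by simp [hb]
  have main : ∀ q, q ≠ i → q ≠ k → q ≠ j →
      ⁅X hI g i j (y :: a'), X hI g j k b⁆ = ⁅X hI g i q [y], X hI g q k (a' ++ b)⁆ := by
    intro q hqi hqk hqj
    exact h.shift [y] a' b (by simp; omega) (by simp; omega) i j q k hij hjk hik hqi.symm hqk hqj
  rw [List.cons_append, X_cons hI g i k y (a' ++ b) hw]
  by_cases hq : pick hI i k = j
  · obtain ⟨r, hri, hrj, hrk, -⟩ := hI i j k k
    rw [main r hri hrk hrj, hq]
    have := h.shift [y] [] (a' ++ b) (by simp; omega) (by simp; omega) i j r k hij hjk hik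
      hri.symm hrk hrj
    rw [List.append_nil, List.nil_append] at this
    exact this.symm
  · exact main _ (pick_left hI i k) (pick_right hI i k) hq

theorem Q.step {N : ℕ} (hN : 1 ≤ N) (h : Q hI g N) : Q hI g (N + 1) := by
  -- (B1): one of the two has length `N+1`
  have hB1 : ∀ a b : List Y, a.length = N + 1 → b.length ≤ N → ∀ i j k l, i ≠ j → k ≠ l →
      j ≠ k → i ≠ l → Commute (X hI g i j a) (X hI g k l b) := by
    intro a b ha hb i j k l hij hkl hjk hil
    obtain ⟨y, w, rfl⟩ : ∃ y w, a = y :: w := by
      cases a with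
      | nil => simp at ha
      | cons y w => exact ⟨y, w, rfl⟩
    have hlw : w.length = N := by simpa using ha
    have hw : w ≠ [] := by
      intro h0; rw [h0] at hlw; simp at hlw; omega
    obtain ⟨p, hpi, hpj, hpk, hpl⟩ := hI i j k l
    have e := h.split hN [y] w (by simp) hw (by simp [hlw]) i p j hpi.symm hpj hij
    rw [List.singleton_append] at e
    rw [← e]
    apply comm_of_comm
    · exact h.comm _ _ (by simpa using hN) hb i p k l hpi.symm hkl hpk hil
    · exact h.comm _ _ (by omega) hb p j k l hpj hkl hjk hpl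
  have hB : ∀ a b : List Y, a.length ≤ N + 1 → b.length ≤ N + 1 → ∀ i j k l, i ≠ j → k ≠ l →
      j ≠ k → i ≠ l → Commute (X hI g i j a) (X hI g k l b) := by
    intro a b ha hb i j k l hij hkl hjk hil
    rcases Nat.lt_or_ge N b.length with hb' | hb'
    · rcases Nat.lt_or_ge N a.length with ha' | ha'
      · have ha2 : a.length = N + 1 := by omega
        have hb2 : b.length = N + 1 := by omega
        obtain ⟨y, w, rfl⟩ : ∃ y w, a = y :: w := by
          cases a with
          | nil => simp at ha2
          | cons y w => exact ⟨y, w, rfl⟩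
        have hlw : w.length = N := by simpa using ha2
        have hw : w ≠ [] := by
          intro h0; rw [h0] at hlw; simp at hlw; omega
        obtain ⟨p, hpi, hpj, hpk, hpl⟩ := hI i j k l
        have e := h.split hN [y] w (by simp) hw (by simp [hlw]) i p j hpi.symm hpj hij
        rw [List.singleton_append] at e
        rw [← e]
        apply comm_of_comm
        · exact (hB1 b [y] hb2 (by simpa using hN) k l i p hkl hpi.symm hil.symm hpk.symm).symm
        · exact (hB1 b w hb2 (by omega) k l p j hkl hpj hpl.symm hjk.symm).symm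
      · exact (hB1 b a (by omega) ha' k l i j hkl hij hil.symm hjk.symm).symm
    · rcases Nat.lt_or_ge N a.length with ha' | ha'
      · exact hB1 a b (by omega) hb' i j k l hij hkl hjk hil
      · exact h.comm a b ha' hb' i j k l hij hkl hjk hil
  refine ⟨hB, ?_⟩
  intro a b hab i j k hij hjk hik
  rcases Nat.lt_or_ge N (a ++ b).length with hl | hl
  · have hl2 : (a ++ b).length = N + 1 := by omega
    by_cases ha : a = []
    · subst ha
      rw [List.nil_append] at hl2 ⊢
      obtain ⟨y, w, rfl⟩ : ∃ y w, b = y :: w := by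
        cases b with
        | nil => simp at hl2
        | cons y w => exact ⟨y, w, rfl⟩
      have hlw : w.length = N := by simpa using hl2
      have hw : w ≠ [] := by
        intro h0; rw [h0] at hlw; simp at hlw; omega
      obtain ⟨p, hpi, hpj, hpk, -⟩ := hI i j k k
      have e := h.split hN [y] w (by simp) hw (by simp [hlw]) j p k hpj.symm hpk hjk
      rw [List.singleton_append] at e
      have e' := h.split hN [y] w (by simp) hw (by simp [hlw]) i p k hpi.symm hpk hik
      rw [List.singleton_append] at e'
      have e3 := h.mul [] [y] (by simpa using hN) i j p hij hpj.symm hpi.symm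
      rw [List.nil_append] at e3
      rw [← e, ← e', ← e3]
      apply key
      · exact h.comm _ _ (by simp) (by omega) i j p k hij hpk hpj.symm hik
      · rw [e3, e]
        exact hB _ _ (by simp) (by omega) i p j k hpi.symm hjk hpj hik
      · rw [e]
        exact hB _ _ (by omega) (by omega) j k p k hjk hpk hpk.symm hjk
    · by_cases hb : b = []
      · subst hb
        rw [List.append_nil] at hl2 ⊢
        obtain ⟨y, w, rfl⟩ := List.exists_cons_of_ne_nil ha
        have hlw : w.length = N := by simpa using hl2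
        have hw : w ≠ [] := by
          intro h0; rw [h0] at hlw; simp at hlw; omega
        obtain ⟨p, hpi, hpj, hpk, -⟩ := hI i j k k
        have e := h.split hN [y] w (by simp) hw (by simp [hlw]) i p j hpi.symm hpj hij
        rw [List.singleton_append] at e
        have e' := h.split hN [y] w (by simp) hw (by simp [hlw]) i p k hpi.symm hpk hik
        rw [List.singleton_append] at e'
        have e3 := h.mul w [] (by simp [hlw]) p j k hpj hjk hpk
        rw [List.append_nil] at e3
        rw [← e, ← e', ← e3]
        symm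
        apply key
        · exact h.comm _ _ (by simpa using hN) (by simp) i p j k hpi.symm hjk hpj hik
        · rw [e3, e]
          exact hB _ _ (by simp [hlw]) (by omega) i j p k hij hpk hpj.symm hik
        · rw [e3]
          exact h.comm _ _ (by omega) (by simp) p k j k hpk hjk hjk.symm hpk
      · exact h.split hN a b ha hb hl2 i j k hij hjk hik
  · exact h.mul a b hl i j k hij hjk hik

theorem Q_all (hg : Base g) (N : ℕ) : Q hI g (N + 1) := by
  induction N with
  | zero => exact Q_one hg
  | succ N ih => exact ih.step (by omega)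

/-- All commutation relations. -/
theorem X_commute (hg : Base g) (a b : List Y) (i j k l : I) (hij : i ≠ j) (hkl : k ≠ l)
    (hjk : j ≠ k) (hil : i ≠ l) : Commute (X hI g i j a) (X hI g k l b) :=
  (Q_all hg (a.length + b.length)).comm a b (by omega) (by omega) i j k l hij hkl hjk hil

/-- All product relations. -/
theorem X_mul (hg : Base g) (a b : List Y) (i j k : I) (hij : i ≠ j) (hjk : j ≠ k)
    (hik : i ≠ k) : ⁅X hI g i j a, X hI g j k b⁆ = X hI g i k (a ++ b) :=
  (Q_all hg (a.length + b.length)).mul a b (by simp) i j k hij hjk hik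

theorem X_sq (hg : Base g) (w : List Y) : ∀ (i j : I), i ≠ j →
    X hI g i j w * X hI g i j w = 1 := by
  intro i j hij
  match w with
  | [] => rw [X_nil]; exact hg.sq i j hij _
  | y :: w =>
    obtain ⟨p, hpi, hpj, -, -⟩ := hI i j i j
    have e := X_mul (hI := hI) hg [y] w i p j hpi.symm hpj hij
    rw [List.singleton_append] at e
    rw [← e]
    apply sq_comm
    · rw [X_single]; exact hg.sq i p hpi.symm _
    · rw [e]
      exact X_commute hg _ _ i p i j hpi.symm hij hpi hij

end Mono

end Crest.Agent.R176.FP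
private theorem rz_6f46083c0a : type_of% @_root_.Crest.Agent.R176.FP.X.eq_def := @_root_.Crest.Agent.R176.FP.X.eq_def -- L112
private theorem rz_9587f665df : type_of% @_root_.Crest.Agent.R176.FP.X.eq_1 := @_root_.Crest.Agent.R176.FP.X.eq_1 -- L112
end

-- ▼ part R176/FP2

/-! Row 176, part B, block FP2 (Krstic-McCool for `|I| ≥ 5`), file 2:
`St I (FreeAlgebra (ZMod 2) Y)` is finitely presented for finite `I` and `Y`. -/

set_option autoImplicit false

namespace Crest.Agent.R176.FP

open scoped commutatorElement

section Lin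

/-- extension by linearity -/
theorem exists_hom {G A B : Type*} [Group G] [AddCommGroup A] [Module (ZMod 2) A]
    (b : Module.Basis B (ZMod 2) A) (e : B → G) (hc : ∀ x y, Commute (e x) (e y))
    (hs : ∀ x, e x * e x = 1) :
    ∃ f : A → G, (∀ r s, f (r + s) = f r * f s) ∧ (∀ x, f (b x) = e x) ∧
      (∀ r, f r ∈ Subgroup.closure (Set.range e)) := by
  have hcomm : ∀ x ∈ Set.range e, ∀ y ∈ Set.range e, x * y = y * x := by
    rintro _ ⟨x, rfl⟩ _ ⟨y, rfl⟩
    exact (hc x y).eq
  have hK := Subgroup.isMulCommutative_closure hcomm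
  letI : CommGroup (Subgroup.closure (Set.range e)) :=
    { (inferInstance : Group (Subgroup.closure (Set.range e))) with
      mul_comm := fun a b => hK.is_comm.comm a b }
  have h2 : ∀ k : Subgroup.closure (Set.range e), k * k = 1 := by
    rintro ⟨k, hk⟩
    apply Subtype.ext
    show k * k = 1
    induction hk using Subgroup.closure_induction with
    | mem x hx =>
      obtain ⟨y, rfl⟩ := hx
      exact hs y
    | one => simp
    | mul x y hx hy h1 h2 =>
      have h3 : x * y = y * x := by
        have := hK.is_comm.comm ⟨x, hx⟩ ⟨y, hy⟩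
        exact congrArg Subtype.val this
      calc x * y * (x * y) = x * (y * x) * y := by group
        _ = x * (x * y) * y := by rw [h3]
        _ = (x * x) * (y * y) := by group
        _ = 1 := by rw [h1, h2, one_mul]
    | inv x hx h1 =>
      rw [← mul_inv_rev, h1, inv_one]
  letI : Module (ZMod 2) (Additive (Subgroup.closure (Set.range e))) :=
    AddCommGroup.zmodModule (n := 2) (fun x => by
      rw [two_nsmul]
      exact congrArg Additive.ofMul (h2 x.toMul))
  let L : A →ₗ[ZMod 2] Additive (Subgroup.closure (Set.range e)) :=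
    b.constr (ZMod 2) (fun x => Additive.ofMul ⟨e x, Subgroup.subset_closure ⟨x, rfl⟩⟩)
  refine ⟨fun r => ((L r).toMul : Subgroup.closure (Set.range e)), ?_, ?_, ?_⟩
  · intro r s
    show (((L (r + s)).toMul : Subgroup.closure (Set.range e)) : G) = _
    rw [map_add, toMul_add]
    rfl
  · intro x
    have : L (b x) = Additive.ofMul ⟨e x, Subgroup.subset_closure ⟨x, rfl⟩⟩ := by
      simp only [L, Module.Basis.constr_basis]
    show (((L (b x)).toMul : Subgroup.closure (Set.range e)) : G) = _
    rw [this]
    rfl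
  · intro r
    exact Subtype.property _

/-- induction over a `ZMod 2`-basis -/
theorem basis_induction {A B : Type*} [AddCommGroup A] [Module (ZMod 2) A]
    (b : Module.Basis B (ZMod 2) A) {p : A → Prop} (h0 : p 0) (hadd : ∀ x y, p x → p y → p (x + y))
    (hb : ∀ x, p (b x)) (a : A) : p a := by
  have ha : a ∈ Submodule.span (ZMod 2) (Set.range b) := by rw [b.span_eq]; trivial
  induction ha using Submodule.span_induction with
  | mem x hx => obtain ⟨y, rfl⟩ := hx; exact hb y
  | zero => exact h0
  | add x y _ _ hx hy => exact hadd x y hx hy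
  | smul c x _ hx =>
    have : c = 0 ∨ c = 1 := by revert c; decide
    rcases this with rfl | rfl
    · rw [zero_smul]; exact h0
    · rw [one_smul]; exact hx

theorem basis_eq (R Y : Type*) [CommRing R] (w : FreeMonoid Y) :
    FreeAlgebra.basisFreeMonoid R Y w = FreeMonoid.lift (FreeAlgebra.ι R) w := by
  unfold FreeAlgebra.basisFreeMonoid
  rw [Module.Basis.map_apply]
  simp [FreeAlgebra.equivMonoidAlgebraFreeMonoid]

theorem basis_mul (R Y : Type*) [CommRing R] (u v : FreeMonoid Y) :
    FreeAlgebra.basisFreeMonoid R Y (u * v) =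
      FreeAlgebra.basisFreeMonoid R Y u * FreeAlgebra.basisFreeMonoid R Y v := by
  rw [basis_eq, basis_eq, basis_eq, map_mul]

end Lin

section Free

variable {I Y : Type*}

/-- value of a small generator -/
def val : Option Y → FreeAlgebra (ZMod 2) Y
  | none => 1
  | some y => FreeAlgebra.ι (ZMod 2) y

/-- generators of the finite presentation -/
abbrev Gn (I Y : Type*) := {p : I × I // p.1 ≠ p.2} × Option Y

open Classical in
/-- total generator function -/
noncomputable def gen (i j : I) (u : Option Y) : FreeGroup (Gn I Y) :=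
  if h : i ≠ j then FreeGroup.of (⟨(i, j), h⟩, u) else 1

/-- the finitely many relators -/
inductive Rel0 (I Y : Type*) : FreeGroup (Gn I Y) → Prop
  | comm (i j k l : I) (hij : i ≠ j) (hkl : k ≠ l) (hjk : j ≠ k) (hil : i ≠ l) (u v : Option Y) :
      Rel0 I Y ⁅gen i j u, gen k l v⁆
  | left (i j k : I) (hij : i ≠ j) (hjk : j ≠ k) (hik : i ≠ k) (u : Option Y) :
      Rel0 I Y (⁅(gen i j none : FreeGroup (Gn I Y)), gen j k u⁆ * (gen i k u)⁻¹)
  | right (i j k : I) (hij : i ≠ j) (hjk : j ≠ k) (hik : i ≠ k) (u : Option Y) :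
      Rel0 I Y (⁅gen i j u, (gen j k none : FreeGroup (Gn I Y))⁆ * (gen i k u)⁻¹)
  | sq (i j : I) (hij : i ≠ j) (u : Option Y) : Rel0 I Y (gen i j u * gen i j u)

theorem Rel0_finite [Finite I] [Finite Y] : {w | Rel0 I Y w}.Finite := by
  let F : Fin 4 × (I × I × I × I) × (Option Y × Option Y) → FreeGroup (Gn I Y) := fun t =>
    match t with
    | (0, (i, j, k, l), (u, v)) => ⁅gen i j u, gen k l v⁆
    | (1, (i, j, k, _), (u, _)) =>
      ⁅(gen i j none : FreeGroup (Gn I Y)), gen j k u⁆ * (gen i k u)⁻¹
    | (2, (i, j, k, _), (u, _)) =>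
      ⁅gen i j u, (gen j k none : FreeGroup (Gn I Y))⁆ * (gen i k u)⁻¹
    | (3, (i, j, _, _), (u, _)) => gen i j u * gen i j u
  refine (Set.finite_range F).subset ?_
  rintro w (hw : Rel0 I Y w)
  cases hw with
  | comm i j k l _ _ _ _ u v => exact ⟨(0, (i, j, k, l), (u, v)), rfl⟩
  | left i j k _ _ _ u => exact ⟨(1, (i, j, k, i), (u, u)), rfl⟩
  | right i j k _ _ _ u => exact ⟨(2, (i, j, k, i), (u, u)), rfl⟩
  | sq i j _ u => exact ⟨(3, (i, j, i, i), (u, u)), rfl⟩

/-- the finitely presented group -/
abbrev P0 (I Y : Type*) := PresentedGroup {w | Rel0 I Y w}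

instance [Finite I] [Finite Y] : Group.IsFinitelyPresented (P0 I Y) := by
  have : Finite {w | Rel0 I Y w} := Rel0_finite.to_subtype
  infer_instance

/-- generators in `P0` -/
noncomputable def g0 (i j : I) (u : Option Y) : P0 I Y := PresentedGroup.mk _ (gen i j u)

theorem g0_base : Base (g0 : I → I → Option Y → P0 I Y) where
  comm i j k l hij hkl hjk hil u v := by
    have := PresentedGroup.one_of_mem (rels := {w | Rel0 I Y w})
      (Rel0.comm i j k l hij hkl hjk hil u v)
    rw [map_commutatorElement] at this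
    exact commutatorElement_eq_one_iff_commute.mp this
  left i j k hij hjk hik u := by
    have := PresentedGroup.one_of_mem (rels := {w | Rel0 I Y w}) (Rel0.left i j k hij hjk hik u)
    rw [map_mul, map_inv, mul_inv_eq_one, map_commutatorElement] at this
    exact this
  right i j k hij hjk hik u := by
    have := PresentedGroup.one_of_mem (rels := {w | Rel0 I Y w}) (Rel0.right i j k hij hjk hik u)
    rw [map_mul, map_inv, mul_inv_eq_one, map_commutatorElement] at this
    exact this
  sq i j hij u := by
    have := PresentedGroup.one_of_mem (rels := {w | Rel0 I Y w}) (Rel0.sq i j hij u)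
    rw [map_mul] at this
    exact this

/-- Steinberg relations for a family `f` extending `X`. -/
structure IsSt {A G : Type*} [Ring A] [Group G] (f : ∀ i j : I, i ≠ j → A → G) : Prop where
  add : ∀ i j h r s, f i j h (r + s) = f i j h r * f i j h s
  mul : ∀ i j k hij hjk hik r s, ⁅f i j hij r, f j k hjk s⁆ = f i k hik (r * s)
  triv : ∀ i j k l hij hkl, j ≠ k → i ≠ l → ∀ r s, Commute (f i j hij r) (f k l hkl s)

/-- from a base family to a Steinberg family -/
theorem exists_steinberg {G : Type*} [Group G] (hI : Enough I) (g : I → I → Option Y → G)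
    (hg : Base g) : ∃ f : ∀ i j : I, i ≠ j → FreeAlgebra (ZMod 2) Y → G, IsSt f ∧
      ∀ i j h (w : FreeMonoid Y), f i j h (FreeAlgebra.basisFreeMonoid (ZMod 2) Y w) =
        X hI g i j w.toList := by
  have H : ∀ i j : I, i ≠ j → ∃ f : FreeAlgebra (ZMod 2) Y → G,
      (∀ r s, f (r + s) = f r * f s) ∧
      (∀ w : FreeMonoid Y, f (FreeAlgebra.basisFreeMonoid (ZMod 2) Y w) = X hI g i j w.toList) ∧
      (∀ r, f r ∈ Subgroup.closure (Set.range fun w : FreeMonoid Y => X hI g i j w.toList)) := by
    intro i j hij
    exact exists_hom (FreeAlgebra.basisFreeMonoid (ZMod 2) Y)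
      (fun w : FreeMonoid Y => X hI g i j w.toList)
      (fun u v => X_commute hg _ _ i j i j hij hij hij.symm hij)
      (fun u => X_sq hg _ i j hij)
  choose f hadd hb hcl using H
  have hzero : ∀ i j h, f i j h 0 = 1 := by
    intro i j h
    have := hadd i j h 0 0
    rw [add_zero] at this
    exact left_eq_mul.mp this
  have htriv : ∀ i j k l hij hkl, j ≠ k → i ≠ l → ∀ r s, Commute (f i j hij r) (f k l hkl s) := by
    intro i j k l hij hkl hjk hil r s
    have h1 := hcl i j hij r
    have h2 := hcl k l hkl s
    have h3 : Subgroup.closure (Set.range fun w : FreeMonoid Y => X hI g i j w.toList) ≤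
        Subgroup.centralizer (Subgroup.closure
          (Set.range fun w : FreeMonoid Y => X hI g k l w.toList)) := by
      rw [Subgroup.centralizer_closure, Subgroup.closure_le]
      rintro _ ⟨w, rfl⟩
      rw [SetLike.mem_coe, Subgroup.mem_centralizer_iff]
      rintro _ ⟨w', rfl⟩
      exact (X_commute hg _ _ i j k l hij hkl hjk hil).eq.symm
    have h4 := h3 h1
    rw [Subgroup.mem_centralizer_iff] at h4
    exact (h4 _ h2).symm
  refine ⟨f, ⟨hadd, ?_, htriv⟩, hb⟩
  intro i j k hij hjk hik r s
  -- bilinearity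
  have hL : ∀ r r' s, ⁅f i j hij r, f j k hjk s⁆ = f i k hik (r * s) →
      ⁅f i j hij r', f j k hjk s⁆ = f i k hik (r' * s) →
      ⁅f i j hij (r + r'), f j k hjk s⁆ = f i k hik ((r + r') * s) := by
    intro r r' s h1 h2
    have e : ⁅f i j hij r * f i j hij r', f j k hjk s⁆ =
        f i j hij r * ⁅f i j hij r', f j k hjk s⁆ * (f i j hij r)⁻¹ *
          ⁅f i j hij r, f j k hjk s⁆ := by
      simp only [commutatorElement_def]; group
    rw [hadd i j, e, h1, h2, add_mul, hadd i k,
      (htriv i j i k hij hik hij.symm hik r (r' * s)).eq, mul_inv_cancel_right]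
    exact (htriv i k i k hik hik hik.symm hik _ _).eq
  have hR : ∀ r s s', ⁅f i j hij r, f j k hjk s⁆ = f i k hik (r * s) →
      ⁅f i j hij r, f j k hjk s'⁆ = f i k hik (r * s') →
      ⁅f i j hij r, f j k hjk (s + s')⁆ = f i k hik (r * (s + s')) := by
    intro r s s' h1 h2
    have e : ⁅f i j hij r, f j k hjk s * f j k hjk s'⁆ =
        ⁅f i j hij r, f j k hjk s⁆ * (f j k hjk s * ⁅f i j hij r, f j k hjk s'⁆ *
          (f j k hjk s)⁻¹) := by
      simp only [commutatorElement_def]; group
    rw [hadd j k, e, h1, h2, mul_add, hadd i k,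
      (htriv j k i k hjk hik hik.symm hjk s (r * s')).eq, mul_inv_cancel_right]
  refine basis_induction (FreeAlgebra.basisFreeMonoid (ZMod 2) Y)
    (p := fun r => ⁅f i j hij r, f j k hjk s⁆ = f i k hik (r * s)) ?_ (fun x y hx hy => hL x y s hx hy)
    ?_ r
  · rw [hzero, zero_mul, hzero, commutatorElement_def]; group
  intro u
  refine basis_induction (FreeAlgebra.basisFreeMonoid (ZMod 2) Y)
    (p := fun s => ⁅f i j hij (FreeAlgebra.basisFreeMonoid (ZMod 2) Y u), f j k hjk s⁆ =
      f i k hik (FreeAlgebra.basisFreeMonoid (ZMod 2) Y u * s)) ?_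
    (fun x y hx hy => hR _ x y hx hy) ?_ s
  · rw [hzero, mul_zero, hzero, commutatorElement_def]; group
  intro v
  rw [← basis_mul, hb, hb, hb, X_mul hg _ _ i j k hij hjk hik]
  rfl

/-- the hom `St I A → G` attached to a base family -/
theorem exists_lift {G : Type*} [Group G] (hI : Enough I) (g : I → I → Option Y → G)
    (hg : Base g) : ∃ θ : St I (FreeAlgebra (ZMod 2) Y) →* G,
      ∀ i j h (w : FreeMonoid Y), θ (St.x i j h (FreeAlgebra.basisFreeMonoid (ZMod 2) Y w)) =
        X hI g i j w.toList := by
  obtain ⟨f, hf, hb⟩ := exists_steinberg hI g hg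
  refine ⟨St.lift f hf.add hf.mul
    (fun i j k l hij hkl hjk hil r s => (hf.triv i j k l hij hkl hjk hil r s).commutator_eq), ?_⟩
  intro i j h w
  rw [St.lift_x, hb]

/-- images of the small generators in the Steinberg group -/
theorem st_base : ∀ g : I → I → Option Y → St I (FreeAlgebra (ZMod 2) Y),
    (∀ i j (h : i ≠ j) u, g i j u = St.x i j h (val u)) → Base g := by
  intro g hg
  constructor
  · intro i j k l hij hkl hjk hil u v
    rw [hg i j hij, hg k l hkl]
    exact St.x_commute i j k l hij hkl hjk hil _ _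
  · intro i j k hij hjk hik u
    rw [hg i j hij, hg j k hjk, hg i k hik, St.x_comm i j k hij hjk hik]
    simp [val]
  · intro i j k hij hjk hik u
    rw [hg i j hij, hg j k hjk, hg i k hik, St.x_comm i j k hij hjk hik]
    simp [val]
  · intro i j hij u
    rw [hg i j hij, ← St.x_add]
    have : val u + val u = (0 : FreeAlgebra (ZMod 2) Y) := by
      rw [← two_smul (ZMod 2), show (2 : ZMod 2) = 0 from rfl, zero_smul]
    rw [this, St.x_zero]

theorem toList_val (u : Option Y) : ∃ w : FreeMonoid Y,
    FreeAlgebra.basisFreeMonoid (ZMod 2) Y w = val u ∧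
    ∀ {G : Type*} [Group G] (hI : Enough I) (g : I → I → Option Y → G) (i j : I),
      X hI g i j w.toList = g i j u := by
  cases u with
  | none =>
    refine ⟨1, ?_, ?_⟩
    · rw [basis_eq, map_one]; rfl
    · intro G _ hI g i j
      exact X_nil hI g i j
  | some y =>
    refine ⟨FreeMonoid.of y, ?_, ?_⟩
    · rw [basis_eq, FreeMonoid.lift_eval_of]; rfl
    · intro G _ hI g i j
      exact X_single hI g i j y

theorem map_X {G H : Type*} [Group G] [Group H] (φ : G →* H) (hI : Enough I)
    (g : I → I → Option Y → G) (w : List Y) : ∀ i j : I,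
    φ (X hI g i j w) = X hI (fun i j u => φ (g i j u)) i j w := by
  induction w with
  | nil => intro i j; rw [X_nil, X_nil]
  | cons y w ih =>
    intro i j
    by_cases hw : w = []
    · subst hw; rw [X_single, X_single]
    · rw [X_cons _ _ _ _ _ _ hw, X_cons _ _ _ _ _ _ hw, map_commutatorElement, ih, X_single,
        X_single]

theorem X_congr {G : Type*} [Group G] (hI : Enough I)
    (g g' : I → I → Option Y → G) (hg : ∀ i j, i ≠ j → ∀ u, g i j u = g' i j u) (w : List Y) :
    ∀ i j : I, i ≠ j → X hI g i j w = X hI g' i j w := by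
  induction w with
  | nil => intro i j h; rw [X_nil, X_nil, hg i j h]
  | cons y w ih =>
    intro i j h
    by_cases hw : w = []
    · subst hw; rw [X_single, X_single, hg i j h]
    · rw [X_cons _ _ _ _ _ _ hw, X_cons _ _ _ _ _ _ hw, X_single, X_single,
        hg _ _ (pick_left hI i j).symm, ih _ _ (pick_right hI i j)]

theorem X_st (hI : Enough I) (g : I → I → Option Y → St I (FreeAlgebra (ZMod 2) Y))
    (hg : ∀ i j (h : i ≠ j) u, g i j u = St.x i j h (val u)) (w : List Y) :
    ∀ (i j : I) (h : i ≠ j), X hI g i j w =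
      St.x i j h (FreeAlgebra.basisFreeMonoid (ZMod 2) Y (FreeMonoid.ofList w)) := by
  induction w with
  | nil =>
    intro i j h
    rw [X_nil, hg i j h, basis_eq]
    simp [val]
  | cons y w ih =>
    intro i j h
    have hval : val (some y) = FreeAlgebra.basisFreeMonoid (ZMod 2) Y (FreeMonoid.of y) := by
      rw [basis_eq, FreeMonoid.lift_eval_of]; rfl
    by_cases hw : w = []
    · subst hw
      rw [X_single, hg i j h, hval]
      rfl
    · rw [X_cons _ _ _ _ _ _ hw, X_single, hg _ _ (pick_left hI i j).symm,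
        ih _ _ (pick_right hI i j),
        St.x_comm _ _ _ _ _ h, hval, ← basis_mul]
      rfl

/-- **Krstic-McCool** for free algebras over `ZMod 2`, `|I| ≥ 5`. -/
theorem st_free_fp [Finite I] [Finite Y] (hI : Enough I) :
    Group.IsFinitelyPresented (St I (FreeAlgebra (ZMod 2) Y)) := by
  classical
  obtain ⟨θ, hθ⟩ := exists_lift hI (g0 : I → I → Option Y → P0 I Y) g0_base
  -- the hom back
  let gS : I → I → Option Y → St I (FreeAlgebra (ZMod 2) Y) := fun i j u =>
    if h : i ≠ j then St.x i j h (val u) else 1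
  have hgS : ∀ i j (h : i ≠ j) u, gS i j u = St.x i j h (val u) := by
    intro i j h u
    simp only [gS, dif_pos h]
  have hbase := st_base gS hgS
  let F : FreeGroup (Gn I Y) →* St I (FreeAlgebra (ZMod 2) Y) :=
    FreeGroup.lift fun t : Gn I Y => St.x t.1.1.1 t.1.1.2 t.1.2 (val t.2)
  have hF : ∀ i j (h : i ≠ j) u, F (gen i j u) = gS i j u := by
    intro i j h u
    rw [hgS i j h]
    simp only [gen, dif_pos h, F, FreeGroup.lift_apply_of]
  have hrel : ∀ w ∈ {w | Rel0 I Y w}, F w = 1 := by
    rintro w (hw : Rel0 I Y w)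
    cases hw with
    | comm i j k l hij hkl hjk hil u v =>
      rw [map_commutatorElement, hF i j hij, hF k l hkl]
      exact (hbase.comm i j k l hij hkl hjk hil u v).commutator_eq
    | left i j k hij hjk hik u =>
      rw [map_mul, map_inv, map_commutatorElement, hF i j hij, hF j k hjk, hF i k hik,
        hbase.left i j k hij hjk hik, mul_inv_cancel]
    | right i j k hij hjk hik u =>
      rw [map_mul, map_inv, map_commutatorElement, hF i j hij, hF j k hjk, hF i k hik,
        hbase.right i j k hij hjk hik, mul_inv_cancel]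
    | sq i j hij u =>
      rw [map_mul, hF i j hij, hbase.sq i j hij]
  let ψ : P0 I Y →* St I (FreeAlgebra (ZMod 2) Y) := PresentedGroup.toGroup hrel
  have hψ : ∀ i j (h : i ≠ j) u, ψ (g0 i j u) = gS i j u := by
    intro i j h u
    rw [hgS i j h]
    simp only [g0, gen, dif_pos h]
    exact PresentedGroup.toGroup.of hrel
  have h1 : ψ.comp θ = MonoidHom.id _ := by
    apply St.hom_ext
    intro i j h r
    refine basis_induction (FreeAlgebra.basisFreeMonoid (ZMod 2) Y)
      (p := fun r => (ψ.comp θ) (St.x i j h r) = (MonoidHom.id _) (St.x i j h r)) ?_ ?_ ?_ r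
    · rw [St.x_zero, map_one, map_one]
    · intro x y hx hy
      rw [St.x_add, map_mul, map_mul, hx, hy]
    · intro w
      rw [MonoidHom.comp_apply, hθ, map_X]
      rw [X_congr hI _ gS (fun i j h u => hψ i j h u) _ i j h, X_st hI gS hgS _ i j h]
      rfl
  have h2 : θ.comp ψ = MonoidHom.id _ := by
    apply PresentedGroup.ext
    rintro ⟨⟨⟨i, j⟩, h⟩, u⟩
    have e : (PresentedGroup.of (⟨(i, j), h⟩, u) : P0 I Y) = g0 i j u := by
      simp only [g0, gen]
      rw [dif_pos (show i ≠ j from h)]
      rfl
    rw [e, MonoidHom.comp_apply, hψ i j h, hgS i j h]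
    obtain ⟨w, hw, hX⟩ := toList_val (I := I) (Y := Y) u
    rw [← hw, hθ, hX]
    rfl
  exact Group.IsFinitelyPresented.equiv (MonoidHom.toMulEquiv ψ θ h2 h1)

end Free

end Crest.Agent.R176.FP
private theorem rz_faf322b104 : type_of% @_root_.Crest.Agent.R176.FP.val.eq_1 := @_root_.Crest.Agent.R176.FP.val.eq_1 -- L100
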