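import Crest.Agent.R176.Fpt396

/-!
R176, part B, block PHASES (algebra level, helper396): from a phase function on long nonzero words
(`WPhase`, delivered by the machine for all levels) to the phase projections of the algebra.
-/

set_option autoImplicit false
set_option linter.unusedSectionVars false

namespace Crest.Agent.R176.Ph396

open QAlg206 Fpt396

variable {L : Type*}

/-- Word-level phase function modulo `l` on nonzero words of length `≥ M`
(`ph` = start phase of the word). -/
structure WPhase (step : L → L → Option (L × L)) (l M : ℕ) where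
  ph : List L → ZMod l
  inv : ∀ u v : List L, ¬ IsZ step u → M ≤ u.length → WEq step (some u) (some v) → ph u = ph v
  left : ∀ u w : List L, ¬ IsZ step (u ++ w) → M ≤ u.length → ph (u ++ w) = ph u
  right : ∀ w u : List L, ¬ IsZ step (w ++ u) → M ≤ u.length →
    ph (w ++ u) + (w.length : ZMod l) = ph u

/-- THE MACHINE INTERFACE: phases of arbitrarily large odd length. -/
def PhaseAll (step : L → L → Option (L × L)) : Prop :=
  ∀ N : ℕ, ∃ l M : ℕ, N ≤ l ∧ Odd l ∧ Nonempty (WPhase step l M)

variable {step : L → L → Option (L × L)} {l M : ℕ}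

namespace WPhase

variable (p : WPhase step l M)



/-- words in the class with phase `q` -/
def Has (q : ZMod l) (c : Cl step) : Prop :=
  ∃ w : List L, c = cl (some w) ∧ M ≤ w.length ∧ p.ph w = q

theorem has_iff {q : ZMod l} {w : List L} (hw : ¬ IsZ step w) :
    p.Has q (cl (some w)) ↔ M ≤ w.length ∧ p.ph w = q := by
  constructor
  · rintro ⟨w', e, hM, hq⟩
    have e' : WEq step (some w) (some w') := cl_eq_iff.1 e
    have hl := e'.length_eq hw
    exact ⟨by omega, by rw [p.inv w w' hw (by omega) e', hq]⟩
  · rintro ⟨hM, hq⟩
    exact ⟨w, rfl, hM, hq⟩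

open Classical in
/-- The projection to the start phase `q`. -/
noncomputable def pi (q : ZMod l) : QQ step →ₗ[ZMod 2] QQ step :=
  (Finsupp.linearCombination (ZMod 2)
    (fun c : NZ step => if p.Has q c.1 then ofCl step (ZMod 2) c.1 else 0)).comp
    (coord step (ZMod 2))

theorem cl_ne_of_not_isZ {w : List L} (hw : ¬ IsZ step w) : cl (step := step) (some w) ≠ cl none :=
  fun e => hw (cl_eq_iff.1 e)


theorem gr_induction {d : ℕ} {P : QQ step → Prop}
    (hw : ∀ w : List L, w.length = d → P (wd step w)) (h0 : P 0)
    (hadd : ∀ u v, P u → P v → P (u + v)) {u : QQ step} (hu : u ∈ gr step (ZMod 2) d) : P u := by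
  induction hu using Submodule.span_induction with
  | mem u hu =>
    obtain ⟨w, hl, rfl⟩ := hu
    exact hw w hl
  | zero => exact h0
  | add u v _ _ h h' => exact hadd u v h h'
  | smul c u _ h =>
    have : c = 0 ∨ c = 1 := by revert c; decide
    rcases this with rfl | rfl
    · rw [zero_smul]; exact h0
    · rw [one_smul]; exact h






end WPhase

end Crest.Agent.R176.Ph396
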