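import Crest.Agent.R176.QAlg206

/-!
R176, general theory of the quadratic rewriting algebra, part B: grading, augmentation,
finite presentation, infinitude, change of coefficients, relabelling.
-/

set_option autoImplicit false

namespace Crest.Agent.R176.QAlg206

open FreeAlgebra
open scoped DirectSum

variable {L : Type*} (step : L → L → Option (L × L)) (k : Type*) [CommRing k]

/-! ### Grading -/

/-- Degree `n` part: span of words of length `n`. -/
noncomputable def gr (n : ℕ) : Submodule k (QA step k) :=
  Submodule.span k {r | ∃ w : List L, w.length = n ∧ word step k w = r}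

theorem word_mem_gr (w : List L) : word step k w ∈ gr step k w.length :=
  Submodule.subset_span ⟨w, rfl, rfl⟩

theorem word_mem_gr' {w : List L} {n : ℕ} (h : w.length = n) : word step k w ∈ gr step k n :=
  Submodule.subset_span ⟨w, h, rfl⟩

theorem x_mem_gr (a : L) : x step k a ∈ gr step k 1 := by
  have := word_mem_gr' step k (w := [a]) (n := 1) rfl
  simpa using this

instance gradedMonoid : SetLike.GradedMonoid (gr step k) where
  one_mem := by
    have := word_mem_gr' step k (w := []) (n := 0) rfl
    simpa using this
  mul_mem := by
    intro i j u v hu hv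
    have := Submodule.mul_mem_mul hu hv
    unfold gr at this
    rw [Submodule.span_mul_span] at this
    refine Submodule.span_mono ?_ this
    rintro _ ⟨_, ⟨p, hp, rfl⟩, _, ⟨q, hq, rfl⟩, rfl⟩
    exact ⟨p ++ q, by simp [hp, hq], by simp [word_append]⟩

/-- decomposition map -/
noncomputable def dec : QA step k →ₐ[k] ⨁ n, gr step k n :=
  lift (fun a => DirectSum.of (fun n => gr step k n) 1 ⟨x step k a, x_mem_gr step k a⟩)
    (by
      intro a b a' b' h
      rw [DirectSum.of_mul_of, DirectSum.of_mul_of]
      exact congrArg _ (Subtype.ext (x_mul_x_of_some step k h)))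
    (by
      intro a b h
      rw [DirectSum.of_mul_of]
      have : (GradedMonoid.GMul.mul (A := fun n => gr step k n)
          (⟨x step k a, x_mem_gr step k a⟩ : gr step k 1)
          (⟨x step k b, x_mem_gr step k b⟩ : gr step k 1)) = 0 :=
        Subtype.ext (x_mul_x_of_none step k h)
      rw [this, map_zero])

theorem dec_word (w : List L) :
    dec step k (word step k w) =
      DirectSum.of (fun n => gr step k n) w.length ⟨word step k w, word_mem_gr step k w⟩ := by
  induction w with
  | nil =>
    have e : dec step k (word step k []) = 1 := by rw [word_nil, map_one]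
    rw [e]; rfl
  | cons a w ih =>
    have e : dec step k (word step k (a :: w)) =
        dec step k (x step k a) * dec step k (word step k w) := by rw [word_cons, map_mul]
    rw [e, ih]
    unfold dec
    rw [lift_x, DirectSum.of_mul_of]
    exact DirectSum.of_eq_of_gradedMonoid_eq
      (Sigma.subtype_ext (add_comm _ _) (word_cons step k a w).symm)

noncomputable instance gradedAlgebra : GradedAlgebra (gr step k) :=
  GradedAlgebra.ofAlgHom _ (dec step k)
    (by
      refine algHom_ext fun a => ?_
      rw [AlgHom.comp_apply]
      unfold dec
      rw [lift_x, DirectSum.coeAlgHom_of, AlgHom.id_apply])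
    (by
      rintro i ⟨r, hr⟩
      dsimp only
      induction hr using Submodule.span_induction with
      | mem r h =>
        obtain ⟨w, hw, rfl⟩ := h
        subst hw
        exact dec_word step k w
      | zero => rw [map_zero]; exact (map_zero _).symm
      | add r s hr hs h1 h2 => rw [map_add, h1, h2, ← map_add]; rfl
      | smul c r hr h1 =>
        rw [map_smul, h1]
        rw [← DirectSum.lof_eq_of k, ← DirectSum.lof_eq_of k, ← map_smul]; rfl)


theorem proj_word (n : ℕ) (w : List L) :
    GradedRing.proj (gr step k) n (word step k w) = if w.length = n then word step k w else 0 := by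
  split_ifs with h
  · subst h
    exact DirectSum.decompose_of_mem_same _ (word_mem_gr step k w)
  · exact DirectSum.decompose_of_mem_ne _ (word_mem_gr step k w) h

/-- The augmentation. -/
noncomputable def aug : QA step k →ₐ[k] k :=
  lift (fun _ => 0) (by simp) (by simp)

@[simp] theorem aug_x (a : L) : aug step k (x step k a) = 0 := by
  unfold aug; rw [lift_x]

theorem aug_word (w : List L) : aug step k (word step k w) = if w = [] then 1 else 0 := by
  cases w with
  | nil => simp
  | cons a w => simp

theorem proj_zero_eq (r : QA step k) :
    GradedRing.proj (gr step k) 0 r = algebraMap k _ (aug step k r) := by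
  induction r using induction_on with
  | hw w =>
    rw [proj_word, aug_word]
    cases w with
    | nil => simp
    | cons a w => simp
  | hadd r s hr hs => rw [map_add, map_add, map_add, hr, hs]
  | hsmul c r hr =>
    have e : GradedRing.proj (gr step k) 0 (c • r) = c • GradedRing.proj (gr step k) 0 r := by
      rw [GradedRing.proj_apply, GradedRing.proj_apply, DirectSum.decompose_smul,
        DirectSum.smul_apply]
      rfl
    rw [e, hr, map_smul, smul_eq_mul, map_mul, ← Algebra.smul_def]

/-- Elements of augmentation zero are spanned by nonempty words. -/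
theorem mem_span_of_aug_eq_zero {r : QA step k} (h : aug step k r = 0) :
    r ∈ Submodule.span k {r | ∃ w : List L, w ≠ [] ∧ word step k w = r} := by
  have key : ∀ r : QA step k, r - algebraMap k _ (aug step k r) ∈
      Submodule.span k {r | ∃ w : List L, w ≠ [] ∧ word step k w = r} := by
    intro r
    induction r using induction_on with
    | hw w =>
      rw [aug_word]
      split_ifs with hw
      · subst hw; simp
      · rw [map_zero, sub_zero]
        exact Submodule.subset_span ⟨w, hw, rfl⟩
    | hadd r s hr hs =>
      have e : r + s - algebraMap k _ (aug step k (r + s)) =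
          (r - algebraMap k _ (aug step k r)) + (s - algebraMap k _ (aug step k s)) := by
        rw [map_add, map_add]; abel
      rw [e]; exact Submodule.add_mem _ hr hs
    | hsmul c r hr =>
      have e : c • r - algebraMap k _ (aug step k (c • r)) =
          c • (r - algebraMap k _ (aug step k r)) := by
        rw [map_smul, smul_eq_mul, map_mul, smul_sub, Algebra.smul_def c (algebraMap k _ _)]
      rw [e]; exact Submodule.smul_mem _ _ hr
  have := key r
  rwa [h, map_zero, sub_zero] at this



/-! ### Infinitude -/

theorem infinite_of_words [Nontrivial k]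
    (h : ∀ n : ℕ, ∃ w : List L, n ≤ w.length ∧ ¬ IsZ step w) : Infinite (QA step k) := by
  have h' : ∀ n : ℕ, ∃ w : List L, w.length = n ∧ ¬ IsZ step w := by
    intro n
    obtain ⟨w, hn, hw⟩ := h n
    refine ⟨w.take n, by simp [hn], fun hz => hw ?_⟩
    have := IsZ.context [] (w.drop n) hz
    simpa using this
  choose w hl hw using h'
  refine Infinite.of_injective (fun n => word step k (w n)) ?_
  intro m n e
  have := ((word_eq_iff step k).1 e).length_eq (hw m)
  rw [hl, hl] at this
  exact this

/-! ### Finite presentation -/

section pres

variable {step k}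
variable {m : ℕ} (e : L ≃ Fin m)

/-- right hand side of the relation for the pair `(i,j)` -/
noncomputable def rhs (step : L → L → Option (L × L)) (k : Type*) [CommRing k] (e : L ≃ Fin m)
    (i j : Fin m) : FreeAlgebra k (Fin m) :=
  match step (e.symm i) (e.symm j) with
  | none => 0
  | some ab => ι k (e ab.1) * ι k (e ab.2)

open Classical in
/-- The finite set of relations. -/
noncomputable def rels (step : L → L → Option (L × L)) (k : Type*) [CommRing k] (e : L ≃ Fin m) :
    Finset (FreeAlgebra k (Fin m) × FreeAlgebra k (Fin m)) :=
  Finset.univ.image fun ij : Fin m × Fin m =>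
    (ι k ij.1 * ι k ij.2, rhs step k e ij.1 ij.2)

theorem mem_rels {u v : FreeAlgebra k (Fin m)} :
    (u, v) ∈ rels step k e ↔ ∃ i j : Fin m, ι k i * ι k j = u ∧ rhs step k e i j = v := by
  simp only [rels, Finset.mem_image, Finset.mem_univ, true_and, Prod.exists, Prod.mk.injEq]

/-- The presentation. -/
noncomputable def presEquiv :
    QA step k ≃ₐ[k] RingQuot fun u v : FreeAlgebra k (Fin m) => (u, v) ∈ rels step k e :=
  AlgEquiv.ofAlgHom
    (lift (fun a => RingQuot.mkAlgHom k (fun u v => (u, v) ∈ rels step k e) (ι k (e a)))
      (by
        intro a b a' b' h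
        rw [← map_mul, ← map_mul]
        refine RingQuot.mkAlgHom_rel k ((mem_rels e).2 ⟨e a, e b, rfl, ?_⟩)
        simp [rhs, h])
      (by
        intro a b h
        rw [← map_mul, ← map_zero (RingQuot.mkAlgHom k (fun u v => (u, v) ∈ rels step k e))]
        refine RingQuot.mkAlgHom_rel k ((mem_rels e).2 ⟨e a, e b, rfl, ?_⟩)
        simp [rhs, h]))
    (RingQuot.liftAlgHom k ⟨FreeAlgebra.lift k fun i => x step k (e.symm i), by
      intro u v h
      obtain ⟨i, j, rfl, rfl⟩ := (mem_rels e).1 h
      rw [map_mul, lift_ι_apply, lift_ι_apply]
      unfold rhs
      cases hs : step (e.symm i) (e.symm j) with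
      | none => simp only [map_zero]; exact x_mul_x_of_none step k hs
      | some ab =>
        simp only [map_mul, lift_ι_apply, Equiv.symm_apply_apply]
        exact x_mul_x_of_some step k hs⟩)
    (by
      refine RingQuot.ringQuot_ext' k _ _ ?_
      refine FreeAlgebra.hom_ext ?_
      funext i
      simp only [Function.comp_apply, AlgHom.comp_apply, AlgHom.id_apply]
      rw [RingQuot.liftAlgHom_mkAlgHom_apply, lift_ι_apply, lift_x, Equiv.apply_symm_apply])
    (by
      refine algHom_ext fun a => ?_
      simp only [AlgHom.comp_apply, AlgHom.id_apply]
      rw [lift_x, RingQuot.liftAlgHom_mkAlgHom_apply, lift_ι_apply, Equiv.symm_apply_apply])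

end pres

/-! ### The reduction of S0266 -/


/-! ### Change of coefficients -/

section coeff

variable {k} {k' : Type*} [CommRing k'] (f : k →+* k')

/-- Change of coefficients. -/
noncomputable def mapCoeff : QA step k →+* QA step k' :=
  letI : Algebra k (QA step k') := Algebra.compHom _ f
  (lift (k := k) (step := step) (x step k')
    (fun _ _ _ _ h => x_mul_x_of_some step k' h)
    (fun _ _ h => x_mul_x_of_none step k' h) : QA step k →ₐ[k] QA step k').toRingHom

@[simp] theorem mapCoeff_x (a : L) : mapCoeff step f (x step k a) = x step k' a := by
  let _ : Algebra k (QA step k') := Algebra.compHom _ f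
  exact lift_x (k := k) (step := step) (x step k') _ _ a

@[simp] theorem mapCoeff_algebraMap (c : k) :
    mapCoeff step f (algebraMap k _ c) = algebraMap k' _ (f c) := by
  let _ : Algebra k (QA step k') := Algebra.compHom _ f
  exact AlgHom.commutes (lift (k := k) (step := step) (x step k')
    (fun _ _ _ _ h => x_mul_x_of_some step k' h)
    (fun _ _ h => x_mul_x_of_none step k' h) : QA step k →ₐ[k] QA step k') c



end coeff

/-! ### Relabelling and substitution by words -/

section subst

variable {L' : Type*} (step' : L' → L' → Option (L' × L'))

variable {step step'} in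
/-- Substitution of words for letters. -/
noncomputable def subst (g : L → List L')
    (hm : ∀ a b a' b', step a b = some (a', b') →
      WEq step' (some (g a ++ g b)) (some (g a' ++ g b')))
    (hz : ∀ a b, step a b = none → IsZ step' (g a ++ g b)) : QA step k →ₐ[k] QA step' k :=
  lift (fun a => word step' k (g a))
    (by
      intro a b a' b' h
      rw [← word_append, ← word_append]
      exact word_eq_of_WEq step' k (hm _ _ _ _ h))
    (by
      intro a b h
      rw [← word_append]
      exact word_eq_zero_of_isZ step' k (hz _ _ h))


end subst

end Crest.Agent.R176.QAlg206
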