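import Crest.Agent.R176.StDef

/-! Row 176, part B: column and row subgroups of the Steinberg group `St I R` (`I` finite).
`col k a = ∏_{i ≠ k} x_{ik}(a_i)`, `row k b = ∏_{j ≠ k} x_{kj}(b_j)` (the value `a k` is ignored). -/

set_option autoImplicit false
set_option linter.unusedVariables false
set_option linter.unusedSectionVars false

namespace Crest.Agent.R176.St

open scoped commutatorElement

variable {I R : Type*} [Ring R] [Fintype I] [DecidableEq I]

/-- `r ↦ x_ij(r)` as a homomorphism. -/
def xHom (i j : I) (h : i ≠ j) : Multiplicative R →* St I R where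
  toFun r := x i j h r.toAdd
  map_one' := x_zero i j h
  map_mul' r s := x_add i j h _ _

@[simp] theorem xHom_apply (i j : I) (h : i ≠ j) (r : Multiplicative R) :
    xHom i j h r = x i j h r.toAdd := rfl

/-- the column homomorphism -/
def colHom (k : I) : (∀ _ : {i : I // i ≠ k}, Multiplicative R) →* St I R :=
  MonoidHom.noncommPiCoprod (fun i : {i : I // i ≠ k} => xHom i.1 k i.2)
    (fun i j _ r s => x_commute i.1 k j.1 k i.2 j.2 j.2.symm i.2 _ _)

/-- the row homomorphism -/
def rowHom (k : I) : (∀ _ : {i : I // i ≠ k}, Multiplicative R) →* St I R :=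
  MonoidHom.noncommPiCoprod (fun j : {i : I // i ≠ k} => xHom k j.1 j.2.symm)
    (fun i j _ r s => x_commute k i.1 k j.1 i.2.symm j.2.symm i.2 j.2.symm _ _)

/-- `col k a = ∏_{i ≠ k} x_{ik}(a_i)` -/
def col (k : I) (a : I → R) : St I R := colHom k (fun i => Multiplicative.ofAdd (a i.1))

/-- `row k b = ∏_{j ≠ k} x_{kj}(b_j)` -/
def row (k : I) (b : I → R) : St I R := rowHom k (fun i => Multiplicative.ofAdd (b i.1))

theorem col_congr (k : I) {a b : I → R} (h : ∀ i, i ≠ k → a i = b i) : col k a = col k b := by
  unfold col
  congr 1
  funext i
  rw [h i.1 i.2]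

theorem row_congr (k : I) {a b : I → R} (h : ∀ i, i ≠ k → a i = b i) : row k a = row k b := by
  unfold row
  congr 1
  funext i
  rw [h i.1 i.2]

theorem col_add (k : I) (a b : I → R) : col k (a + b) = col k a * col k b := by
  unfold col
  rw [← map_mul]
  rfl

theorem row_add (k : I) (a b : I → R) : row k (a + b) = row k a * row k b := by
  unfold row
  rw [← map_mul]
  rfl

@[simp] theorem col_zero (k : I) : col k (0 : I → R) = 1 := by
  have := col_add k (0 : I → R) 0
  rw [add_zero] at this
  exact left_eq_mul.mp this

@[simp] theorem row_zero (k : I) : row k (0 : I → R) = 1 := by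
  have := row_add k (0 : I → R) 0
  rw [add_zero] at this
  exact left_eq_mul.mp this


theorem row_neg (k : I) (a : I → R) : row k (-a) = (row k a)⁻¹ := by
  rw [eq_inv_iff_mul_eq_one, ← row_add, neg_add_cancel, row_zero]

theorem col_single (k i : I) (h : i ≠ k) (r : R) :
    col k (Pi.single i r) = x i k h r := by
  unfold col colHom
  have : (fun j : {i : I // i ≠ k} => Multiplicative.ofAdd ((Pi.single i r : I → R) j.1)) =
      Pi.mulSingle (⟨i, h⟩ : {i : I // i ≠ k}) (Multiplicative.ofAdd r) := by
    funext j
    by_cases hj : j.1 = i
    · have : j = ⟨i, h⟩ := Subtype.ext hj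
      subst this
      simp
    · have : j ≠ ⟨i, h⟩ := fun e => hj (congrArg Subtype.val e)
      rw [Pi.single_eq_of_ne hj, Pi.mulSingle_eq_of_ne this]
      rfl
  rw [this]
  exact MonoidHom.noncommPiCoprod_mulSingle _ _ _

theorem row_single (k j : I) (h : k ≠ j) (r : R) :
    row k (Pi.single j r) = x k j h r := by
  unfold row rowHom
  have : (fun i : {i : I // i ≠ k} => Multiplicative.ofAdd ((Pi.single j r : I → R) i.1)) =
      Pi.mulSingle (⟨j, h.symm⟩ : {i : I // i ≠ k}) (Multiplicative.ofAdd r) := by
    funext i
    by_cases hj : i.1 = j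
    · have : i = ⟨j, h.symm⟩ := Subtype.ext hj
      subst this
      simp
    · have : i ≠ ⟨j, h.symm⟩ := fun e => hj (congrArg Subtype.val e)
      rw [Pi.single_eq_of_ne hj, Pi.mulSingle_eq_of_ne this]
      rfl
  rw [this]
  exact MonoidHom.noncommPiCoprod_mulSingle _ _ _

@[simp] theorem col_single_self (k : I) (r : R) : col k (Pi.single k r) = 1 := by
  rw [← col_zero k]
  exact col_congr k fun i hi => by rw [Pi.single_eq_of_ne hi]; rfl

@[simp] theorem row_single_self (k : I) (r : R) : row k (Pi.single k r) = 1 := by
  rw [← row_zero k]
  exact row_congr k fun i hi => by rw [Pi.single_eq_of_ne hi]; rfl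

/-- Induction principle for columns: additive generation by singles. -/
theorem pi_induction {p : (I → R) → Prop} (h0 : p 0)
    (hadd : ∀ a b, p a → p b → p (a + b)) (hs : ∀ i r, p (Pi.single i r)) (a : I → R) : p a := by
  rw [← Finset.univ_sum_single a]
  exact Finset.sum_induction _ p (fun a b => hadd a b) h0 (fun i _ => hs i (a i))

theorem col_commute_col (k l : I) (a b : I → R) (hak : a l = 0) (hbk : b k = 0) :
    Commute (col k a) (col l b) := by
  by_cases hkl : k = l
  · subst hkl
    unfold col
    rw [commute_iff_eq, ← map_mul, ← map_mul, mul_comm]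
  -- induct on supports
  have key : ∀ s : Finset I, l ∉ s → ∀ t : Finset I, k ∉ t →
      Commute (col k (∑ i ∈ s, Pi.single i (a i))) (col l (∑ i ∈ t, Pi.single i (b i))) := by
    intro s
    induction s using Finset.induction_on with
    | empty => intro _ t _; simp
    | insert i s his ih =>
      intro hl t hk
      rw [Finset.sum_insert his, col_add]
      apply Commute.mul_left _ (ih (fun h => hl (Finset.mem_insert_of_mem h)) t hk)
      by_cases hik : i = k
      · subst hik; simp
      rw [col_single k i hik]
      clear ih
      induction t using Finset.induction_on with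
      | empty => simp
      | insert j t hjt iht =>
        rw [Finset.sum_insert hjt, col_add]
        apply Commute.mul_right _ (iht (fun h => hk (Finset.mem_insert_of_mem h)))
        by_cases hjl : j = l
        · subst hjl; simp
        rw [col_single l j hjl]
        apply x_commute
        · rintro rfl; exact hk (Finset.mem_insert_self _ _)
        · rintro rfl; exact hl (Finset.mem_insert_self _ _)
  have e1 : a = ∑ i ∈ Finset.univ.erase l, Pi.single i (a i) := by
    conv_lhs => rw [← Finset.univ_sum_single a]
    rw [← Finset.add_sum_erase _ _ (Finset.mem_univ l), hak, Pi.single_zero, zero_add]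
  have e2 : b = ∑ i ∈ Finset.univ.erase k, Pi.single i (b i) := by
    conv_lhs => rw [← Finset.univ_sum_single b]
    rw [← Finset.add_sum_erase _ _ (Finset.mem_univ k), hbk, Pi.single_zero, zero_add]
  rw [e1, e2]
  exact key _ (Finset.notMem_erase _ _) _ (Finset.notMem_erase _ _)

/-- `x_ij(r)` acts on columns: `x_ij(r) col_k(a) x_ij(r)⁻¹ = col_k(a + a_j r e_i)`. -/
theorem x_mul_col (k i j : I) (h : i ≠ j) (hi : i ≠ k) (hj : j ≠ k) (r : R) (a : I → R) :
    x i j h r * col k a = col k (a + Pi.single i (r * a j)) * x i j h r := by
  induction a using pi_induction with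
  | h0 => simp
  | hadd a b iha ihb =>
    rw [col_add, ← mul_assoc, iha, mul_assoc, ihb, ← mul_assoc, ← col_add]
    congr 2
    rw [Pi.add_apply, mul_add, Pi.single_add]
    abel
  | hs l s =>
    by_cases hlk : l = k
    · subst hlk
      rw [col_single_self, mul_one, Pi.single_eq_of_ne hj, mul_zero, Pi.single_zero, add_zero,
        col_single_self, one_mul]
    by_cases hlj : l = j
    · subst hlj
      rw [Pi.single_eq_same, col_single k l hlk, col_add, col_single k l hlk, col_single k i hi,
        ← x_comm i l k h hlk hi r s, commutatorElement_def]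
      have : Commute (x l k hlk s) (x i l h r * x l k hlk s * (x i l h r)⁻¹ * (x l k hlk s)⁻¹) := by
        have h2 := x_comm i l k h hlk hi r s
        rw [commutatorElement_def] at h2
        rw [h2]
        exact x_commute _ _ _ _ _ _ hi.symm hlk _ _
      rw [this.eq]
      group
    · rw [Pi.single_eq_of_ne (Ne.symm hlj), mul_zero, Pi.single_zero, add_zero, col_single k l hlk]
      exact (x_commute i j l k h hlk (Ne.symm hlj) hi r s).eq

/-- `x_ij(r)` acts on rows: `x_ij(r) row_k(b) = row_k(b - b_i r e_j) x_ij(r)`. -/
theorem x_mul_row (k i j : I) (h : i ≠ j) (hi : i ≠ k) (hj : j ≠ k) (r : R) (b : I → R) :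
    x i j h r * row k b = row k (b - Pi.single j (b i * r)) * x i j h r := by
  induction b using pi_induction with
  | h0 => simp
  | hadd a b iha ihb =>
    rw [row_add, ← mul_assoc, iha, mul_assoc, ihb, ← mul_assoc, ← row_add]
    congr 2
    rw [Pi.add_apply, add_mul, Pi.single_add]
    abel
  | hs l s =>
    by_cases hlk : l = k
    · subst hlk
      rw [row_single_self, mul_one, Pi.single_eq_of_ne hi, zero_mul, Pi.single_zero, sub_zero,
        row_single_self, one_mul]
    by_cases hli : l = i
    · subst hli
      rw [Pi.single_eq_same, sub_eq_add_neg, row_add, row_neg, row_single k l (Ne.symm hlk),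
        row_single k j (Ne.symm hj)]
      have h2 := x_comm k l j (Ne.symm hlk) h (Ne.symm hj) s r
      have h3 : Commute (x k l (Ne.symm hlk) s) (x k j (Ne.symm hj) (s * r)) :=
        x_commute _ _ _ _ _ _ hlk (Ne.symm hj) _ _
      rw [commutatorElement_def, mul_inv_eq_iff_eq_mul, mul_inv_eq_iff_eq_mul] at h2
      rw [h3.inv_right.eq, mul_assoc, h2]
      group
    · rw [Pi.single_eq_of_ne (Ne.symm hli), zero_mul, Pi.single_zero, sub_zero,
        row_single k l (Ne.symm hlk)]
      exact (x_commute i j k l h (Ne.symm hlk) hj (Ne.symm hli) r s).eq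

/-- moving `x_{kj}(b)` across a column with `a_j = 0`. -/
theorem x_row_mul_col (k j : I) (h : k ≠ j) (b : R) (a : I → R) (haj : a j = 0) (hak : a k = 0) :
    x k j h b * col k a = col k a * col j (fun i => -(a i * b)) * x k j h b := by
  have key : ∀ s : Finset I, j ∉ s → k ∉ s →
      x k j h b * col k (∑ i ∈ s, Pi.single i (a i)) =
      col k (∑ i ∈ s, Pi.single i (a i)) * col j (∑ i ∈ s, Pi.single i (-(a i * b))) *
        x k j h b := by
    intro s
    induction s using Finset.induction_on with
    | empty => intro _ _; simp
    | insert i s his ih =>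
      intro hj hk
      have hij : i ≠ j := by rintro rfl; exact hj (Finset.mem_insert_self _ _)
      have hik : i ≠ k := by rintro rfl; exact hk (Finset.mem_insert_self _ _)
      have ih' := ih (fun h => hj (Finset.mem_insert_of_mem h))
        (fun h => hk (Finset.mem_insert_of_mem h))
      rw [Finset.sum_insert his, Finset.sum_insert his, add_comm (Pi.single i (a i) : I → R), col_add,
        col_add, col_single k i hik, col_single j i hij, x_neg]
      have hcm := x_comm i k j hik h hij (a i) b
      have h1 : Commute (x i k hik (a i)) (col j (∑ i ∈ s, Pi.single i (-(a i * b)))) := by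
        rw [← col_single k i hik]
        apply col_commute_col
        · rw [Pi.single_eq_of_ne (Ne.symm hij)]
        · rw [Finset.sum_apply]
          apply Finset.sum_eq_zero
          intro l hl
          rw [Pi.single_eq_of_ne]
          rintro rfl
          exact hk (Finset.mem_insert_of_mem hl)
      have h2 : Commute (x i j hij (a i * b)) (col j (∑ i ∈ s, Pi.single i (-(a i * b)))) := by
        rw [← col_single j i hij]
        unfold col
        rw [commute_iff_eq, ← map_mul, ← map_mul, mul_comm]
      have h3 : Commute (x i k hik (a i)) (x i j hij (a i * b)) :=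
        x_commute _ _ _ _ _ _ (Ne.symm hik) hij _ _
      generalize x i j hij (a i * b) = E at *
      generalize x i k hik (a i) = X at *
      generalize x k j h b = B at *
      generalize col j (∑ i ∈ s, Pi.single i (-(a i * b))) = C at *
      generalize col k (∑ i ∈ s, Pi.single i (a i)) = A at *
      have hBX : B * X = E⁻¹ * X * B := by
        rw [← hcm, commutatorElement_def]; group
      calc B * (A * X) = A * (C * (B * X)) := by rw [← mul_assoc, ih']; simp only [mul_assoc]
        _ = A * (C * E⁻¹ * X) * B := by rw [hBX]; simp only [mul_assoc]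
        _ = A * X * (E⁻¹ * C) * B := by
            rw [← h2.inv_left.eq, mul_assoc E⁻¹, ← h1.eq, ← mul_assoc E⁻¹, ← h3.inv_right.eq]
            simp only [mul_assoc]
  have e1 : a = ∑ i ∈ (Finset.univ.erase j).erase k, Pi.single i (a i) := by
    conv_lhs => rw [← Finset.univ_sum_single a]
    rw [← Finset.add_sum_erase _ _ (Finset.mem_univ j), haj, Pi.single_zero, zero_add,
      ← Finset.add_sum_erase _ _ (Finset.mem_erase.mpr ⟨h, Finset.mem_univ k⟩), hak,
      Pi.single_zero, zero_add]
  have e2 : (fun i => -(a i * b)) =
      ∑ i ∈ (Finset.univ.erase j).erase k, Pi.single i (-(a i * b)) := by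
    conv_lhs => rw [← Finset.univ_sum_single (fun i => -(a i * b))]
    rw [← Finset.add_sum_erase _ _ (Finset.mem_univ j), haj, zero_mul, neg_zero, Pi.single_zero,
      zero_add, ← Finset.add_sum_erase _ _ (Finset.mem_erase.mpr ⟨h, Finset.mem_univ k⟩), hak,
      zero_mul, neg_zero, Pi.single_zero, zero_add]
  have := key ((Finset.univ.erase j).erase k)
    (fun h => Finset.notMem_erase j _ (Finset.mem_of_mem_erase h)) (Finset.notMem_erase k _)
  rw [← e1, ← e2] at this
  exact this

/-- The matrix of a column. -/
theorem toMat_col (k : I) (a : I → R) :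
    (toMat (col k a)).val = 1 + Matrix.of (fun i j => if j = k ∧ i ≠ k then a i else 0) := by
  induction a using pi_induction with
  | h0 =>
    rw [col_zero, map_one, Units.val_one]
    ext i j
    simp
  | hadd a b iha ihb =>
    rw [col_add, map_mul, Units.val_mul, iha, ihb, mul_add, mul_one, add_mul, one_mul]
    have : (Matrix.of fun i j => if j = k ∧ i ≠ k then a i else 0) *
        (Matrix.of fun i j => if j = k ∧ i ≠ k then b i else 0) = 0 := by
      ext i j
      rw [Matrix.mul_apply]
      apply Finset.sum_eq_zero
      intro l _
      simp only [Matrix.of_apply]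
      by_cases hl : l = k
      · simp [hl]
      · simp [hl]
    rw [this, add_zero, add_assoc]
    congr 1
    ext i j
    simp only [Matrix.add_apply, Matrix.of_apply, Pi.add_apply]
    split_ifs <;> simp
  | hs l s =>
    by_cases hlk : l = k
    · subst hlk
      rw [col_single_self, map_one, Units.val_one]
      have : (Matrix.of fun i j => if j = l ∧ i ≠ l then (Pi.single l s : I → R) i else 0) = 0 := by
        ext i j
        simp only [Matrix.of_apply, Matrix.zero_apply]
        by_cases hi : i = l
        · simp [hi]
        · simp [hi]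
      rw [this, add_zero]
    · rw [col_single k l hlk, toMat_x, elem_val]
      congr 1
      ext i j
      simp only [Matrix.of_apply, Matrix.single_apply]
      by_cases hi : l = i
      · subst hi
        by_cases hj : k = j
        · subst hj
          simp [hlk]
        · simp [hj, Ne.symm hj]
      · rw [Pi.single_eq_of_ne (Ne.symm hi)]
        simp [hi]

/-- The matrix of a row. -/
theorem toMat_row (k : I) (b : I → R) :
    (toMat (row k b)).val = 1 + Matrix.of (fun i j => if i = k ∧ j ≠ k then b j else 0) := by
  induction b using pi_induction with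
  | h0 =>
    rw [row_zero, map_one, Units.val_one]
    ext i j
    simp
  | hadd a b iha ihb =>
    rw [row_add, map_mul, Units.val_mul, iha, ihb, mul_add, mul_one, add_mul, one_mul]
    have : (Matrix.of fun i j => if i = k ∧ j ≠ k then a j else 0) *
        (Matrix.of fun i j => if i = k ∧ j ≠ k then b j else 0) = 0 := by
      ext i j
      rw [Matrix.mul_apply]
      apply Finset.sum_eq_zero
      intro l _
      simp only [Matrix.of_apply]
      by_cases hl : l = k
      · simp [hl]
      · simp [hl]
    rw [this, add_zero, add_assoc]
    congr 1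
    ext i j
    simp only [Matrix.add_apply, Matrix.of_apply, Pi.add_apply]
    split_ifs <;> simp
  | hs l s =>
    by_cases hlk : l = k
    · subst hlk
      rw [row_single_self, map_one, Units.val_one]
      have : (Matrix.of fun i j => if i = l ∧ j ≠ l then (Pi.single l s : I → R) j else 0) = 0 := by
        ext i j
        simp only [Matrix.of_apply, Matrix.zero_apply]
        by_cases hi : j = l
        · simp [hi]
        · simp [hi]
      rw [this, add_zero]
    · rw [row_single k l (Ne.symm hlk), toMat_x, elem_val]
      congr 1
      ext i j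
      simp only [Matrix.of_apply, Matrix.single_apply]
      by_cases hj : l = j
      · subst hj
        by_cases hi : k = i
        · subst hi
          simp [hlk]
        · simp [hi, Ne.symm hi]
      · rw [Pi.single_eq_of_ne (Ne.symm hj)]
        simp [hj]

end Crest.Agent.R176.St
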