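import Crest.Agent.R176.StDef

/-! Row 176, part B, block TITS (helper370): the kernel of `St I R → St I S` for a surjection
`R → S` is the normal closure of the elementary generators with coefficients in the kernel `J`,
and if `J` is additively spanned by products `b * c` with `b, c ∈ B` (`B` a two-sided ideal) then
this normal closure is contained in the subgroup generated by the `x i j b`, `b ∈ B`. -/

set_option autoImplicit false

namespace Crest.Agent.R176.Tits370

open scoped commutatorElement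
open Crest.Agent.R176 St

variable {I R : Type*} [Ring R]

theorem conj_eq_of_comm {G : Type*} [Group G] {a b c : G} (h : ⁅a, b⁆ = c) :
    a * b * a⁻¹ = c * b := by
  rw [← h, commutatorElement_def]; group

theorem conj_right (i j k : I) (hij : i ≠ j) (hjk : j ≠ k) (hik : i ≠ k) (r s : R) :
    x i j hij r * x j k hjk s * (x i j hij r)⁻¹ = x i k hik (r * s) * x j k hjk s :=
  conj_eq_of_comm (x_comm _ _ _ _ _ _ _ _)

theorem conj_left (i j k : I) (hij : i ≠ j) (hjk : j ≠ k) (hik : i ≠ k) (r s : R) :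
    x j k hjk s * x i j hij r * (x j k hjk s)⁻¹ = x i k hik (-(r * s)) * x i j hij r := by
  apply conj_eq_of_comm
  rw [← commutatorElement_inv, x_comm (R := R) i j k hij hjk hik r s, ← x_neg]

theorem conj_triv (i j k l : I) (hij : i ≠ j) (hkl : k ≠ l) (hjk : j ≠ k) (hil : i ≠ l)
    (r s : R) : x i j hij r * x k l hkl s * (x i j hij r)⁻¹ = x k l hkl s := by
  rw [mul_inv_eq_iff_eq_mul]
  exact x_commute _ _ _ _ _ _ hjk hil _ _

theorem cmul {G : Type*} [Group G] (a b c : G) :
    a * (b * c) * a⁻¹ = (a * b * a⁻¹) * (a * c * a⁻¹) := by group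

theorem cinv {G : Type*} [Group G] (a b : G) : a * b⁻¹ * a⁻¹ = (a * b * a⁻¹)⁻¹ := by group

theorem ccomp {G : Type*} [Group G] (a b c : G) :
    (a * b) * c * (a * b)⁻¹ = a * (b * c * b⁻¹) * a⁻¹ := by group

theorem ccomm {G : Type*} [Group G] (a b c : G) :
    a * ⁅b, c⁆ * a⁻¹ = ⁅a * b * a⁻¹, a * c * a⁻¹⁆ := by
  rw [commutatorElement_def, commutatorElement_def]; group

/-- a (two-sided) ideal, as an additive subgroup -/
structure IsIdeal (J : AddSubgroup R) : Prop where
  left : ∀ a r, r ∈ J → a * r ∈ J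
  right : ∀ a r, r ∈ J → r * a ∈ J

/-- `z_ij(r,a) = x_ji(a) x_ij(r) x_ji(a)⁻¹` -/
def z (i j : I) (h : i ≠ j) (r a : R) : St I R :=
  x j i h.symm a * x i j h r * (x j i h.symm a)⁻¹

/-- the subgroup generated by all `z_ij(r,a)`, `r ∈ J` -/
def Z (I : Type*) (J : AddSubgroup R) : Subgroup (St I R) :=
  Subgroup.closure {g | ∃ (i j : I) (h : i ≠ j) (r a : R), r ∈ J ∧ g = z i j h r a}

/-- the subgroup generated by all `x_ij(r)`, `r ∈ J` -/
def E (I : Type*) (J : AddSubgroup R) : Subgroup (St I R) :=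
  Subgroup.closure {g | ∃ (i j : I) (h : i ≠ j) (r : R), r ∈ J ∧ g = x i j h r}

theorem x_mem_E {J : AddSubgroup R} (i j : I) (h : i ≠ j) {r : R} (hr : r ∈ J) :
    x i j h r ∈ E I J := Subgroup.subset_closure ⟨i, j, h, r, hr, rfl⟩

theorem z_mem_Z {J : AddSubgroup R} (i j : I) (h : i ≠ j) {r : R} (a : R) (hr : r ∈ J) :
    z i j h r a ∈ Z I J := Subgroup.subset_closure ⟨i, j, h, r, a, hr, rfl⟩

theorem x_mem_Z {J : AddSubgroup R} (i j : I) (h : i ≠ j) {r : R} (hr : r ∈ J) :
    x i j h r ∈ Z I J := by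
  have := z_mem_Z i j h (0 : R) hr
  rwa [z, x_zero, one_mul, inv_one, mul_one] at this

variable {J : AddSubgroup R}

/-- case (B): `k ∉ {i,j}`, `l = i` -/
theorem caseB (hJ : IsIdeal J) (i j k : I) (h : i ≠ j) (hki : k ≠ i) (hkj : k ≠ j) (r a c : R)
    (hr : r ∈ J) : x k i hki c * z i j h r a * (x k i hki c)⁻¹ ∈ Z I J := by
  have e1 : x k i hki c * z i j h r a * (x k i hki c)⁻¹ =
      x j i h.symm a * (x k i hki c * x i j h r * (x k i hki c)⁻¹) * (x j i h.symm a)⁻¹ := by
    rw [z, cmul, cmul, cinv, conj_triv k i j i hki h.symm h hki]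
  rw [e1, conj_right k i j hki h hkj, cmul, conj_left k j i hkj h.symm hki]
  refine mul_mem (mul_mem (x_mem_Z _ _ _ ?_) (x_mem_Z _ _ _ ?_)) (z_mem_Z _ _ _ _ hr)
  · exact neg_mem (hJ.right _ _ (hJ.left _ _ hr))
  · exact hJ.left _ _ hr

/-- case (C): `k ∉ {i,j}`, `l = j` -/
theorem caseC (hJ : IsIdeal J) (i j k : I) (h : i ≠ j) (hki : k ≠ i) (hkj : k ≠ j) (r a c : R)
    (hr : r ∈ J) : x k j hkj c * z i j h r a * (x k j hkj c)⁻¹ ∈ Z I J := by
  have e1 : x k j hkj c * z i j h r a * (x k j hkj c)⁻¹ =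
      x k i hki (c * a) * z i j h r a * (x k i hki (c * a))⁻¹ := by
    rw [z, cmul, cmul, cinv, conj_right k j i hkj h.symm hki,
      conj_triv k j i j hkj h h.symm hkj]
    group
  rw [e1]
  exact caseB hJ i j k h hki hkj r a _ hr

/-- case (D): `k = j`, `l ∉ {i,j}` -/
theorem caseD (hJ : IsIdeal J) (i j l : I) (h : i ≠ j) (hli : l ≠ i) (hlj : l ≠ j) (r a c : R)
    (hr : r ∈ J) : x j l hlj.symm c * z i j h r a * (x j l hlj.symm c)⁻¹ ∈ Z I J := by
  have e1 : x j l hlj.symm c * z i j h r a * (x j l hlj.symm c)⁻¹ =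
      x j i h.symm a * (x j l hlj.symm c * x i j h r * (x j l hlj.symm c)⁻¹) *
        (x j i h.symm a)⁻¹ := by
    rw [z, cmul, cmul, cinv, conj_triv j l j i hlj.symm h.symm hlj h.symm]
  rw [e1, conj_left i j l h hlj.symm hli.symm, cmul, conj_right j i l h.symm hli.symm hlj.symm]
  refine mul_mem (mul_mem (x_mem_Z _ _ _ ?_) (x_mem_Z _ _ _ ?_)) (z_mem_Z _ _ _ _ hr)
  · exact hJ.left _ _ (neg_mem (hJ.right _ _ hr))
  · exact neg_mem (hJ.right _ _ hr)

/-- case (E): `k = i`, `l ∉ {i,j}` -/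
theorem caseE (hJ : IsIdeal J) (i j l : I) (h : i ≠ j) (hli : l ≠ i) (hlj : l ≠ j) (r a c : R)
    (hr : r ∈ J) : x i l hli.symm c * z i j h r a * (x i l hli.symm c)⁻¹ ∈ Z I J := by
  have e1 : x i l hli.symm c * z i j h r a * (x i l hli.symm c)⁻¹ =
      x j l hlj.symm (-(a * c)) * z i j h r a * (x j l hlj.symm (-(a * c)))⁻¹ := by
    rw [z, cmul, cmul, cinv, conj_left j i l h.symm hli.symm hlj.symm,
      conj_triv i l i j hli.symm h hli h]
    group
  rw [e1]
  exact caseD hJ i j l h hli hlj r a _ hr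

/-- case (F) -/
theorem caseF (i j : I) (h : i ≠ j) (r a c : R)
    (hr : r ∈ J) : x j i h.symm c * z i j h r a * (x j i h.symm c)⁻¹ ∈ Z I J := by
  have e1 : x j i h.symm c * z i j h r a * (x j i h.symm c)⁻¹ = z i j h r (c + a) := by
    rw [z, z, x_add]; group
  rw [e1]
  exact z_mem_Z _ _ _ _ hr

/-- case (G): `(k,l) = (i,j)` -/
theorem caseG (hJ : IsIdeal J) (i j m : I) (h : i ≠ j) (hmi : m ≠ i) (hmj : m ≠ j) (r a c : R)
    (hr : r ∈ J) : x i j h c * z i j h r a * (x i j h c)⁻¹ ∈ Z I J := by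
  have e0 : x i j h r = ⁅x i m hmi.symm r, x m j hmj (1 : R)⁆ := by
    rw [x_comm (R := R) i m j hmi.symm hmj h, mul_one]
  have e1 : z i j h r a = ⁅x j m hmj.symm (a * r) * x i m hmi.symm r,
      x m i hmi (-(1 * a)) * x m j hmj (1 : R)⁆ := by
    rw [z, e0, ccomm, conj_right j i m h.symm hmi.symm hmj.symm,
      conj_left m j i hmj h.symm hmi]
  have e2 : x i j h c * (x j m hmj.symm (a * r) * x i m hmi.symm r) * (x i j h c)⁻¹ =
      x i m hmi.symm (c * (a * r)) * x j m hmj.symm (a * r) * x i m hmi.symm r := by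
    rw [cmul, conj_right i j m h hmj.symm hmi.symm, conj_triv i j i m h hmi.symm h.symm hmi.symm]
  have e3 : x i j h c * (x m i hmi (-(1 * a)) * x m j hmj (1 : R)) * (x i j h c)⁻¹ =
      x m j hmj (-(-(1 * a) * c) + 1) * x m i hmi (-(1 * a)) := by
    rw [cmul, conj_left m i j hmi h hmj, conj_triv i j m j h hmj hmj.symm h, x_add, mul_assoc,
      mul_assoc]
    congr 1
    exact (x_commute m i m j hmi hmj hmi.symm hmj _ _).eq
  rw [e1, ccomm, e2, e3]
  set β : R := -(-(1 * a) * c) + 1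
  set α : R := -(1 * a)
  -- conj of J-elements by v' = x_mj(β) x_mi(α)
  have c1 : ∀ t ∈ J, (x m j hmj β * x m i hmi α) * x i m hmi.symm t *
      (x m j hmj β * x m i hmi α)⁻¹ ∈ Z I J := by
    intro t ht
    rw [ccomp]
    exact caseD hJ i m j hmi.symm h.symm hmj.symm t α β ht
  have c2 : ∀ s ∈ J, (x m j hmj β * x m i hmi α) * x j m hmj.symm s *
      (x m j hmj β * x m i hmi α)⁻¹ ∈ Z I J := by
    intro s hs
    rw [ccomp, conj_left j m i hmj.symm hmi h.symm, cmul, conj_right m j i hmj h.symm hmi]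
    refine mul_mem (mul_mem (x_mem_Z _ _ _ ?_) (x_mem_Z _ _ _ ?_)) (z_mem_Z j m hmj.symm β hs)
    · exact hJ.left _ _ (neg_mem (hJ.right _ _ hs))
    · exact neg_mem (hJ.right _ _ hs)
  have hu : ∀ t s t' : R, t ∈ J → s ∈ J → t' ∈ J →
      ⁅x i m hmi.symm t * x j m hmj.symm s * x i m hmi.symm t', x m j hmj β * x m i hmi α⁆
        ∈ Z I J := by
    intro t s t' ht hs ht'
    rw [commutatorElement_def]
    have e : ∀ u v : St I R, u * v * u⁻¹ * v⁻¹ = u * (v * u * v⁻¹)⁻¹ := by intro u v; group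
    rw [e]
    refine mul_mem (mul_mem (mul_mem (x_mem_Z _ _ _ ht) (x_mem_Z _ _ _ hs)) (x_mem_Z _ _ _ ht'))
      (inv_mem ?_)
    rw [cmul, cmul]
    exact mul_mem (mul_mem (c1 t ht) (c2 s hs)) (c1 t' ht')
  exact hu _ _ _ (hJ.left _ _ (hJ.left _ _ hr)) (hJ.left _ _ hr) hr

/-- conjugation by a generator preserves `Z` -/
theorem conj_gen_mem (h3 : ∀ a b : I, ∃ c : I, c ≠ a ∧ c ≠ b) (hJ : IsIdeal J) (k l : I)
    (hkl : k ≠ l) (c : R) {g : St I R} (hg : g ∈ Z I J) :
    x k l hkl c * g * (x k l hkl c)⁻¹ ∈ Z I J := by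
  induction hg using Subgroup.closure_induction with
  | mem g hg =>
    obtain ⟨i, j, h, r, a, hr, rfl⟩ := hg
    obtain ⟨m, hmi, hmj⟩ := h3 i j
    by_cases hki : k = i
    · subst hki
      by_cases hlj : l = j
      · subst hlj; exact caseG hJ k l m h hmi hmj r a c hr
      · exact caseE hJ k j l h hkl.symm hlj r a c hr
    · by_cases hkj : k = j
      · subst hkj
        by_cases hli : l = i
        · subst hli; exact caseF l k h r a c hr
        · exact caseD hJ i k l h hli hkl.symm r a c hr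
      · by_cases hli : l = i
        · subst hli; exact caseB hJ l j k h hki hkj r a c hr
        · by_cases hlj : l = j
          · subst hlj; exact caseC hJ i l k h hki hkj r a c hr
          · rw [z, cmul, cmul, cinv, conj_triv k l j i hkl h.symm hlj hki,
              conj_triv k l i j hkl h hli hkj]
            exact z_mem_Z i j h a hr
  | one => simp
  | mul g g' _ _ ih ih' => rw [cmul]; exact mul_mem ih ih'
  | inv g _ ih => rw [cinv]; exact inv_mem ih

theorem Z_normal (h3 : ∀ a b : I, ∃ c : I, c ≠ a ∧ c ≠ b) (hJ : IsIdeal J) : (Z I J).Normal := by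
  constructor
  intro n hn g
  induction g using St.induction with
  | h1 => simpa using hn
  | hx i j h r g ih => rw [ccomp]; exact conj_gen_mem h3 hJ i j h r ih

theorem normalClosure_le_Z (h3 : ∀ a b : I, ∃ c : I, c ≠ a ∧ c ≠ b) (hJ : IsIdeal J) :
    Subgroup.normalClosure {g : St I R | ∃ (i j : I) (h : i ≠ j) (r : R), r ∈ J ∧ g = x i j h r}
      ≤ Z I J := by
  haveI := Z_normal (I := I) h3 hJ
  apply Subgroup.normalClosure_le_normal
  rintro _ ⟨i, j, h, r, hr, rfl⟩
  exact x_mem_Z i j h hr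

theorem Z_le_E (h3 : ∀ a b : I, ∃ c : I, c ≠ a ∧ c ≠ b) {B : AddSubgroup R} (hB : IsIdeal B)
    (hJB : ∀ r ∈ J, r ∈ AddSubgroup.closure {t : R | ∃ b ∈ B, ∃ c ∈ B, t = b * c}) :
    Z I J ≤ E I B := by
  rw [Z, Subgroup.closure_le]
  rintro _ ⟨i, j, h, r, a, hr, rfl⟩
  obtain ⟨m, hmi, hmj⟩ := h3 i j
  have hr' := hJB r hr
  clear hr
  induction hr' using AddSubgroup.closure_induction with
  | mem t ht =>
    obtain ⟨b, hb, c, hc, rfl⟩ := ht
    rw [SetLike.mem_coe, z, ← x_comm (R := R) i m j hmi.symm hmj h, ccomm,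
      conj_right j i m h.symm hmi.symm hmj.symm, conj_left m j i hmj h.symm hmi]
    have m1 : x j m hmj.symm (a * b) * x i m hmi.symm b ∈ E I B :=
      mul_mem (x_mem_E _ _ _ (hB.left _ _ hb)) (x_mem_E _ _ _ hb)
    have m2 : x m i hmi (-(c * a)) * x m j hmj c ∈ E I B :=
      mul_mem (x_mem_E _ _ _ (neg_mem (hB.right _ _ hc))) (x_mem_E _ _ _ hc)
    rw [commutatorElement_def]
    exact mul_mem (mul_mem (mul_mem m1 m2) (inv_mem m1)) (inv_mem m2)
  | zero => rw [SetLike.mem_coe, z, x_zero, mul_one, mul_inv_cancel]; exact one_mem _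
  | add r s _ _ ih ih' =>
    rw [SetLike.mem_coe, z, x_add, cmul]
    exact mul_mem ih ih'
  | neg r _ ih =>
    rw [SetLike.mem_coe, z, x_neg, cinv]
    exact inv_mem ih

/-! ### The kernel of a surjection -/

section Ker

variable {S : Type*} [Ring S]

/-- kernel of a ring hom as an additive subgroup -/
abbrev kerAdd (φ : R →+* S) : AddSubgroup R := φ.toAddMonoidHom.ker

theorem mem_kerAdd {φ : R →+* S} {r : R} : r ∈ kerAdd φ ↔ φ r = 0 := Iff.rfl

theorem isIdeal_ker (φ : R →+* S) : IsIdeal (kerAdd φ) where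
  left a r hr := by rw [mem_kerAdd] at *; rw [map_mul, hr, mul_zero]
  right a r hr := by rw [mem_kerAdd] at *; rw [map_mul, hr, zero_mul]

theorem ker_map_le (φ : R →+* S) (hφ : Function.Surjective φ) :
    (map (I := I) φ).ker ≤ Subgroup.normalClosure
      {g : St I R | ∃ (i j : I) (h : i ≠ j) (r : R), r ∈ kerAdd φ ∧ g = x i j h r} := by
  set N := Subgroup.normalClosure
      {g : St I R | ∃ (i j : I) (h : i ≠ j) (r : R), r ∈ kerAdd φ ∧ g = x i j h r} with hN
  let σ := Function.surjInv hφ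
  have hσ : ∀ s, φ (σ s) = s := Function.surjInv_eq hφ
  have key : ∀ (i j : I) (h : i ≠ j) (r r' : R), φ r = φ r' →
      (QuotientGroup.mk (x i j h r) : St I R ⧸ N) = QuotientGroup.mk (x i j h r') := by
    intro i j h r r' hrr
    rw [QuotientGroup.eq, ← x_neg, ← x_add]
    apply Subgroup.subset_normalClosure
    exact ⟨i, j, h, _, by rw [mem_kerAdd, map_add, map_neg, hrr, neg_add_cancel], rfl⟩
  let ψ : St I S →* St I R ⧸ N := lift (fun i j h s => QuotientGroup.mk (x i j h (σ s)))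
    (by
      intro i j h r s
      rw [← QuotientGroup.mk_mul, ← x_add]
      apply key
      rw [map_add, hσ, hσ, hσ])
    (by
      intro i j k hij hjk hik r s
      have : (QuotientGroup.mk ⁅x i j hij (σ r), x j k hjk (σ s)⁆ : St I R ⧸ N) =
          ⁅(QuotientGroup.mk (x i j hij (σ r)) : St I R ⧸ N), QuotientGroup.mk (x j k hjk (σ s))⁆ :=
        map_commutatorElement (QuotientGroup.mk' N) _ _
      rw [← this, x_comm i j k hij hjk hik]
      apply key
      rw [map_mul, hσ, hσ, hσ])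
    (by
      intro i j k l hij hkl hjk hil r s
      have : (QuotientGroup.mk ⁅x i j hij (σ r), x k l hkl (σ s)⁆ : St I R ⧸ N) =
          ⁅(QuotientGroup.mk (x i j hij (σ r)) : St I R ⧸ N), QuotientGroup.mk (x k l hkl (σ s))⁆ :=
        map_commutatorElement (QuotientGroup.mk' N) _ _
      rw [← this, x_triv i j k l hij hkl hjk hil, QuotientGroup.mk_one])
  have hcomp : ψ.comp (map φ) = QuotientGroup.mk' N := by
    apply hom_ext
    intro i j h r
    rw [MonoidHom.comp_apply, map_x]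
    show lift _ _ _ _ (x i j h (φ r)) = _
    rw [lift_x]
    exact key i j h _ _ (hσ _)
  intro g hg
  rw [← QuotientGroup.eq_one_iff]
  have := DFunLike.congr_fun hcomp g
  rw [MonoidHom.comp_apply, MonoidHom.mem_ker.mp hg, map_one] at this
  exact this.symm

/-- **Tits**: an element dying in `St I S` lies in the subgroup generated by the `x i j b`,
`b ∈ B`, if every element of the kernel is a sum of products of two elements of `B`. -/
theorem ker_map_le_E (h3 : ∀ a b : I, ∃ c : I, c ≠ a ∧ c ≠ b) (φ : R →+* S)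
    (hφ : Function.Surjective φ) {B : AddSubgroup R} (hB : IsIdeal B)
    (hJB : ∀ r, φ r = 0 → r ∈ AddSubgroup.closure {t : R | ∃ b ∈ B, ∃ c ∈ B, t = b * c}) :
    (map (I := I) φ).ker ≤ E I B :=
  (ker_map_le φ hφ).trans ((normalClosure_le_Z h3 (isIdeal_ker φ)).trans
    (Z_le_E h3 hB fun r hr => hJB r hr))


end Ker

end Crest.Agent.R176.Tits370
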