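import Crest.Agent.R176.FP2
import Crest.Agent.R176.Final313A
import Crest.Agent.R176.QAlg206B
import Crest.Agent.R176.Cen370
import Crest.Agent.R176.Tits370
import Crest.Agent.R176.StCol313
import Crest.Agent.R176.Cover294Two
import Crest.Agent.R176.K2F2
import Crest.Agent.R176.Gen.Lin206
import Crest.Agent.R176.Ph396

-- ▼ part R176/FP3
section

/-! Row 176, part B, block FP2 (Krstic-McCool for `|I| ≥ 5`), file 3: finitely presented
`ZMod 2`-algebras. -/

set_option autoImplicit false

namespace Crest.Agent.R176.FP

open scoped commutatorElement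

section Quot

variable {I A : Type*} [Ring A]

/-- The ring congruence `a ~ b` iff `π (x i j a) = π (x i j b)` for all `i ≠ j`. -/
def con {H : Type*} [Group H] (hI : Enough I) (π : St I A →* H) : RingCon A where
  r a b := ∀ i j (h : i ≠ j), π (St.x i j h a) = π (St.x i j h b)
  iseqv :=
    { refl := fun a i j h => rfl
      symm := fun h' i j h => (h' i j h).symm
      trans := fun h1 h2 i j h => (h1 i j h).trans (h2 i j h) }
  add' := by
    intro a b c d h1 h2 i j h
    rw [St.x_add, St.x_add, map_mul, map_mul, h1 i j h, h2 i j h]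
  mul' := by
    intro a b c d h1 h2 i j h
    obtain ⟨p, hpi, hpj, -, -⟩ := hI i j i j
    rw [← St.x_comm i p j hpi.symm hpj h, ← St.x_comm i p j hpi.symm hpj h,
      map_commutatorElement, map_commutatorElement, h1 i p hpi.symm, h2 p j hpj]


/-- The universal property of `St I (RingQuot r)`. -/
theorem exists_quot {H : Type*} [Group H] (hI : Enough I) (r : A → A → Prop) (π : St I A →* H)
    (hπ : ∀ a b, r a b → ∀ i j (h : i ≠ j), π (St.x i j h a) = π (St.x i j h b)) :
    ∃ μ : St I (RingQuot r) →* H, μ.comp (St.map (RingQuot.mkRingHom r)) = π := by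
  -- `q a = q b` implies `a ~ b`
  have hcon : ∀ a b, RingQuot.mkRingHom r a = RingQuot.mkRingHom r b → con hI π a b := by
    intro a b hab
    let L : RingQuot r →+* (con hI π).Quotient :=
      RingQuot.lift ⟨(con hI π).mk', fun {x y} hxy => by
        refine (RingCon.eq _).2 ?_
        exact hπ x y hxy⟩
    have h1 : ∀ a, L (RingQuot.mkRingHom r a) = (con hI π).mk' a := fun a =>
      RingQuot.lift_mkRingHom_apply _ _ _
    have h2 := congrArg L hab
    rw [h1, h1] at h2
    exact (RingCon.eq _).1 h2
  have hsurj := RingQuot.mkRingHom_surjective r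
  choose σ hσ using hsurj
  have key : ∀ a i j (h : i ≠ j), π (St.x i j h (σ (RingQuot.mkRingHom r a))) =
      π (St.x i j h a) := by
    intro a i j h
    exact hcon _ _ (hσ _) i j h
  let μ : St I (RingQuot r) →* H := St.lift (fun i j h s => π (St.x i j h (σ s)))
    (by
      intro i j h s t
      rw [← map_mul, ← St.x_add]
      refine hcon _ _ ?_ i j h
      rw [hσ, map_add, hσ, hσ])
    (by
      intro i j k hij hjk hik s t
      rw [← map_commutatorElement, St.x_comm i j k hij hjk hik]
      refine hcon _ _ ?_ i k hik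
      rw [hσ, map_mul, hσ, hσ])
    (by
      intro i j k l hij hkl hjk hil s t
      rw [← map_commutatorElement, St.x_triv i j k l hij hkl hjk hil, map_one])
  refine ⟨μ, ?_⟩
  apply St.hom_ext
  intro i j h a
  rw [MonoidHom.comp_apply, St.map_x]
  show μ _ = _
  simp only [μ, St.lift_x]
  exact key a i j h

/-- Finitely many ring relations: finite presentability descends. -/
theorem st_quot_fp [Finite I] (hI : Enough I) [Group.IsFinitelyPresented (St I A)]
    (r : A → A → Prop) (hrel : {p : A × A | r p.1 p.2}.Finite) :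
    Group.IsFinitelyPresented (St I (RingQuot r)) := by
  refine Group.IsFinitelyPresented.of_surjective
    (St.map (RingQuot.mkRingHom r))
    (St.map_surjective _ (RingQuot.mkRingHom_surjective _)) ?_
  let T : Set (St I A) := (fun t : {p : I × I // p.1 ≠ p.2} × (A × A) =>
    (St.x t.1.1.1 t.1.1.2 t.1.2 t.2.1)⁻¹ * (St.x t.1.1.1 t.1.1.2 t.1.2 t.2.2)) ''
      (Set.univ ×ˢ {p : A × A | r p.1 p.2})
  refine ⟨T, (Set.finite_univ.prod hrel).image _, le_antisymm ?_ ?_⟩
  · refine Subgroup.normalClosure_le_normal ?_
    rintro _ ⟨⟨⟨⟨i, j⟩, h⟩, a, b⟩, ⟨-, hab⟩, rfl⟩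
    have hq : RingQuot.mkRingHom r a = RingQuot.mkRingHom r b := RingQuot.mkRingHom_rel hab
    rw [SetLike.mem_coe, MonoidHom.mem_ker, map_mul, map_inv, St.map_x, St.map_x]
    dsimp only
    rw [hq, inv_mul_cancel]
  · intro g hg
    obtain ⟨μ, hμ⟩ := exists_quot hI r
      (QuotientGroup.mk' (Subgroup.normalClosure T)) (by
        intro a b hab i j h
        refine (QuotientGroup.eq (s := Subgroup.normalClosure T)).2 ?_
        exact Subgroup.subset_normalClosure ⟨(⟨(i, j), h⟩, (a, b)), ⟨trivial, hab⟩, rfl⟩)
    have h1 := DFunLike.congr_fun hμ g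
    rw [MonoidHom.comp_apply, MonoidHom.mem_ker.1 hg, map_one] at h1
    exact (QuotientGroup.eq_one_iff g).1 h1.symm

end Quot

/-- `St` of isomorphic rings. -/
def stEquiv (I : Type*) {R S : Type*} [Ring R] [Ring S] (e : R ≃+* S) : St I R ≃* St I S :=
  MonoidHom.toMulEquiv (St.map (e : R →+* S)) (St.map (e.symm : S →+* R))
    (by
      apply St.hom_ext
      intro i j h r
      rw [MonoidHom.comp_apply, St.map_x, St.map_x]
      simp)
    (by
      apply St.hom_ext
      intro i j h r
      rw [MonoidHom.comp_apply, St.map_x, St.map_x]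
      simp)

theorem enough_of_card (I : Type*) [Finite I] (h : 5 ≤ Nat.card I) : Enough I := by
  classical
  intro i j k l
  have : Fintype I := Fintype.ofFinite I
  by_contra hcon
  push Not at hcon
  have h1 : (Finset.univ : Finset I) ⊆ {i, j, k, l} := by
    intro p _
    simp only [Finset.mem_insert, Finset.mem_singleton]
    by_contra h2
    push Not at h2
    exact h2.2.2.2 (hcon p h2.1 h2.2.1 h2.2.2.1)
  have h2 := Finset.card_le_card h1
  have h3 : ({i, j, k, l} : Finset I).card ≤ 4 := Finset.card_le_four
  rw [Finset.card_univ, ← Nat.card_eq_fintype_card] at h2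
  omega


/-- **St I R is finitely presented** for a finitely presented `ZMod 2`-algebra `R`, `|I| ≥ 5`. -/
theorem steinberg_fp (I : Type*) [Finite I] (hcard : 5 ≤ Nat.card I) {R : Type*} [Ring R]
    {Y : Type*} [Finite Y]
    (rel : Finset (FreeAlgebra (ZMod 2) Y × FreeAlgebra (ZMod 2) Y))
    (e : R ≃+* RingQuot (fun x y : FreeAlgebra (ZMod 2) Y => (x, y) ∈ rel)) :
    Group.IsFinitelyPresented (St I R) := by
  have hI := enough_of_card I hcard
  have h0 : Group.IsFinitelyPresented (St I (FreeAlgebra (ZMod 2) Y)) := st_free_fp hI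
  have h1 : Group.IsFinitelyPresented
      (St I (RingQuot (fun x y : FreeAlgebra (ZMod 2) Y => (x, y) ∈ rel))) :=
    st_quot_fp hI _ rel.finite_toSet
  exact Group.IsFinitelyPresented.equiv (stEquiv I e.symm)

end Crest.Agent.R176.FP
end

-- ▼ part R176/Final313B
section

/-! Row 176, part B: final assembly of S0265 over `R = QA step (ZMod 2)`:
the ideals `J m` (words of length `≥ m`), their finite quotients, residual finiteness. -/

set_option autoImplicit false
set_option linter.unusedVariables false
set_option linter.unusedSectionVars false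

namespace Crest.Agent.R176.Final313

open Crest.Agent.R176 Crest.Agent.R176.St Crest.Agent.R176.QAlg206

section ideal

variable {L : Type*} (step : L → L → Option (L × L)) (k : Type*) [CommRing k]

/-- span of the words of length `≥ m` -/
noncomputable def Jsub (m : ℕ) : Submodule k (QA step k) :=
  Submodule.span k {r | ∃ w : List L, m ≤ w.length ∧ word step k w = r}

theorem word_mem_Jsub {m : ℕ} {w : List L} (h : m ≤ w.length) : word step k w ∈ Jsub step k m :=
  Submodule.subset_span ⟨w, h, rfl⟩

theorem Jsub_mul_left {m : ℕ} {s : QA step k} (hs : s ∈ Jsub step k m) (r : QA step k) :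
    r * s ∈ Jsub step k m := by
  unfold Jsub at hs
  induction hs using Submodule.span_induction with
  | mem s h =>
    obtain ⟨w, hw, rfl⟩ := h
    induction r using QAlg206.induction_on with
    | hw v =>
      rw [← word_append]
      exact word_mem_Jsub step k (by rw [List.length_append]; omega)
    | hadd r t hr ht => rw [add_mul]; exact Submodule.add_mem _ hr ht
    | hsmul c r hr => rw [smul_mul_assoc]; exact Submodule.smul_mem _ _ hr
  | zero => rw [mul_zero]; exact Submodule.zero_mem _
  | add s t _ _ hs ht => rw [mul_add]; exact Submodule.add_mem _ hs ht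
  | smul c s _ hs => rw [mul_smul_comm]; exact Submodule.smul_mem _ _ hs

theorem Jsub_mul_right {m : ℕ} {s : QA step k} (hs : s ∈ Jsub step k m) (r : QA step k) :
    s * r ∈ Jsub step k m := by
  unfold Jsub at hs
  induction hs using Submodule.span_induction with
  | mem s h =>
    obtain ⟨w, hw, rfl⟩ := h
    induction r using QAlg206.induction_on with
    | hw v =>
      rw [← word_append]
      exact word_mem_Jsub step k (by rw [List.length_append]; omega)
    | hadd r t hr ht => rw [mul_add]; exact Submodule.add_mem _ hr ht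
    | hsmul c r hr => rw [mul_smul_comm]; exact Submodule.smul_mem _ _ hr
  | zero => rw [zero_mul]; exact Submodule.zero_mem _
  | add s t _ _ hs ht => rw [add_mul]; exact Submodule.add_mem _ hs ht
  | smul c s _ hs => rw [smul_mul_assoc]; exact Submodule.smul_mem _ _ hs

/-- the two-sided ideal of words of length `≥ m` -/
noncomputable def J (m : ℕ) : Ideal (QA step k) where
  carrier := Jsub step k m
  add_mem' := fun ha hb => Submodule.add_mem _ ha hb
  zero_mem' := Submodule.zero_mem _
  smul_mem' := fun r s hs => Jsub_mul_left step k hs r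

theorem mem_J {m : ℕ} {r : QA step k} : r ∈ J step k m ↔ r ∈ Jsub step k m := Iff.rfl

instance (m : ℕ) : (J step k m).IsTwoSided := ⟨fun r hs => Jsub_mul_right step k hs r⟩

/-- the quotient map -/
noncomputable def qm (m : ℕ) : QA step k →+* QA step k ⧸ J step k m :=
  Ideal.Quotient.mk (J step k m)

theorem qm_surjective (m : ℕ) : Function.Surjective (qm step k m) := Ideal.Quotient.mk_surjective

theorem qm_eq_zero_iff {m : ℕ} {r : QA step k} : qm step k m r = 0 ↔ r ∈ Jsub step k m :=
  Ideal.Quotient.eq_zero_iff_mem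

theorem Jsub_add_le (m n : ℕ) {r : QA step k} (hr : r ∈ Jsub step k (m + n)) :
    r ∈ AddSubgroup.closure {x | ∃ b ∈ Jsub step k m, ∃ c ∈ Jsub step k n, x = b * c} := by
  unfold Jsub at hr
  induction hr using Submodule.span_induction with
  | mem s h =>
    obtain ⟨w, hw, rfl⟩ := h
    apply AddSubgroup.subset_closure
    refine ⟨word step k (w.take m), ?_, word step k (w.drop m), ?_, ?_⟩
    · exact word_mem_Jsub step k (by rw [List.length_take]; omega)
    · exact word_mem_Jsub step k (by rw [List.length_drop]; omega)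
    · rw [← word_append, List.take_append_drop]
  | zero => exact AddSubgroup.zero_mem _
  | add s t _ _ hs ht => exact AddSubgroup.add_mem _ hs ht
  | smul c s hs0 hs =>
    clear hs0
    induction hs using AddSubgroup.closure_induction with
    | mem x hx =>
      obtain ⟨b, hb, d, hd, rfl⟩ := hx
      apply AddSubgroup.subset_closure
      exact ⟨c • b, Submodule.smul_mem _ _ hb, d, hd, (smul_mul_assoc c b d).symm⟩
    | zero => rw [smul_zero]; exact AddSubgroup.zero_mem _
    | add x y _ _ hx hy => rw [smul_add]; exact AddSubgroup.add_mem _ hx hy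
    | neg x _ hx => rw [smul_neg]; exact AddSubgroup.neg_mem _ hx

theorem pow_mem_Jsub {r : QA step k} (h : aug step k r = 0) (n : ℕ) : r ^ n ∈ Jsub step k n := by
  have h1 : r ∈ Jsub step k 1 := by
    have := mem_span_of_aug_eq_zero step k h
    refine Submodule.span_mono ?_ this
    rintro _ ⟨w, hw, rfl⟩
    exact ⟨w, List.length_pos_of_ne_nil hw, rfl⟩
  have key : ∀ (m n : ℕ) (s t : QA step k), s ∈ Jsub step k m → t ∈ Jsub step k n →
      s * t ∈ Jsub step k (m + n) := by
    intro m n s t hs ht
    unfold Jsub at hs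
    induction hs using Submodule.span_induction with
    | mem s h =>
      obtain ⟨w, hw, rfl⟩ := h
      unfold Jsub at ht
      induction ht using Submodule.span_induction with
      | mem t h =>
        obtain ⟨v, hv, rfl⟩ := h
        rw [← word_append]
        exact word_mem_Jsub step k (by rw [List.length_append]; omega)
      | zero => rw [mul_zero]; exact Submodule.zero_mem _
      | add s t _ _ hs ht => rw [mul_add]; exact Submodule.add_mem _ hs ht
      | smul c s _ hs => rw [mul_smul_comm]; exact Submodule.smul_mem _ _ hs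
    | zero => rw [zero_mul]; exact Submodule.zero_mem _
    | add s t _ _ hs ht => rw [add_mul]; exact Submodule.add_mem _ hs ht
    | smul c s _ hs => rw [smul_mul_assoc]; exact Submodule.smul_mem _ _ hs
  induction n with
  | zero =>
    rw [pow_zero]
    have : word step k [] ∈ Jsub step k 0 := word_mem_Jsub step k (Nat.zero_le _)
    simpa using this
  | succ n ih => rw [pow_succ]; exact key n 1 _ _ ih h1

/-- elements of nonzero augmentation are units modulo `J m` -/
theorem isUnit_qm {k : Type*} [Field k] {m : ℕ} {r : QA step k} (h : aug step k r = 1) :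
    IsUnit (qm step k m r) := by
  have h1 : aug step k (r - 1) = 0 := by rw [map_sub, h, map_one, sub_self]
  have h2 : IsNilpotent (qm step k m (r - 1)) := by
    refine ⟨m, ?_⟩
    rw [← map_pow, qm_eq_zero_iff]
    exact pow_mem_Jsub step k h1 m
  have h3 : qm step k m r = 1 + qm step k m (r - 1) := by rw [map_sub, map_one]; abel
  rw [h3]
  exact h2.isUnit_one_add

end ideal

section finite

variable {L : Type} [Finite L] (step : L → L → Option (L × L))

instance finite_quot (m : ℕ) : Finite (QA step (ZMod 2) ⧸ J step (ZMod 2) m) := by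
  let V := QA step (ZMod 2)
  have hfin : Set.Finite {w : List L | w.length < m} := List.finite_length_lt L m
  let T : Submodule (ZMod 2) V := Submodule.span (ZMod 2)
    ((word step (ZMod 2)) '' {w : List L | w.length < m})
  have hT : Module.Finite (ZMod 2) T := Module.Finite.span_of_finite (ZMod 2) (hfin.image _)
  have : Finite T := Module.finite_of_finite (ZMod 2)
  have hsurj : Function.Surjective (fun t : T => qm step (ZMod 2) m t.1) := by
    intro y
    obtain ⟨r, rfl⟩ := qm_surjective step (ZMod 2) m y
    have : ∃ t ∈ T, r - t ∈ Jsub step (ZMod 2) m := by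
      induction r using QAlg206.induction_on with
      | hw w =>
        by_cases h : w.length < m
        · exact ⟨word step (ZMod 2) w, Submodule.subset_span ⟨w, h, rfl⟩, by
            rw [sub_self]; exact Submodule.zero_mem _⟩
        · exact ⟨0, Submodule.zero_mem _, by
            rw [sub_zero]; exact word_mem_Jsub step (ZMod 2) (by omega)⟩
      | hadd r s hr hs =>
        obtain ⟨t, ht, h1⟩ := hr
        obtain ⟨u, hu, h2⟩ := hs
        refine ⟨t + u, Submodule.add_mem _ ht hu, ?_⟩
        rw [show r + s - (t + u) = (r - t) + (s - u) by abel]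
        exact Submodule.add_mem _ h1 h2
      | hsmul c r hr =>
        obtain ⟨t, ht, h1⟩ := hr
        exact ⟨c • t, Submodule.smul_mem _ _ ht, by
          rw [← smul_sub]; exact Submodule.smul_mem _ _ h1⟩
    obtain ⟨t, ht, h⟩ := this
    refine ⟨⟨t, ht⟩, ?_⟩
    have := (qm_eq_zero_iff step (ZMod 2)).mpr h
    rw [map_sub, sub_eq_zero] at this
    exact this.symm
  exact Finite.of_surjective _ hsurj

end finite

section assembly

variable {L : Type} [Fintype L] (step : L → L → Option (L × L))

/-- the additive subgroup `J m` in the form used by `Tits370` -/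
noncomputable def Jadd (m : ℕ) : AddSubgroup (QA step (ZMod 2)) :=
  (Jsub step (ZMod 2) m).toAddSubgroup


theorem isIdeal_Jadd (m : ℕ) : Tits370.IsIdeal (Jadd step m) where
  left a r hr := Jsub_mul_left step (ZMod 2) hr a
  right a r hr := Jsub_mul_right step (ZMod 2) hr a


theorem third {I : Type} [Fintype I] [DecidableEq I] (hI : 3 ≤ Fintype.card I) :
    ∀ a b : I, ∃ c : I, c ≠ a ∧ c ≠ b := fun a b => K2F2.exists_third hI a b

/-- an element dying in all `St I (R / J m)` is a product of `x_ij(b)`, `b ∈ J m`, for all `m`. -/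
theorem mem_E_of_map_eq_one {I : Type} [Fintype I] [DecidableEq I] (hI : 3 ≤ Fintype.card I)
    {g : St I (QA step (ZMod 2))} (hg : ∀ m, St.map (qm step (ZMod 2) m) g = 1) (m : ℕ) :
    g ∈ Tits370.E I (Jadd step m) := by
  refine Tits370.ker_map_le_E (third hI) (qm step (ZMod 2) (m + m))
    (qm_surjective step (ZMod 2) _) (isIdeal_Jadd step m) ?_ (hg (m + m))
  intro r hr
  exact Jsub_add_le step (ZMod 2) m m ((qm_eq_zero_iff step (ZMod 2)).mp hr)

theorem two_eq_zero : (2 : QA step (ZMod 2)) = 0 := by
  have h : algebraMap (ZMod 2) (QA step (ZMod 2)) 2 = 2 := map_ofNat _ 2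
  rw [← h, show (2 : ZMod 2) = 0 from rfl, map_zero]

/-- **S0265 from the part B interfaces**, over `R = QA step (ZMod 2)`. -/
theorem final_QA {I : Type} [Fintype I] [DecidableEq I] (hI : 5 ≤ Fintype.card I)
    (hinf : ∀ n : ℕ, ∃ w : List L, n ≤ w.length ∧ ¬ IsZ step w)
    (hnil : ∀ A : Matrix I I (QA step (ZMod 2)),
      (∀ i j, aug step (ZMod 2) (A i j) = 0) → IsNilpotent A)
    (hstab : ∀ m, Function.Injective (mapI (R := QA step (ZMod 2) ⧸ J step (ZMod 2) m)
      (Function.Embedding.some : I ↪ Option I)))
    (htors : ∀ k : St I (QA step (ZMod 2)), toMat k = 1 → ∃ a : ℕ, k ^ (2 ^ a) = 1)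
    (hnoph : ∀ g : St I (QA step (ZMod 2)), (∀ m, g ∈ Tits370.E I (Jadd step m)) → g = 1) :
    ∃ (G : Type) (_ : Group G),
      Infinite G ∧ Group.IsFinitelyPresented G ∧ Group.ResiduallyFinite G ∧ IsPGroup 2 G := by
  have : Infinite (QA step (ZMod 2)) := infinite_of_words step (ZMod 2) hinf
  have hfp : Group.IsFinitelyPresented (St I (QA step (ZMod 2))) :=
    FP.steinberg_fp I (by rwa [Nat.card_eq_fintype_card]) (rels step (ZMod 2) (Fintype.equivFin L))
      (presEquiv (step := step) (k := ZMod 2) (Fintype.equivFin L)).toRingEquiv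
  refine final_abstract (I := I) (by omega) (two_eq_zero step) (aug step (ZMod 2)).toRingHom hfp
    hnil htors ?_
  intro g hg
  by_contra hcon
  push Not at hcon
  apply hg
  apply hnoph
  apply mem_E_of_map_eq_one step (by omega)
  intro m
  refine hcon (QA step (ZMod 2) ⧸ J step (ZMod 2) m) inferInstance (qm step (ZMod 2) m) ?_
  exact Cen370.finite_of_central (third (by omega)) fun k hk =>
    Cen370.ker_central_of_stab (hstab m) hk

end assembly

end Crest.Agent.R176.Final313
end

-- ▼ part R176/Surj906
section

/-! Row 176, part B, STAB step 1: surjective stability.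
`R` "local" via a ring hom `φ : R →+* K` to a division ring with `φ r ≠ 0 → IsUnit r`.
If `z : St I R` fixes the basis column `e_k` (on matrices) then `z` lies in the subgroup `Q k`
generated by all `x_ij(r)` with `j ≠ k`. -/

set_option autoImplicit false
set_option linter.unusedVariables false
set_option linter.unusedSectionVars false

namespace Crest.Agent.R176.Surj906

open scoped commutatorElement
open Crest.Agent.R176.St

variable {I R K : Type*} [Ring R] [DivisionRing K] (φ : R →+* K)
  [Fintype I] [DecidableEq I] (k : I)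

/-- the subgroup generated by all `x_ij(r)`, `j ≠ k` -/
def Q (R : Type*) [Ring R] (k : I) : Subgroup (St I R) :=
  Subgroup.closure {g | ∃ (i j : I) (h : i ≠ j) (r : R), j ≠ k ∧ g = x i j h r}

theorem x_mem_Q {i j : I} (h : i ≠ j) (r : R) (hj : j ≠ k) : x i j h r ∈ Q R k :=
  Subgroup.subset_closure ⟨i, j, h, r, hj, rfl⟩

theorem col_mem_Q {j : I} (hj : j ≠ k) (a : I → R) : col j a ∈ Q R k := by
  induction a using pi_induction with
  | h0 => rw [col_zero]; exact one_mem _
  | hadd a b ha hb => rw [col_add]; exact mul_mem ha hb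
  | hs i r =>
    by_cases hij : i = j
    · subst hij; rw [col_single_self]; exact one_mem _
    · rw [col_single j i hij]; exact x_mem_Q k hij r hj


/-- `∑_{i ≠ k} w_i y_i` -/
def dot (w y : I → R) : R := ∑ i ∈ Finset.univ.erase k, w i * y i

theorem dot_add_left (w w' y : I → R) : dot k (w + w') y = dot k w y + dot k w' y := by
  unfold dot
  rw [← Finset.sum_add_distrib]
  exact Finset.sum_congr rfl fun i _ => by rw [Pi.add_apply, add_mul]

theorem dot_add_right (w y y' : I → R) : dot k w (y + y') = dot k w y + dot k w y' := by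
  unfold dot
  rw [← Finset.sum_add_distrib]
  exact Finset.sum_congr rfl fun i _ => by rw [Pi.add_apply, mul_add]

theorem dot_zero_left (y : I → R) : dot k (0 : I → R) y = 0 := by
  unfold dot
  exact Finset.sum_eq_zero fun i _ => by rw [Pi.zero_apply, zero_mul]

theorem dot_neg_left (w y : I → R) : dot k (-w) y = -dot k w y := by
  unfold dot
  rw [← Finset.sum_neg_distrib]
  exact Finset.sum_congr rfl fun i _ => by rw [Pi.neg_apply, neg_mul]

theorem dot_sub_left (w w' y : I → R) : dot k (w - w') y = dot k w y - dot k w' y := by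
  rw [sub_eq_add_neg, dot_add_left, dot_neg_left, sub_eq_add_neg]

theorem dot_single_left {i : I} (hi : i ≠ k) (c : R) (y : I → R) :
    dot k (Pi.single i c) y = c * y i := by
  unfold dot
  rw [Finset.sum_eq_single i]
  · rw [Pi.single_eq_same]
  · intro j _ hj; rw [Pi.single_eq_of_ne hj, zero_mul]
  · intro h; exact absurd (Finset.mem_erase.mpr ⟨hi, Finset.mem_univ i⟩) h

theorem dot_single_left_self (c : R) (y : I → R) :
    dot k (Pi.single k c) y = 0 := by
  unfold dot
  apply Finset.sum_eq_zero
  intro j hj
  rw [Pi.single_eq_of_ne (Finset.ne_of_mem_erase hj), zero_mul]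

theorem dot_single_right {i : I} (hi : i ≠ k) (c : R) (w : I → R) :
    dot k w (Pi.single i c) = w i * c := by
  unfold dot
  rw [Finset.sum_eq_single i]
  · rw [Pi.single_eq_same]
  · intro j _ hj; rw [Pi.single_eq_of_ne hj, mul_zero]
  · intro h; exact absurd (Finset.mem_erase.mpr ⟨hi, Finset.mem_univ i⟩) h

theorem dot_single_right_self (c : R) (w : I → R) :
    dot k w (Pi.single k c) = 0 := by
  unfold dot
  apply Finset.sum_eq_zero
  intro j hj
  rw [Pi.single_eq_of_ne (Finset.ne_of_mem_erase hj), mul_zero]

/-- if `y_j = 0` then `col(y)⁻¹ x_kj(c) col(y) ∈ Q`. -/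
theorem conj_x_mem {j : I} (h : k ≠ j) (c : R) (y : I → R) (hy : y j = 0) :
    (col k y)⁻¹ * x k j h c * col k y ∈ Q R k := by
  have e : col k y = col k (Function.update y k 0) :=
    col_congr k fun i hi => by rw [Function.update_of_ne hi]
  rw [e, mul_assoc, x_row_mul_col k j h c (Function.update y k 0)
    (by rw [Function.update_of_ne h.symm, hy]) (Function.update_self _ _ _), ← mul_assoc,
    ← mul_assoc, inv_mul_cancel, one_mul]
  exact mul_mem (col_mem_Q k h.symm _) (x_mem_Q k h c h.symm)

/-- conjugating a row orthogonal to `y` by `col y` lands in `Q`. -/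
theorem conj_row_mem {p : I} (hp : p ≠ k) (y : I → R) (v : R) (hv : y p * v = 1)
    (hv' : v * y p = 1) (d : I → R) (hd : dot k d y = 0) :
    (col k y)⁻¹ * row k d * col k y ∈ Q R k := by
  have key : ∀ d : I → R,
      (col k y)⁻¹ * row k (d - Pi.single p (dot k d y * v)) * col k y ∈ Q R k := by
    intro d
    induction d using pi_induction with
    | h0 =>
      rw [dot_zero_left, zero_mul, Pi.single_zero, sub_zero, row_zero, mul_one, inv_mul_cancel]
      exact one_mem _
    | hadd a b ha hb =>
      have : a + b - Pi.single p (dot k (a + b) y * v) =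
          (a - Pi.single p (dot k a y * v)) + (b - Pi.single p (dot k b y * v)) := by
        rw [dot_add_left, add_mul, Pi.single_add]; abel
      rw [this, row_add]
      have e : (col k y)⁻¹ * (row k (a - Pi.single p (dot k a y * v)) *
          row k (b - Pi.single p (dot k b y * v))) * col k y =
          ((col k y)⁻¹ * row k (a - Pi.single p (dot k a y * v)) * col k y) *
          ((col k y)⁻¹ * row k (b - Pi.single p (dot k b y * v)) * col k y) := by group
      rw [e]
      exact mul_mem ha hb
    | hs j c =>
      by_cases hjk : j = k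
      · subst hjk
        rw [dot_single_left_self, zero_mul, Pi.single_zero, sub_zero, row_single_self, mul_one,
          inv_mul_cancel]
        exact one_mem _
      rw [dot_single_left k hjk]
      by_cases hjp : j = p
      · subst hjp
        rw [mul_assoc c (y j) v, hv, mul_one, sub_self, row_zero, mul_one, inv_mul_cancel]
        exact one_mem _
      -- the main case
      have h1 := x_mul_col k j p hjp hjk hp (-(y j * v)) y
      have h2 := x_mul_row k j p hjp hjk hp (-(y j * v))
        ((Pi.single j c : I → R) - Pi.single p (c * y j * v))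
      have e1 : (-(y j * v)) * y p = - y j := by
        rw [neg_mul, mul_assoc, hv', mul_one]
      have e2 : ((Pi.single j c : I → R) - Pi.single p (c * y j * v)) -
          Pi.single p ((Pi.single j c - Pi.single p (c * y j * v) : I → R) j * (-(y j * v))) =
          Pi.single j c := by
        rw [Pi.sub_apply, Pi.single_eq_same, Pi.single_eq_of_ne hjp, sub_zero, mul_neg,
          Pi.single_neg, ← mul_assoc]
        abel
      rw [e1] at h1
      rw [e2] at h2
      set g := x j p hjp (-(y j * v)) with hg
      have hgQ : g ∈ Q R k := x_mem_Q k hjp _ hp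
      set y' : I → R := y + Pi.single j (- y j) with hy'
      have h0 : y' j = 0 := by
        rw [hy', Pi.add_apply, Pi.single_eq_same, add_neg_cancel]
      have h3 := conj_x_mem k (Ne.symm hjk) c y' h0
      rw [← row_single k j (Ne.symm hjk)] at h3
      have e3 : col k y = g⁻¹ * (col k y' * g) := by rw [← h1]; group
      have e4 : row k ((Pi.single j c : I → R) - Pi.single p (c * y j * v)) =
          g⁻¹ * (row k (Pi.single j c) * g) := by rw [← h2]; group
      rw [e3, e4]
      have e5 : (g⁻¹ * (col k y' * g))⁻¹ * (g⁻¹ * (row k (Pi.single j c) * g)) *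
          (g⁻¹ * (col k y' * g)) =
          g⁻¹ * ((col k y')⁻¹ * row k (Pi.single j c) * col k y') * g := by group
      rw [e5]
      exact mul_mem (mul_mem (inv_mem hgQ) h3) hgQ
  have := key d
  rwa [hd, zero_mul, Pi.single_zero, sub_zero] at this

/-- `z` lies in the coset attached to the column `y` (big cell) -/
def Big (y : I → R) (z : St I R) : Prop :=
  ∃ (w : I → R) (q : St I R), q ∈ Q R k ∧ z = row k w * col k y * q ∧ 1 + dot k w y = y k

/-- `y` has a unit coordinate off `k` -/
def U (y : I → R) : Prop := ∃ p, p ≠ k ∧ φ (y p) ≠ 0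

/-- `g y` for `g = x_ij(r)` -/
def act (i j : I) (r : R) (y : I → R) : I → R := y + Pi.single i (r * y j)

variable {φ k}

theorem Big.row_indep (hu : ∀ r : R, φ r ≠ 0 → IsUnit r) {y : I → R} {z : St I R} (hy : U φ k y)
    (hz : Big k y z) (w : I → R) (hw : 1 + dot k w y = y k) :
    ∃ q ∈ Q R k, z = row k w * col k y * q := by
  obtain ⟨w', q, hq, rfl, hw'⟩ := hz
  obtain ⟨p, hp, hpu⟩ := hy
  obtain ⟨v, hv⟩ := hu _ hpu
  have hd : dot k (w' - w) y = 0 := by
    rw [dot_sub_left]
    have : dot k w' y = dot k w y := by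
      have := hw'.trans hw.symm
      exact add_left_cancel this
    rw [this, sub_self]
  have := conj_row_mem k hp y (↑v⁻¹) (by rw [← hv]; exact v.mul_inv) (by rw [← hv]; exact v.inv_mul)
    (w' - w) hd
  refine ⟨(col k y)⁻¹ * row k (w' - w) * col k y * q, mul_mem this hq, ?_⟩
  have e : row k w' = row k w * row k (w' - w) := by
    rw [← row_add]; congr 1; abel
  rw [e]
  group

theorem Big.unique (hu : ∀ r : R, φ r ≠ 0 → IsUnit r) {y : I → R} {z z' : St I R}
    (hy : U φ k y) (hz : Big k y z) (hz' : Big k y z') : z⁻¹ * z' ∈ Q R k := by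
  obtain ⟨w, q, hq, rfl, hw⟩ := hz
  obtain ⟨q', hq', rfl⟩ := Big.row_indep hu hy hz' w hw
  have : (row k w * col k y * q)⁻¹ * (row k w * col k y * q') = q⁻¹ * q' := by group
  rw [this]
  exact mul_mem (inv_mem hq) hq'

/-- step (L): `x_ij(r)`, `i, j ≠ k` -/
theorem Big.stepL {y : I → R} {z : St I R} (hz : Big k y z) {i j : I} (h : i ≠ j) (hi : i ≠ k)
    (hj : j ≠ k) (r : R) : Big k (act i j r y) (x i j h r * z) := by
  obtain ⟨w, q, hq, rfl, hw⟩ := hz
  refine ⟨w - Pi.single j (w i * r), x i j h r * q, mul_mem (x_mem_Q k h r hj) hq, ?_, ?_⟩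
  · rw [← mul_assoc, ← mul_assoc, x_mul_row k i j h hi hj, mul_assoc (row k _), x_mul_col k i j h hi hj]
    unfold act
    simp only [mul_assoc]
  · unfold act
    rw [dot_sub_left, dot_add_right, dot_single_right k hi, dot_single_left k hj, Pi.add_apply,
      Pi.add_apply, Pi.single_eq_of_ne (Ne.symm hi), Pi.single_eq_of_ne (Ne.symm h), add_zero,
      add_zero, ← hw]
    rw [mul_assoc]
    abel

/-- step (R): `x_kj(r)` -/
theorem Big.stepR {y : I → R} {z : St I R} (hz : Big k y z) {j : I} (h : k ≠ j)
    (r : R) : Big k (act k j r y) (x k j h r * z) := by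
  obtain ⟨w, q, hq, rfl, hw⟩ := hz
  refine ⟨Pi.single j r + w, q, hq, ?_, ?_⟩
  · have e : col k (act k j r y) = col k y := col_congr k fun i hi => by
      unfold act
      rw [Pi.add_apply, Pi.single_eq_of_ne hi, add_zero]
    rw [row_add, row_single k j h, e]
    simp only [mul_assoc]
  · unfold act
    rw [dot_add_left, dot_add_right, dot_add_right, dot_single_right_self, dot_single_right_self,
      dot_single_left k (Ne.symm h), add_zero, add_zero, Pi.add_apply, Pi.single_eq_same, ← hw]
    abel

/-- step (C): `x_ik(r)`, a unit off `i, k` -/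
theorem Big.stepC (hu : ∀ r : R, φ r ≠ 0 → IsUnit r) {y : I → R} {z : St I R}
    (hz : Big k y z) {i : I} (h : i ≠ k) (r : R) {p : I} (hp : p ≠ k) (hpi : p ≠ i)
    (hpu : φ (y p) ≠ 0) : Big k (act i k r y) (x i k h r * z) := by
  obtain ⟨v, hv⟩ := hu _ hpu
  have hv1 : y p * ↑v⁻¹ = 1 := by rw [← hv]; exact v.mul_inv
  have hv2 : ↑v⁻¹ * y p = 1 := by rw [← hv]; exact v.inv_mul
  have hdot : ∀ y' : I → R, y' p = y p →
      dot k (Pi.single p ((y k - 1) * ↑v⁻¹)) y' = y k - 1 := by
    intro y' h'
    rw [dot_single_left k hp, mul_assoc, h', hv2, mul_one]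
  obtain ⟨q, hq, rfl⟩ := Big.row_indep hu ⟨p, hp, hpu⟩ hz (Pi.single p ((y k - 1) * ↑v⁻¹))
    (by rw [hdot _ rfl, add_sub_cancel])
  set s := (y k - 1) * ↑v⁻¹ with hs
  refine ⟨Pi.single p s, x i p (Ne.symm hpi) (r * s) * q,
    mul_mem (x_mem_Q k _ _ hp) hq, ?_, ?_⟩
  · rw [row_single k p (Ne.symm hp)]
    have c1 := x_comm i k p h (Ne.symm hp) (Ne.symm hpi) r s
    have c2 := x_commute i p k p (Ne.symm hpi) (Ne.symm hp) hp (Ne.symm hpi) (r * s) s
    have c3 := x_mul_col k i p (Ne.symm hpi) h hp (r * s) (y + Pi.single i r)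
    have c4 : x i k h r * col k y = col k (y + Pi.single i r) := by
      rw [add_comm y, col_add, col_single k i h]
    have e1 : (y + Pi.single i r) + Pi.single i (r * s * (y + Pi.single i r : I → R) p) =
        act i k r y := by
      unfold act
      rw [Pi.add_apply, Pi.single_eq_of_ne hpi, add_zero, mul_assoc, hs, mul_assoc, hv2, mul_one,
        add_assoc, ← Pi.single_add]
      congr 2
      rw [mul_sub, mul_one, add_sub_cancel]
    rw [e1] at c3
    have c1' : x i k h r * x k p (Ne.symm hp) s =
        x k p (Ne.symm hp) s * x i p (Ne.symm hpi) (r * s) * x i k h r := by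
      rw [← c2.eq, ← c1, commutatorElement_def]; group
    calc x i k h r * (x k p (Ne.symm hp) s * col k y * q)
        = (x i k h r * x k p (Ne.symm hp) s) * col k y * q := by simp only [mul_assoc]
      _ = x k p (Ne.symm hp) s * (x i p (Ne.symm hpi) (r * s) * (x i k h r * col k y)) * q := by
          rw [c1']; simp only [mul_assoc]
      _ = x k p (Ne.symm hp) s * (col k (act i k r y) * x i p (Ne.symm hpi) (r * s)) * q := by
          rw [c4, c3]
      _ = x k p (Ne.symm hp) s * col k (act i k r y) * (x i p (Ne.symm hpi) (r * s) * q) := by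
          simp only [mul_assoc]
  · have e2 : act i k r y p = y p := by
      unfold act
      rw [Pi.add_apply, Pi.single_eq_of_ne hpi, add_zero]
    have e3 : act i k r y k = y k := by
      unfold act
      rw [Pi.add_apply, Pi.single_eq_of_ne (Ne.symm h), add_zero]
    rw [hdot _ e2, e3, add_sub_cancel]

/-- step (C''): `x_ik(r)`, both columns have a unit off `k` -/
theorem Big.stepC' (hu : ∀ r : R, φ r ≠ 0 → IsUnit r) (h3 : ∀ i : I, ∃ j, j ≠ i ∧ j ≠ k)
    {y : I → R} {z : St I R}
    (hz : Big k y z) {i : I} (h : i ≠ k) (r : R) (hy : U φ k y) (hy' : U φ k (act i k r y)) :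
    Big k (act i k r y) (x i k h r * z) := by
  by_cases hex : ∃ p, p ≠ k ∧ p ≠ i ∧ φ (y p) ≠ 0
  · obtain ⟨p, hp, hpi, hpu⟩ := hex
    exact hz.stepC hu h r hp hpi hpu
  have hall : ∀ p, p ≠ k → p ≠ i → φ (y p) = 0 := by
    intro p hp hpi
    by_contra hne
    exact hex ⟨p, hp, hpi, hne⟩
  have hyi : φ (y i) ≠ 0 := by
    obtain ⟨p, hp, hpu⟩ := hy
    by_cases hpi : p = i
    · rwa [hpi] at hpu
    · exact absurd (hall p hp hpi) hpu
  have hyi' : φ (y i + r * y k) ≠ 0 := by
    obtain ⟨p, hp, hpu⟩ := hy'
    unfold act at hpu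
    by_cases hpi : p = i
    · subst hpi
      rwa [Pi.add_apply, Pi.single_eq_same] at hpu
    · rw [Pi.add_apply, Pi.single_eq_of_ne hpi, add_zero] at hpu
      exact absurd (hall p hp hpi) hpu
  obtain ⟨j, hji, hjk⟩ := h3 i
  -- conjugate by x_ji(1)
  have s1 := hz.stepL hji hjk h 1
  have s2 := s1.stepC hu hjk r (p := i) h (Ne.symm hji) (by
    unfold act
    rw [Pi.add_apply, Pi.single_eq_of_ne (Ne.symm hji), add_zero]; exact hyi)
  have s3 := s2.stepC hu h r (p := j) hjk hji (by
    unfold act
    simp only [Pi.add_apply, Pi.single_eq_same, Pi.single_eq_of_ne (Ne.symm hji),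
      Pi.single_eq_of_ne (Ne.symm hjk), Pi.single_eq_of_ne (Ne.symm h), add_zero, one_mul]
    rw [add_assoc, map_add, hall j hjk hji, zero_add]
    exact hyi')
  have s4 := s3.stepL hji hjk h (-1)
  have ey : act j i (-1) (act i k r (act j k r (act j i 1 y))) = act i k r y := by
    unfold act
    simp only [Pi.add_apply, Pi.single_eq_same, Pi.single_eq_of_ne (Ne.symm hji),

      Pi.single_eq_of_ne (Ne.symm hjk), Pi.single_eq_of_ne (Ne.symm h), add_zero, one_mul,
      neg_mul, neg_add, Pi.single_add, Pi.single_neg]
    abel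
  have ez : x j i hji (-1) * (x i k h r * (x j k hjk r * (x j i hji 1 * z))) = x i k h r * z := by
    have c1 := x_comm j i k hji h hjk 1 r
    rw [one_mul] at c1
    have c2 := (x_commute i k j k h hjk (Ne.symm hjk) h r r).eq
    have e : x i k h r * (x j k hjk r * (x j i hji 1 * z)) =
        (x i k h r * x j k hjk r) * (x j i hji 1 * z) := by rw [mul_assoc]
    rw [x_neg, e, c2, ← c1, commutatorElement_def]
    group
  rw [ey, ez] at s4
  exact s4

/-- explicit values of `act` -/
theorem act_apply (i j : I) (r : R) (y : I → R) (p : I) :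
    act i j r y p = y p + if p = i then r * y j else 0 := by
  unfold act
  rw [Pi.add_apply]
  by_cases h : p = i
  · subst h; rw [Pi.single_eq_same, if_pos rfl]
  · rw [Pi.single_eq_of_ne h, if_neg h]

/-- the coset attached to a column whose only unit coordinate is the `k`-th -/
def Sm (φ : R →+* K) (k : I) (y : I → R) (z : St I R) : Prop :=
  ∀ (i : I) (h : i ≠ k) (c : R), φ c ≠ 0 → Big k (act i k c y) (x i k h c * z)

theorem U_act_of (φ : R →+* K) {y : I → R} (hk : φ (y k) ≠ 0) (hy : ¬ U φ k y) {i : I}
    (h : i ≠ k) {c : R} (hc : φ c ≠ 0) : U φ k (act i k c y) := by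
  refine ⟨i, h, ?_⟩
  have h0 : φ (y i) = 0 := by
    by_contra hne
    exact hy ⟨i, h, hne⟩
  rw [act_apply, if_pos rfl, map_add, map_mul, h0, zero_add]
  exact mul_ne_zero hc hk

theorem act_k_apply {i : I} (h : i ≠ k) (c : R) (y : I → R) : act i k c y k = y k := by
  rw [act_apply, if_neg (Ne.symm h), add_zero]

theorem Sm.of_one (hu : ∀ r : R, φ r ≠ 0 → IsUnit r) (h3 : ∀ i : I, ∃ j, j ≠ i ∧ j ≠ k)
    {y : I → R} {z : St I R} (hk : φ (y k) ≠ 0) (hy : ¬ U φ k y) {i₀ : I} (h₀ : i₀ ≠ k) {c₀ : R}
    (hc₀ : φ c₀ ≠ 0) (hz : Big k (act i₀ k c₀ y) (x i₀ k h₀ c₀ * z)) : Sm φ k y z := by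
  -- first: different index
  have step : ∀ (i₁ : I) (h₁ : i₁ ≠ k) (c₁ : R), φ c₁ ≠ 0 →
      Big k (act i₁ k c₁ y) (x i₁ k h₁ c₁ * z) →
      ∀ (i : I) (h : i ≠ k) (c : R), i ≠ i₁ → φ c ≠ 0 →
        Big k (act i k c y) (x i k h c * z) := by
    intro i₁ h₁ c₁ hc₁ hz₁ i h c hne hc
    have u1 : U φ k (act i₁ k c₁ y) := U_act_of φ hk hy h₁ hc₁
    have u2 : U φ k (act i k c (act i₁ k c₁ y)) := by
      refine ⟨i₁, h₁, ?_⟩
      rw [act_apply, if_neg (Ne.symm hne), add_zero]
      obtain ⟨p, hp, hpu⟩ := u1
      have h0 : φ (y i₁) = 0 := by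
        by_contra hne'
        exact hy ⟨i₁, h₁, hne'⟩
      rw [act_apply, if_pos rfl, map_add, map_mul, h0, zero_add]
      exact mul_ne_zero hc₁ hk
    have s1 := hz₁.stepC' hu h3 h c u1 u2
    have ey : act i₁ k (-c₁) (act i k c (act i₁ k c₁ y)) = act i k c y := by
      funext p
      rw [act_apply, act_k_apply h, act_k_apply h₁, act_apply, act_k_apply h₁, act_apply,
        act_apply]
      split_ifs with hp1 hp2
      · exact absurd (hp2.symm.trans hp1) hne
      · rw [add_zero, neg_mul, add_neg_cancel_right, add_zero]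
      · rw [add_zero, add_zero]
      · rw [add_zero, add_zero]
    have u3 : U φ k (act i₁ k (-c₁) (act i k c (act i₁ k c₁ y))) := by
      rw [ey]; exact U_act_of φ hk hy h hc
    have s2 := s1.stepC' hu h3 h₁ (-c₁) u2 u3
    have ez : x i₁ k h₁ (-c₁) * (x i k h c * (x i₁ k h₁ c₁ * z)) = x i k h c * z := by
      have c2 := (x_commute i k i₁ k h h₁ (Ne.symm h₁) h c c₁).eq
      rw [x_neg, ← mul_assoc (x i k h c), c2]
      group
    rw [ey, ez] at s2
    exact s2
  intro i h c hc
  by_cases hii : i = i₀
  · subst hii
    obtain ⟨j, hji, hjk⟩ := h3 i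
    have s1 := step i h₀ c₀ hc₀ hz j hjk 1 hji (by rw [map_one]; exact one_ne_zero)
    exact step j hjk 1 (by rw [map_one]; exact one_ne_zero) s1 i h c (Ne.symm hji) hc
  · exact step i₀ h₀ c₀ hc₀ hz i h c hii hc

/-- `z` lies in the coset attached to `y` -/
def Mem (φ : R →+* K) (k : I) (y : I → R) (z : St I R) : Prop :=
  (U φ k y ∧ Big k y z) ∨ (¬ U φ k y ∧ φ (y k) ≠ 0 ∧ Sm φ k y z)

theorem Mem.unique (hu : ∀ r : R, φ r ≠ 0 → IsUnit r) (h3 : ∀ i : I, ∃ j, j ≠ i ∧ j ≠ k)
    {y : I → R} {z z' : St I R} (hz : Mem φ k y z) (hz' : Mem φ k y z') : z⁻¹ * z' ∈ Q R k := by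
  rcases hz with ⟨hy, hz⟩ | ⟨hy, hk, hz⟩
  · rcases hz' with ⟨_, hz'⟩ | ⟨hy', _, _⟩
    · exact Big.unique hu hy hz hz'
    · exact absurd hy hy'
  · rcases hz' with ⟨hy', _⟩ | ⟨_, _, hz'⟩
    · exact absurd hy' hy
    · obtain ⟨i, hi, _⟩ := h3 k
      have h1 : φ (1 : R) ≠ 0 := by rw [map_one]; exact one_ne_zero
      have := Big.unique hu (U_act_of φ hk hy hi h1) (hz i hi 1 h1) (hz' i hi 1 h1)
      have e : (x i k hi 1 * z)⁻¹ * (x i k hi 1 * z') = z⁻¹ * z' := by group
      rwa [e] at this

theorem mem_one (h3 : ∀ i : I, ∃ j, j ≠ i ∧ j ≠ k) :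
    Mem φ k (Pi.single k (1 : R)) (1 : St I R) := by
  right
  refine ⟨?_, ?_, ?_⟩
  · rintro ⟨p, hp, hpu⟩
    rw [Pi.single_eq_of_ne hp, map_zero] at hpu
    exact hpu rfl
  · rw [Pi.single_eq_same, map_one]; exact one_ne_zero
  · intro i h c hc
    refine ⟨0, 1, one_mem _, ?_, ?_⟩
    · rw [row_zero, one_mul, mul_one, mul_one]
      unfold act
      rw [col_add, col_single_self, one_mul, Pi.single_eq_same, mul_one, col_single k i h]
    · rw [dot_zero_left, add_zero, act_k_apply h, Pi.single_eq_same]

theorem Mem.step (hu : ∀ r : R, φ r ≠ 0 → IsUnit r) (h3 : ∀ i : I, ∃ j, j ≠ i ∧ j ≠ k)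
    {y : I → R} {z : St I R} (hz : Mem φ k y z) {i j : I} (h : i ≠ j) (r : R) :
    Mem φ k (act i j r y) (x i j h r * z) := by
  have h1 : φ (1 : R) ≠ 0 := by rw [map_one]; exact one_ne_zero
  by_cases hjk : j = k
  · subst hjk
    -- `x_ik(r)`
    rcases hz with ⟨hy, hz⟩ | ⟨hy, hk, hz⟩
    · by_cases hy' : U φ j (act i j r y)
      · exact Or.inl ⟨hy', hz.stepC' hu h3 h r hy hy'⟩
      · right
        have hall : ∀ p, p ≠ j → p ≠ i → φ (y p) = 0 := by
          intro p hp hpi
          by_contra hne
          apply hy'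
          refine ⟨p, hp, ?_⟩
          rwa [act_apply, if_neg hpi, add_zero]
        have hyi : φ (y i) ≠ 0 := by
          obtain ⟨p, hp, hpu⟩ := hy
          by_cases hpi : p = i
          · rwa [hpi] at hpu
          · exact absurd (hall p hp hpi) hpu
        have hsum : φ (y i) + φ r * φ (y j) = 0 := by
          by_contra hne
          apply hy'
          refine ⟨i, h, ?_⟩
          rwa [act_apply, if_pos rfl, map_add, map_mul]
        have hr : φ r ≠ 0 := by
          intro h0
          rw [h0, zero_mul, add_zero] at hsum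
          exact hyi hsum
        have hyk : φ (y j) ≠ 0 := by
          intro h0
          rw [h0, mul_zero, add_zero] at hsum
          exact hyi hsum
        have hk' : φ (act i j r y j) ≠ 0 := by rwa [act_k_apply h]
        refine ⟨hy', hk', Sm.of_one hu h3 hk' hy' h (c₀ := -r) (by rwa [map_neg, neg_ne_zero]) ?_⟩
        have ey : act i j (-r) (act i j r y) = y := by
          funext p
          rw [act_apply, act_k_apply h, act_apply]
          split_ifs
          · rw [neg_mul, add_neg_cancel_right]
          · rw [add_zero, add_zero]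
        have ez : x i j h (-r) * (x i j h r * z) = z := by rw [x_neg]; group
        rw [ey, ez]
        exact hz
    · obtain ⟨j', hji, hjk'⟩ := h3 i
      have s1 := hz j' hjk' 1 h1
      have u1 : U φ j (act j' j 1 y) := U_act_of φ hk hy hjk' h1
      have hj' : φ (act j' j 1 y j') ≠ 0 := by
        rw [act_apply, if_pos rfl, map_add, map_mul, map_one, one_mul]
        have h0 : φ (y j') = 0 := by
          by_contra hne
          exact hy ⟨j', hjk', hne⟩
        rwa [h0, zero_add]
      have s2 := s1.stepC hu h r hjk' hji hj'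
      have ey : act i j r (act j' j 1 y) = act j' j 1 (act i j r y) := by
        funext p
        rw [act_apply, act_k_apply hjk', act_apply, act_apply, act_k_apply h, act_apply]
        abel
      have ez : x i j h r * (x j' j hjk' 1 * z) = x j' j hjk' 1 * (x i j h r * z) := by
        rw [← mul_assoc, (x_commute i j j' j h hjk' (Ne.symm hjk') h r 1).eq, mul_assoc]
      rw [ey, ez] at s2
      have hk' : φ (act i j r y j) ≠ 0 := by rwa [act_k_apply h]
      by_cases hy' : U φ j (act i j r y)
      · left
        refine ⟨hy', ?_⟩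
        have ey2 : act j' j (-1) (act j' j 1 (act i j r y)) = act i j r y := by
          funext p
          rw [act_apply, act_k_apply hjk', act_apply]
          split_ifs
          · rw [one_mul, neg_mul, one_mul, add_neg_cancel_right]
          · rw [add_zero, add_zero]
        have u2 : U φ j (act j' j 1 (act i j r y)) := by
          refine ⟨j', hjk', ?_⟩
          rw [← ey, act_apply, if_neg hji, add_zero]
          exact hj'
        have s3 := s2.stepC' hu h3 hjk' (-1) u2 (by rw [ey2]; exact hy')
        have ez2 : x j' j hjk' (-1) * (x j' j hjk' 1 * (x i j h r * z)) = x i j h r * z := by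
          rw [x_neg]; group
        rw [ey2, ez2] at s3
        exact s3
      · exact Or.inr ⟨hy', hk', Sm.of_one hu h3 hk' hy' hjk' h1 s2⟩
  · by_cases hik : i = k
    · subst hik
      -- `x_kj(r)`
      have hUU : U φ i (act i j r y) ↔ U φ i y := by
        constructor
        · rintro ⟨p, hp, hpu⟩
          refine ⟨p, hp, ?_⟩
          rwa [act_apply, if_neg hp, add_zero] at hpu
        · rintro ⟨p, hp, hpu⟩
          refine ⟨p, hp, ?_⟩
          rwa [act_apply, if_neg hp, add_zero]
      rcases hz with ⟨hy, hz⟩ | ⟨hy, hk, hz⟩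
      · exact Or.inl ⟨hUU.mpr hy, hz.stepR h r⟩
      · right
        have hy' : ¬ U φ i (act i j r y) := fun hh => hy (hUU.mp hh)
        have h0 : φ (y j) = 0 := by
          by_contra hne
          exact hy ⟨j, hjk, hne⟩
        have hk' : φ (act i j r y i) ≠ 0 := by
          rw [act_apply, if_pos rfl, map_add, map_mul, h0, mul_zero, add_zero]
          exact hk
        obtain ⟨i', hi'j, hi'k⟩ := h3 j
        refine ⟨hy', hk', Sm.of_one hu h3 hk' hy' hi'k h1 ?_⟩
        have s1 := ((hz i' hi'k 1 h1).stepR h r).stepL hi'j hi'k hjk r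
        have ey : act i' j r (act i j r (act i' i 1 y)) = act i' i 1 (act i j r y) := by
          funext p
          simp only [act_apply, if_neg hjk, if_neg (Ne.symm hi'j), if_neg (Ne.symm hi'k),
            add_zero, if_pos, one_mul]
          split_ifs with hp1 hp2
          · exact absurd (hp2.symm.trans hp1) (Ne.symm hi'k)
          · rw [add_zero]; abel
          · abel
          · abel
        have ez : x i' j hi'j r * (x i j h r * (x i' i hi'k 1 * z)) =
            x i' i hi'k 1 * (x i j h r * z) := by
          have c1 := x_comm i' i j hi'k h hi'j 1 r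
          rw [one_mul] at c1
          rw [← c1, commutatorElement_def]
          group
        rw [ey, ez] at s1
        exact s1
    · -- `x_ij(r)`, `i, j ≠ k`
      have hjj : act i j r y j = y j := by
        rw [act_apply, if_neg (Ne.symm h), add_zero]
      have hkk : act i j r y k = y k := by
        rw [act_apply, if_neg (Ne.symm hik), add_zero]
      have hUU : U φ k y → U φ k (act i j r y) := by
        rintro ⟨p, hp, hpu⟩
        by_cases h0 : φ (y j) = 0
        · refine ⟨p, hp, ?_⟩
          rw [act_apply]
          split_ifs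
          · rw [map_add, map_mul, h0, mul_zero, add_zero]; exact hpu
          · rw [add_zero]; exact hpu
        · exact ⟨j, hjk, by rw [hjj]; exact h0⟩
      rcases hz with ⟨hy, hz⟩ | ⟨hy, hk, hz⟩
      · exact Or.inl ⟨hUU hy, hz.stepL h hik hjk r⟩
      · right
        have hall : ∀ p, p ≠ k → φ (y p) = 0 := by
          intro p hp
          by_contra hne
          exact hy ⟨p, hp, hne⟩
        have hy' : ¬ U φ k (act i j r y) := by
          rintro ⟨p, hp, hpu⟩
          apply hpu
          rw [act_apply]
          split_ifs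
          · rw [map_add, map_mul, hall p hp, hall j hjk, mul_zero, add_zero]
          · rw [add_zero]; exact hall p hp
        have hk' : φ (act i j r y k) ≠ 0 := by rwa [hkk]
        obtain ⟨i', hi'j, hi'k⟩ := h3 j
        refine ⟨hy', hk', Sm.of_one hu h3 hk' hy' hi'k h1 ?_⟩
        have s1 := (hz i' hi'k 1 h1).stepL h hik hjk r
        have ey : act i j r (act i' k 1 y) = act i' k 1 (act i j r y) := by
          funext p
          simp only [act_apply, if_neg (Ne.symm hi'j), if_neg (Ne.symm hik), add_zero]
          abel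
        have ez : x i j h r * (x i' k hi'k 1 * z) = x i' k hi'k 1 * (x i j h r * z) := by
          rw [← mul_assoc, (x_commute i j i' k h hi'k (Ne.symm hi'j) hik r 1).eq, mul_assoc]
        rw [ey, ez] at s1
        exact s1

theorem mem_all (hu : ∀ r : R, φ r ≠ 0 → IsUnit r) (h3 : ∀ i : I, ∃ j, j ≠ i ∧ j ≠ k)
    (z : St I R) : Mem φ k (fun i => (toMat z).val i k) z := by
  induction z using St.induction with
  | h1 =>
    have : (fun i => (toMat (1 : St I R)).val i k) = Pi.single k (1 : R) := by
      funext i
      rw [map_one, Units.val_one, Matrix.one_apply, Pi.single_apply]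
    rw [this]
    exact mem_one h3
  | hx i j h r g ih =>
    have := ih.step hu h3 h r
    have e : act i j r (fun i => (toMat g).val i k) =
        (fun a => (toMat (x i j h r * g)).val a k) := by
      funext a
      rw [act_apply, map_mul, Units.val_mul, toMat_x, elem_val, add_mul, one_mul, Matrix.add_apply]
      congr 1
      split_ifs with hai
      · subst hai
        rw [Matrix.single_mul_apply_same]
      · rw [Matrix.single_mul_apply_of_ne _ _ _ _ _ hai]
    rw [← e]
    exact this

/-- SURJECTIVE STABILITY: `z e_k = e_k` implies `z ∈ Q k`. -/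
theorem surj (hu : ∀ r : R, φ r ≠ 0 → IsUnit r) (h3 : ∀ i : I, ∃ j, j ≠ i ∧ j ≠ k)
    (z : St I R) (hz : ∀ i, (toMat z).val i k = if i = k then 1 else 0) : z ∈ Q R k := by
  have h := mem_all hu h3 z (φ := φ)
  have e : (fun i => (toMat z).val i k) = Pi.single k (1 : R) := by
    funext i
    rw [hz, Pi.single_apply]
  rw [e] at h
  have := Mem.unique hu h3 (mem_one h3) h
  rwa [inv_one, one_mul] at this

end Crest.Agent.R176.Surj906
end

-- ▼ part R176/Inj115A
section

/-! Row 176, part B, STAB step 2 (helper115): words in the Steinberg generators, evaluation under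
partial injections of the index set, words avoiding a set of columns. -/

set_option autoImplicit false
set_option linter.unusedVariables false
set_option linter.unusedSectionVars false

namespace Crest.Agent.R176.Inj115

open scoped commutatorElement
open Crest.Agent.R176 St

universe u v

variable {I J K : Type u} {R : Type v} [Ring R]

/-- total version of the generator -/
def xx [DecidableEq J] (i j : J) (r : R) : St J R := if h : i ≠ j then x i j h r else 1

theorem xx_of_ne [DecidableEq J] {i j : J} (h : i ≠ j) (r : R) : xx i j r = x i j h r := by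
  rw [xx, dif_pos h]

theorem xx_self [DecidableEq J] (i : J) (r : R) : xx i i r = 1 := by
  rw [xx, dif_neg (by simp)]

theorem xx_neg [DecidableEq J] (i j : J) (r : R) : xx i j (-r) = (xx i j r)⁻¹ := by
  by_cases h : i ≠ j
  · rw [xx_of_ne h, xx_of_ne h, x_neg]
  · rw [xx, xx, dif_neg h, dif_neg h, inv_one]

/-- words in the Steinberg generators -/
abbrev W (J : Type u) (R : Type v) := FreeGroup (StGen J R)

/-- the letter `x_ij(r)` -/
def lt (i j : J) (h : i ≠ j) (r : R) : W J R := FreeGroup.of (stg i j h r)

/-- value of a letter under a partial map of the indices (undefined indices: value `1`) -/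
def evl [DecidableEq K] (f : J → Option K) (i j : J) (r : R) : St K R :=
  match f i, f j with
  | some i', some j' => xx i' j' r
  | _, _ => 1

theorem evl_some [DecidableEq K] {f : J → Option K} {i j : J} {i' j' : K} (hi : f i = some i')
    (hj : f j = some j') (r : R) : evl f i j r = xx i' j' r := by
  unfold evl; rw [hi, hj]

theorem evl_none_left [DecidableEq K] {f : J → Option K} {i j : J} (hi : f i = none) (r : R) :
    evl f i j r = 1 := by
  unfold evl; rw [hi]

theorem evl_neg [DecidableEq K] (f : J → Option K) (i j : J) (r : R) :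
    evl f i j (-r) = (evl f i j r)⁻¹ := by
  unfold evl
  split
  · exact xx_neg _ _ _
  · rw [inv_one]

/-- evaluation of words under a partial map of the indices -/
def ev [DecidableEq K] (f : J → Option K) : W J R →* St K R :=
  FreeGroup.lift (fun g => evl f g.1.1.1 g.1.1.2 g.2)

@[simp] theorem ev_lt [DecidableEq K] (f : J → Option K) (i j : J) (h : i ≠ j) (r : R) :
    ev f (lt i j h r) = evl f i j r := by
  unfold ev lt
  rw [FreeGroup.lift_apply_of]
  rfl

/-- the matrix of a word -/
def mt [Fintype J] [DecidableEq J] : W J R →* (Matrix J J R)ˣ :=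
  FreeGroup.lift (fun g => elem g.1.1.1 g.1.1.2 g.1.2 g.2)

@[simp] theorem mt_lt [Fintype J] [DecidableEq J] (i j : J) (h : i ≠ j) (r : R) :
    mt (lt i j h r) = elem i j h r := by
  unfold mt lt
  rw [FreeGroup.lift_apply_of]
  rfl

theorem elem_neg' [Fintype J] [DecidableEq J] (i j : J) (h : i ≠ j) (r : R) :
    elem i j h (-r) = (elem i j h r)⁻¹ := by
  apply Units.ext
  rw [elem_val, elem_inv_val]

/-- a letter or an inverse letter, with its value -/
def Lk (u : W J R) (a b : J) (h : a ≠ b) (s : R) : Prop :=
  u = lt a b h s ∨ u = (lt a b h (-s))⁻¹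

theorem Lk.lt (a b : J) (h : a ≠ b) (s : R) : Lk (lt a b h s) a b h s := Or.inl rfl

theorem Lk.inv {u : W J R} {a b : J} {h : a ≠ b} {s : R} (hu : Lk u a b h s) :
    Lk u⁻¹ a b h (-s) := by
  rcases hu with rfl | rfl
  · right; rw [neg_neg]
  · left; rw [inv_inv]

theorem Lk.ev [DecidableEq K] {u : W J R} {a b : J} {h : a ≠ b} {s : R} (hu : Lk u a b h s)
    (f : J → Option K) : ev f u = evl f a b s := by
  rcases hu with rfl | rfl
  · simp
  · rw [map_inv, ev_lt, evl_neg, inv_inv]

theorem Lk.mt [Fintype J] [DecidableEq J] {u : W J R} {a b : J} {h : a ≠ b} {s : R}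
    (hu : Lk u a b h s) : mt u = elem a b h s := by
  rcases hu with rfl | rfl
  · simp
  · rw [map_inv, mt_lt, elem_neg', inv_inv]

/-- words all of whose letters have their column in `P` -/
def FA (P : J → Prop) : Subgroup (W J R) :=
  Subgroup.closure {w | ∃ i j h r, P j ∧ w = lt i j h r}

theorem lt_mem {P : J → Prop} {i j : J} (h : i ≠ j) (r : R) (hj : P j) : lt i j h r ∈ FA P :=
  Subgroup.subset_closure ⟨i, j, h, r, hj, rfl⟩

theorem Lk.mem {P : J → Prop} {u : W J R} {a b : J} {h : a ≠ b} {s : R} (hu : Lk u a b h s)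
    (hb : P b) : u ∈ FA P := by
  rcases hu with rfl | rfl
  · exact lt_mem h s hb
  · exact inv_mem (lt_mem h _ hb)

theorem FA_mono {P Q : J → Prop} (h : ∀ j, P j → Q j) : FA (R := R) P ≤ FA Q := by
  apply Subgroup.closure_mono
  rintro _ ⟨i, j, hij, r, hj, rfl⟩
  exact ⟨i, j, hij, r, h j hj, rfl⟩

theorem FA_induction {P : J → Prop} {p : W J R → Prop} (h1 : p 1)
    (hl : ∀ u a b h s w, Lk u a b h s → P b → w ∈ FA P → p w → p (u * w)) {w : W J R}
    (hw : w ∈ FA P) : p w := by
  have key : w ∈ FA P ∧ p w := by
    unfold FA at hw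
    induction hw using Subgroup.closure_induction_left with
    | one => exact ⟨one_mem _, h1⟩
    | mul_left a ha b _ ih =>
      obtain ⟨i, j, h, r, hj, rfl⟩ := ha
      exact ⟨mul_mem (lt_mem h r hj) ih.1, hl _ _ _ _ _ _ (Lk.lt i j h r) hj ih.1 ih.2⟩
    | inv_mul_cancel a ha b _ ih =>
      obtain ⟨i, j, h, r, hj, rfl⟩ := ha
      exact ⟨mul_mem (inv_mem (lt_mem h r hj)) ih.1,
        hl _ _ _ _ _ _ (Lk.lt i j h r).inv hj ih.1 ih.2⟩
  exact key.2

/-- killing the letters with column outside `P` -/
noncomputable def ret (P : J → Prop) : W J R →* W J R :=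
  open Classical in
  FreeGroup.lift (fun g => if P g.1.1.2 then FreeGroup.of g else 1)

theorem ret_lt_of (P : J → Prop) (i j : J) (h : i ≠ j) (r : R) (hj : P j) :
    ret P (lt i j h r) = lt i j h r := by
  unfold ret lt
  rw [FreeGroup.lift_apply_of, if_pos]
  exact hj

theorem ret_lt_of_not (P : J → Prop) (i j : J) (h : i ≠ j) (r : R) (hj : ¬ P j) :
    ret P (lt i j h r) = 1 := by
  unfold ret lt
  rw [FreeGroup.lift_apply_of, if_neg]
  exact hj

theorem ret_of_mem {P : J → Prop} {w : W J R} (hw : w ∈ FA P) : ret P w = w := by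
  have : FA (R := R) P ≤ (ret P).eqLocus (MonoidHom.id _) := by
    rw [FA, Subgroup.closure_le]
    rintro _ ⟨i, j, h, r, hj, rfl⟩
    exact ret_lt_of P i j h r hj
  exact this hw

theorem ret_mem {P Q : J → Prop} {w : W J R} (hw : w ∈ FA Q) :
    ret P w ∈ FA (fun j => P j ∧ Q j) := by
  have : FA (R := R) Q ≤ (FA (fun j => P j ∧ Q j)).comap (ret P) := by
    rw [FA, Subgroup.closure_le]
    rintro _ ⟨i, j, h, r, hj, rfl⟩
    show ret P (lt i j h r) ∈ FA (fun j => P j ∧ Q j)
    by_cases hp : P j
    · rw [ret_lt_of P i j h r hp]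
      exact lt_mem h r ⟨hp, hj⟩
    · rw [ret_lt_of_not P i j h r hp]
      exact one_mem _
  exact this hw

theorem FA_inter {P Q : J → Prop} {w : W J R} (hP : w ∈ FA P) (hQ : w ∈ FA Q) :
    w ∈ FA (fun j => P j ∧ Q j) := by
  have := ret_mem (P := P) hQ
  rwa [ret_of_mem hP] at this

section Mat

variable [Fintype J] [DecidableEq J] [Fintype K] [DecidableEq K]

theorem elem_mul_apply (a b : J) (h : a ≠ b) (s : R) (M : Matrix J J R) (i j : J) :
    ((elem a b h s : (Matrix J J R)ˣ).val * M) i j = M i j + if i = a then s * M b j else 0 := by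
  rw [elem_val, add_mul, one_mul, Matrix.add_apply]
  congr 1
  by_cases hi : i = a
  · subst hi
    rw [if_pos rfl, Matrix.single_mul_apply_same]
  · rw [if_neg hi, Matrix.single_mul_apply_of_ne _ _ _ _ _ hi]

theorem mt_Lk_mul {u : W J R} {a b : J} {h : a ≠ b} {s : R} (hu : Lk u a b h s) (w : W J R)
    (i j : J) : (mt (u * w)).val i j = (mt w).val i j + if i = a then s * (mt w).val b j else 0 := by
  rw [map_mul, Units.val_mul, hu.mt, elem_mul_apply]

/-- a partial injection -/
def PInj (f : J → Option K) : Prop := ∀ i j k, f i = some k → f j = some k → i = j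

theorem mt_col {P : J → Prop} {w : W J R} (hw : w ∈ FA P) :
    ∀ j, ¬ P j → ∀ i, (mt w).val i j = if i = j then 1 else 0 := by
  refine FA_induction (p := fun w => ∀ j, ¬ P j → ∀ i, (mt w).val i j = if i = j then 1 else 0)
    ?_ ?_ hw
  · intro j _ i; rw [map_one, Units.val_one, Matrix.one_apply]
  · intro u a b h s w hu hb hw ih j hj i
    rw [mt_Lk_mul hu, ih j hj i, ih j hj b, if_neg (show b ≠ j from fun e => hj (e ▸ hb)), mul_zero]
    simp

theorem toMat_ev {f : J → Option K} (hf : PInj f) {w : W J R}
    (hw : w ∈ FA (fun j => f j ≠ none)) :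
    ∀ i j i' j', f i = some i' → f j = some j' →
      (toMat (ev f w)).val i' j' = (mt w).val i j := by
  refine FA_induction (p := fun w => ∀ i j i' j', f i = some i' → f j = some j' →
      (toMat (ev f w)).val i' j' = (mt w).val i j) ?_ ?_ hw
  · intro i j i' j' hi hj
    rw [map_one, map_one, map_one, Units.val_one, Units.val_one, Matrix.one_apply,
      Matrix.one_apply]
    by_cases hij : i = j
    · subst hij
      have : i' = j' := by rw [hi] at hj; exact Option.some_injective _ hj
      simp [this]
    · have : i' ≠ j' := by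
        rintro rfl; exact hij (hf _ _ _ hi hj)
      simp [hij, this]
  · intro u a b h s w hu hb hw ih i j i' j' hi hj
    rw [mt_Lk_mul hu, map_mul, hu.ev, map_mul, Units.val_mul]
    obtain ⟨b', hb'⟩ := Option.ne_none_iff_exists'.mp hb
    rcases ha : f a with _ | a'
    · have hia : i ≠ a := by rintro rfl; rw [ha] at hi; exact absurd hi (by simp)
      rw [evl_none_left ha, map_one, Units.val_one, one_mul, ih i j i' j' hi hj, if_neg hia,
        add_zero]
    · have hab : a' ≠ b' := by rintro rfl; exact h (hf _ _ _ ha hb')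
      rw [evl_some ha hb', xx_of_ne hab, toMat_x, elem_mul_apply, ih i j i' j' hi hj,
        ih b j b' j' hb' hj]
      by_cases hia : i = a
      · subst hia
        have : i' = a' := by rw [hi] at ha; exact Option.some_injective _ ha
        simp [this]
      · have : i' ≠ a' := by rintro rfl; exact hia (hf _ _ _ hi ha)
        simp [hia, this]

end Mat

end Crest.Agent.R176.Inj115
end

-- ▼ part R176/Inj115B
section

/-! Row 176, part B, STAB step 2 (helper115): the evaluation `τ t` (rename the new index to a spare
index `t`), its correction `θ t`, multiplicativity on the stabiliser, independence of `t`. -/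

set_option autoImplicit false
set_option linter.unusedVariables false
set_option linter.unusedSectionVars false

namespace Crest.Agent.R176.Inj115

open scoped commutatorElement
open Crest.Agent.R176 St

universe u v

variable {I : Type u} {R : Type v} [Ring R]

/-- subgroup generated by the generators with column `≠ o` -/
def Qs (K : Type u) (R : Type v) [Ring R] (o : K) : Subgroup (St K R) :=
  Subgroup.closure {g | ∃ i j h r, j ≠ o ∧ g = x i j h r}

theorem x_mem_Qs {K : Type u} {o i j : K} (h : i ≠ j) (r : R) (hj : j ≠ o) :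
    x i j h r ∈ Qs K R o := Subgroup.subset_closure ⟨i, j, h, r, hj, rfl⟩

theorem Qs_induction {K : Type u} {o : K} {p : St K R → Prop} (h1 : p 1)
    (hl : ∀ i j h r w, j ≠ o → w ∈ Qs K R o → p w → p (x i j h r * w)) {w : St K R}
    (hw : w ∈ Qs K R o) : p w := by
  have key : w ∈ Qs K R o ∧ p w := by
    unfold Qs at hw
    induction hw using Subgroup.closure_induction_left with
    | one => exact ⟨one_mem _, h1⟩
    | mul_left a ha b _ ih =>
      obtain ⟨i, j, h, r, hj, rfl⟩ := ha
      exact ⟨mul_mem (x_mem_Qs h r hj) ih.1, hl _ _ _ _ _ hj ih.1 ih.2⟩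
    | inv_mul_cancel a ha b _ ih =>
      obtain ⟨i, j, h, r, hj, rfl⟩ := ha
      rw [← x_neg]
      exact ⟨mul_mem (x_mem_Qs h (-r) hj) ih.1, hl _ _ _ _ _ hj ih.1 ih.2⟩
  exact key.2

/-- surjective `K₂`-stability: an element of the Steinberg group whose matrix fixes the basis
vector `e_o` is a product of generators with column `≠ o`. -/
def SURJ (R : Type v) [Ring R] : Prop :=
  ∀ (K : Type u) [Fintype K] [DecidableEq K] (o : K), 3 ≤ Fintype.card K →
    ∀ g : St K R, (∀ i, (toMat g).val i o = if i = o then 1 else 0) → g ∈ Qs K R o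

section Row

variable {K : Type u} [Fintype K] [DecidableEq K]

/-- moving a row through an element fixing the column `t` -/
theorem row_mul_of_mem {t : K} {g : St K R} (hg : g ∈ Qs K R t) :
    ∀ b : K → R, row t b * g = g * row t (fun j => ∑ l, if l = t then 0 else b l * (toMat g).val l j) := by
  refine Qs_induction (p := fun g => ∀ b : K → R, row t b * g =
    g * row t (fun j => ∑ l, if l = t then 0 else b l * (toMat g).val l j)) ?_ ?_ hg
  · intro b
    rw [mul_one, one_mul]
    apply row_congr
    intro j hj
    rw [Finset.sum_eq_single j]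
    · rw [if_neg hj, map_one, Units.val_one, Matrix.one_apply_eq, mul_one]
    · intro l _ hl
      rw [map_one, Units.val_one, Matrix.one_apply_ne hl, mul_zero, ite_self]
    · intro h; exact absurd (Finset.mem_univ _) h
  · intro i j h r g hj hgm ih b
    by_cases hi : i = t
    · subst hi
      have h1 : Commute (row i b) (x i j h r) := by
        rw [← row_single i j h]
        unfold row
        rw [commute_iff_eq, ← map_mul, ← map_mul, mul_comm]
      rw [← mul_assoc, h1.eq, mul_assoc, ih, mul_assoc]
      congr 2
      apply row_congr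
      intro k hk
      apply Finset.sum_congr rfl
      intro l _
      by_cases hl : l = i
      · rw [if_pos hl, if_pos hl]
      · rw [if_neg hl, if_neg hl, map_mul, Units.val_mul, toMat_x, elem_mul_apply, if_neg hl,
          add_zero]
    · have h1 : row t b * x i j h r = x i j h r * row t (b + Pi.single j (b i * r)) := by
        rw [x_mul_row t i j h hi hj]
        congr 2
        rw [Pi.add_apply, Pi.single_eq_of_ne h, add_zero, add_sub_cancel_right]
      rw [← mul_assoc, h1, mul_assoc, ih, mul_assoc]
      congr 2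
      apply row_congr
      intro k hk
      have h2 : ∀ l, (if l = t then (0 : R) else (b + Pi.single j (b i * r) : K → R) l * (toMat g).val l k) =
          (if l = t then 0 else b l * (toMat g).val l k) +
            (if l = j then b i * r * (toMat g).val j k else 0) := by
        intro l
        by_cases hl : l = t
        · subst hl
          rw [if_pos rfl, if_pos rfl, if_neg (Ne.symm hj), add_zero]
        · rw [if_neg hl, if_neg hl, Pi.add_apply, add_mul]
          congr 1
          by_cases hlj : l = j
          · subst hlj; rw [Pi.single_eq_same, if_pos rfl]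
          · rw [Pi.single_eq_of_ne hlj, if_neg hlj, zero_mul]
      have h3 : ∀ l, (if l = t then (0 : R) else b l * (toMat (x i j h r * g)).val l k) =
          (if l = t then 0 else b l * (toMat g).val l k) +
            (if l = i then b i * (r * (toMat g).val j k) else 0) := by
        intro l
        rw [map_mul, Units.val_mul, toMat_x, elem_mul_apply]
        by_cases hl : l = t
        · subst hl
          rw [if_pos rfl, if_pos rfl, if_neg (Ne.symm hi), add_zero]
        · rw [if_neg hl, if_neg hl, mul_add]
          congr 1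
          by_cases hli : l = i
          · subst hli; rw [if_pos rfl, if_pos rfl]
          · rw [if_neg hli, if_neg hli, mul_zero]
      simp only [h2, h3]
      rw [Finset.sum_add_distrib, Finset.sum_add_distrib, Finset.sum_ite_eq' Finset.univ j,
        Finset.sum_ite_eq' Finset.univ i, if_pos (Finset.mem_univ _), if_pos (Finset.mem_univ _),
        mul_assoc]

end Row

variable [Fintype I] [DecidableEq I]

/-- rename the new index `none` to the spare index `t`, drop `t` -/
def nu (t : I) : Option I → Option I := fun j =>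
  match j with
  | none => some t
  | some i => if i = t then none else some i

@[simp] theorem nu_none (t : I) : nu t none = some t := rfl

theorem nu_some_self (t : I) : nu t (some t) = none := by simp [nu]

theorem nu_some_of_ne {t i : I} (h : i ≠ t) : nu t (some i) = some i := by simp [nu, h]

theorem nu_inj (t : I) : PInj (nu t) := by
  intro i j k hi hj
  rcases i with _ | i <;> rcases j with _ | j
  · rfl
  · by_cases hjt : j = t
    · subst hjt; rw [nu_some_self] at hj; simp at hj
    · rw [nu_some_of_ne hjt] at hj; rw [nu_none] at hi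
      exact absurd ((Option.some_injective _ hj).trans (Option.some_injective _ hi).symm) hjt
  · by_cases hit : i = t
    · subst hit; rw [nu_some_self] at hi; simp at hi
    · rw [nu_some_of_ne hit] at hi; rw [nu_none] at hj
      exact absurd ((Option.some_injective _ hi).trans (Option.some_injective _ hj).symm) hit
  · by_cases hit : i = t
    · subst hit; rw [nu_some_self] at hi; simp at hi
    · by_cases hjt : j = t
      · subst hjt; rw [nu_some_self] at hj; simp at hj
      · rw [nu_some_of_ne hit] at hi; rw [nu_some_of_ne hjt] at hj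
        rw [hi.trans hj.symm]

theorem nu_ne_none_iff (t : I) (j : Option I) : nu t j ≠ none ↔ j ≠ some t := by
  rcases j with _ | j
  · simp
  · by_cases h : j = t
    · subst h; simp [nu_some_self]
    · simp [nu_some_of_ne h, h]

/-- evaluation: new index `:=` spare index `t` -/
def tau (t : I) : W (Option I) R →* St I R := ev (nu t)

/-- words whose letters have column `≠ some t` -/
abbrev FT (t : I) : Subgroup (W (Option I) R) := FA (fun j => j ≠ some t)

/-- the matrix of the word fixes `e_none` -/
def Stb (w : W (Option I) R) : Prop := ∀ i, (mt w).val i none = if i = none then 1 else 0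

theorem Stb.one : Stb (1 : W (Option I) R) := by
  intro i; rw [map_one, Units.val_one, Matrix.one_apply]

theorem Stb.mul {w w' : W (Option I) R} (h : Stb w) (h' : Stb w') : Stb (w * w') := by
  intro i
  rw [map_mul, Units.val_mul, Matrix.mul_apply, Finset.sum_eq_single none]
  · rw [h' none, if_pos rfl, mul_one, h i]
  · intro l _ hl
    rw [h' l, if_neg hl, mul_zero]
  · intro h; exact absurd (Finset.mem_univ _) h

/-- the correction row -/
def dl (t : I) (w : W (Option I) R) : I → R := fun j =>
  (mt w).val (some t) (some j) - (mt w).val none (some j)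

/-- the corrected evaluation -/
def th (t : I) (w : W (Option I) R) : St I R := tau t w * row t (dl t w)

theorem toMat_tau {t : I} {w : W (Option I) R} (hw : w ∈ FT t) :
    ∀ i j i' j', nu t i = some i' → nu t j = some j' →
      (toMat (tau t w)).val i' j' = (mt w).val i j := by
  apply toMat_ev (nu_inj t)
  exact FA_mono (fun j hj => (nu_ne_none_iff t j).mpr hj) hw

theorem tau_mem (hS : SURJ.{u, v} R) (hc : 3 ≤ Fintype.card I) {t : I} {w : W (Option I) R}
    (hw : w ∈ FT t) (hs : Stb w) : tau t w ∈ Qs I R t := by
  apply hS I t hc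
  intro i
  by_cases hi : i = t
  · subst hi
    rw [toMat_tau hw none none i i (nu_none i) (nu_none i), hs none, if_pos rfl, if_pos rfl]
  · rw [toMat_tau hw (some i) none i t (nu_some_of_ne hi) (nu_none t), hs, if_neg hi]
    simp

theorem th_mul (hS : SURJ.{u, v} R) (hc : 3 ≤ Fintype.card I) {t : I} {w w' : W (Option I) R}
    (hw : w ∈ FT t) (hw' : w' ∈ FT t) (hs : Stb w) (hs' : Stb w') :
    th t (w * w') = th t w * th t w' := by
  unfold th
  rw [mul_assoc (tau t w), ← mul_assoc (row t (dl t w)), row_mul_of_mem (tau_mem hS hc hw' hs'),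
    mul_assoc (tau t w'), ← row_add, map_mul, mul_assoc]
  congr 2
  apply row_congr
  intro j hj
  have e1 : dl t (w * w') j = ∑ l : Option I, ((mt w).val (some t) l - (mt w).val none l) *
      (mt w').val l (some j) := by
    unfold dl
    rw [map_mul, Units.val_mul, Matrix.mul_apply, Matrix.mul_apply, ← Finset.sum_sub_distrib]
    apply Finset.sum_congr rfl
    intro l _
    rw [sub_mul]
  rw [e1, Fintype.sum_option, hs, hs, Pi.add_apply]
  have e2 : ∑ i : I, ((mt w).val (some t) (some i) - (mt w).val none (some i)) *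
      (mt w').val (some i) (some j) =
      (∑ l, if l = t then 0 else dl t w l * (toMat (tau t w')).val l j) +
        (mt w').val (some t) (some j) := by
    rw [← Finset.add_sum_erase _ _ (Finset.mem_univ t), mt_col hw (some t) (by simp),
      mt_col hw (some t) (by simp), if_pos rfl, if_neg (by simp), sub_zero, one_mul, add_comm]
    congr 1
    rw [← Finset.add_sum_erase (a := t) (f := fun l => if l = t then 0 else
      dl t w l * (toMat (tau t w')).val l j) _ (Finset.mem_univ t), if_pos rfl, zero_add]
    apply Finset.sum_congr rfl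
    intro l hl
    have hlt : l ≠ t := Finset.ne_of_mem_erase hl
    rw [if_neg hlt, toMat_tau hw' (some l) (some j) l j (nu_some_of_ne hlt) (nu_some_of_ne hj)]
    rfl
  rw [e2]
  simp only [dl]
  simp only [reduceCtorEq, if_false, if_true, zero_sub, neg_mul, one_mul]
  abel

theorem th_congr {t : I} {w w' : W (Option I) R} (h : tau t w = tau t w') (hm : mt w = mt w') :
    th t w = th t w' := by
  unfold th dl
  rw [h, hm]

theorem th_one (t : I) : th t (1 : W (Option I) R) = 1 := by
  unfold th
  rw [map_one, one_mul, ← row_zero t]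
  apply row_congr
  intro j hj
  unfold dl
  rw [map_one, Units.val_one, Matrix.one_apply_ne (by simp [Ne.symm hj]),
    Matrix.one_apply_ne (by simp), sub_zero]
  rfl


/-- values on the basic letters -/
theorem th_lt_none {t j : I} (h : (none : Option I) ≠ some j) (r : R) (hj : j ≠ t) :
    th t (lt none (some j) h r) = 1 := by
  unfold th
  have e : tau t (lt none (some j) h r) = row t (Pi.single j r) := by
    rw [row_single t j (Ne.symm hj)]
    unfold tau
    rw [ev_lt, evl_some (nu_none t) (nu_some_of_ne hj), xx_of_ne]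
  rw [e, ← row_add, ← row_zero t]
  apply row_congr
  intro k hk
  rw [Pi.add_apply]
  unfold dl
  rw [mt_lt, elem_val, Matrix.add_apply, Matrix.add_apply,
    Matrix.one_apply_ne (by simp [Ne.symm hk]), Matrix.one_apply_ne (by simp)]
  by_cases hkj : k = j
  · subst hkj; simp [Matrix.single_apply]
  · have : some j ≠ some k := by simpa using Ne.symm hkj
    simp [Matrix.single_apply, Pi.single_eq_of_ne hkj, Ne.symm hkj]

theorem th_lt_some {t i j : I} (h : some i ≠ some j) (r : R) (hj : j ≠ t) :
    th t (lt (some i) (some j) h r) = x i j (fun e => h (e ▸ rfl)) r := by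
  unfold th
  by_cases hi : i = t
  · subst hi
    have e : tau i (lt (some i) (some j) h r) = 1 := by
      unfold tau
      rw [ev_lt, evl_none_left (nu_some_self i)]
    rw [e, one_mul, ← row_single]
    apply row_congr
    intro k hk
    unfold dl
    rw [mt_lt, elem_val, Matrix.add_apply, Matrix.add_apply,
      Matrix.one_apply_ne (by simp [Ne.symm hk]), Matrix.one_apply_ne (by simp)]
    by_cases hkj : k = j
    · subst hkj; simp [Matrix.single_apply]
    · simp [Matrix.single_apply, Pi.single_eq_of_ne hkj, Ne.symm hkj]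
  · have e : tau t (lt (some i) (some j) h r) = x i j (fun e => h (e ▸ rfl)) r := by
      unfold tau
      rw [ev_lt, evl_some (nu_some_of_ne hi) (nu_some_of_ne hj), xx_of_ne]
    rw [e]
    have : row t (dl t (lt (some i) (some j) h r)) = 1 := by
      rw [← row_zero t]
      apply row_congr
      intro k hk
      unfold dl
      rw [mt_lt, elem_val, Matrix.add_apply, Matrix.add_apply,
        Matrix.one_apply_ne (by simp [Ne.symm hk]), Matrix.one_apply_ne (by simp)]
      simp [Matrix.single_apply, hi]
    rw [this, mul_one]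

end Crest.Agent.R176.Inj115
private theorem rz_1241fa0dc7 : type_of% @_root_.Crest.Agent.R176.Inj115.nu.eq_1 := @_root_.Crest.Agent.R176.Inj115.nu.eq_1 -- L126
end

-- ▼ part R176/Inj115C
section

/-! Row 176, part B, STAB step 2 (helper115): independence of the spare index. -/

set_option autoImplicit false
set_option linter.unusedVariables false
set_option linter.unusedSectionVars false

namespace Crest.Agent.R176.Inj115

open scoped commutatorElement
open Crest.Agent.R176 St

universe u v

variable {I : Type u} {R : Type v} [Ring R]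

theorem row_commute_row {K : Type u} [Fintype K] [DecidableEq K] (k l : K) (a b : K → R)
    (hak : a l = 0) (hbk : b k = 0) : Commute (row k a) (row l b) := by
  by_cases hkl : k = l
  · subst hkl
    unfold row
    rw [commute_iff_eq, ← map_mul, ← map_mul, mul_comm]
  have key : ∀ s : Finset K, l ∉ s → ∀ t : Finset K, k ∉ t →
      Commute (row k (∑ i ∈ s, Pi.single i (a i))) (row l (∑ i ∈ t, Pi.single i (b i))) := by
    intro s
    induction s using Finset.induction_on with
    | empty => intro _ t _; simp
    | insert i s his ih =>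
      intro hl t hk
      rw [Finset.sum_insert his, row_add]
      apply Commute.mul_left _ (ih (fun h => hl (Finset.mem_insert_of_mem h)) t hk)
      by_cases hik : i = k
      · subst hik; simp
      rw [row_single k i (Ne.symm hik)]
      clear ih
      induction t using Finset.induction_on with
      | empty => simp
      | insert j t hjt iht =>
        rw [Finset.sum_insert hjt, row_add]
        apply Commute.mul_right _ (iht (fun h => hk (Finset.mem_insert_of_mem h)))
        by_cases hjl : j = l
        · subst hjl; simp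
        rw [row_single l j (Ne.symm hjl)]
        apply x_commute
        · rintro rfl; exact hl (Finset.mem_insert_self _ _)
        · rintro rfl; exact hk (Finset.mem_insert_self _ _)
  have e1 : a = ∑ i ∈ Finset.univ.erase l, Pi.single i (a i) := by
    conv_lhs => rw [← Finset.univ_sum_single a]
    rw [← Finset.add_sum_erase _ _ (Finset.mem_univ l), hak, Pi.single_zero, zero_add]
  have e2 : b = ∑ i ∈ Finset.univ.erase k, Pi.single i (b i) := by
    conv_lhs => rw [← Finset.univ_sum_single b]
    rw [← Finset.add_sum_erase _ _ (Finset.mem_univ k), hbk, Pi.single_zero, zero_add]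
  rw [e1, e2]
  exact key _ (Finset.notMem_erase _ _) _ (Finset.notMem_erase _ _)

theorem ev_map {J K L : Type u} [DecidableEq K] [DecidableEq L] (f : J → Option K) (e : K ↪ L)
    (w : W J R) : ev (fun j => (f j).map e) w = mapI e (ev f w) := by
  have : ev (R := R) (fun j => (f j).map e) = (mapI e).comp (ev f) := by
    apply FreeGroup.ext_hom
    rintro ⟨⟨⟨i, j⟩, hij⟩, r⟩
    show ev _ (lt i j hij r) = mapI e (ev f (lt i j hij r))
    rw [ev_lt, ev_lt]
    rcases hi : f i with _ | i'
    · rw [evl_none_left (by simp [hi]), evl_none_left hi, map_one]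
    · rcases hj : f j with _ | j'
      · unfold evl; simp [hi, hj]
      · rw [evl_some (f := f) hi hj, evl_some (i' := e i') (j' := e j') (by simp [hi]) (by simp [hj])]
        by_cases h : i' = j'
        · subst h; rw [xx_self, xx_self, map_one]
        · rw [xx_of_ne h, xx_of_ne (e.injective.ne h), mapI_x]
  exact DFunLike.congr_fun this w

variable [Fintype I] [DecidableEq I]

theorem Stb.inv {w : W (Option I) R} (h : Stb w) : Stb w⁻¹ := by
  intro i
  have h1 : ((mt w⁻¹).val * (mt w).val) i none = if i = none then 1 else 0 := by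
    rw [← Units.val_mul, ← map_mul, inv_mul_cancel, map_one, Units.val_one, Matrix.one_apply]
  rw [Matrix.mul_apply, Finset.sum_eq_single none] at h1
  · rwa [h none, if_pos rfl, mul_one] at h1
  · intro l _ hl
    rw [h l, if_neg hl, mul_zero]
  · intro h; exact absurd (Finset.mem_univ _) h

theorem Stb.lt {i j : Option I} (h : i ≠ j) (r : R) (hj : j ≠ none) : Stb (lt i j h r) := by
  intro k
  rw [mt_lt, elem_val, Matrix.add_apply, Matrix.one_apply]
  simp [Matrix.single_apply, hj]

/-- predicate: column outside `{t, t'}` -/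
def P2 (t t' : I) : Option I → Prop := fun j => j ≠ some t ∧ j ≠ some t'

theorem FA_P2_le {t t' : I} : FA (R := R) (P2 t t') ≤ FT t := FA_mono fun _ h => h.1

theorem FA_P2_le' {t t' : I} : FA (R := R) (P2 t t') ≤ FT t' := FA_mono fun _ h => h.2

/-- indices different from `t, t'` -/
abbrev K0 (t t' : I) := {j : Option I // j ≠ some t ∧ j ≠ some t'}

/-- drop the indices `t, t'` -/
def kap (t t' : I) : Option I → Option (K0 t t') := fun j =>
  if h : j ≠ some t ∧ j ≠ some t' then some ⟨j, h⟩ else none

theorem kap_of {t t' : I} {j : Option I} (h : j ≠ some t ∧ j ≠ some t') :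
    kap t t' j = some ⟨j, h⟩ := by unfold kap; rw [dif_pos h]

theorem kap_of_not {t t' : I} {j : Option I} (h : ¬ (j ≠ some t ∧ j ≠ some t')) :
    kap t t' j = none := by unfold kap; rw [dif_neg h]

theorem kap_inj (t t' : I) : PInj (kap t t') := by
  intro i j k hi hj
  by_cases h : i ≠ some t ∧ i ≠ some t'
  · by_cases h' : j ≠ some t ∧ j ≠ some t'
    · rw [kap_of h] at hi; rw [kap_of h'] at hj
      have := (Option.some_injective _ hi).trans (Option.some_injective _ hj).symm
      exact congrArg Subtype.val this
    · rw [kap_of_not h'] at hj; simp at hj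
  · rw [kap_of_not h] at hi; simp at hi

theorem kap_ne_none_iff (t t' : I) (j : Option I) : kap t t' j ≠ none ↔ P2 t t' j := by
  by_cases h : j ≠ some t ∧ j ≠ some t'
  · rw [kap_of h]; exact ⟨fun _ => h, fun _ => by simp⟩
  · rw [kap_of_not h]; exact ⟨fun h' => absurd rfl h', fun h' => absurd h' h⟩

theorem toMat_kap {t t' : I} {w : W (Option I) R} (hw : w ∈ FA (P2 t t')) :
    ∀ i j : K0 t t', (toMat (ev (kap t t') w)).val i j = (mt w).val i.1 j.1 := by
  intro i j
  apply toMat_ev (kap_inj t t') (FA_mono (fun j hj => (kap_ne_none_iff t t' j).mpr hj) hw)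
  · rw [kap_of i.2]
  · rw [kap_of j.2]

/-- embedding of the remaining indices, new index `none := t` -/
def et (t t' : I) (htt : t ≠ t') : K0 t t' ↪ I where
  toFun j := match j.1 with
    | none => t
    | some i => i
  inj' := by
    rintro ⟨i, hi⟩ ⟨j, hj⟩ h
    apply Subtype.ext
    rcases i with _ | i <;> rcases j with _ | j
    · rfl
    · exact absurd (congrArg some h).symm hj.1
    · exact absurd (congrArg some h) hi.1
    · exact congrArg some h

theorem et_ne (t t' : I) (htt : t ≠ t') (j : K0 t t') : et t t' htt j ≠ t' := by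
  rcases j with ⟨_ | j, hj⟩
  · exact htt
  · intro h; exact hj.2 (congrArg some h)

theorem nu_of_P2 {t t' : I} (htt : t ≠ t') (j : Option I) (h : P2 t t' j) :
    nu t j = some (et t t' htt ⟨j, h⟩) := by
  rcases j with _ | j
  · rfl
  · have hj : j ≠ t := by rintro rfl; exact h.1 rfl
    rw [nu_some_of_ne hj]; rfl

/-- the row `t'` of the matrix of `w`, with `none` renamed to `t` -/
def rh (t t' : I) (w : W (Option I) R) : I → R := fun j =>
  (mt w).val (some t') (if j = t then none else some j)

theorem mapI_mem_Qs {K : Type u} (e : K ↪ I) (o : I) (he : ∀ k, e k ≠ o) (g : St K R) :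
    mapI e g ∈ Qs I R o := by
  induction g using St.induction with
  | h1 => rw [map_one]; exact one_mem _
  | hx i j h r g ih =>
    rw [map_mul, mapI_x]
    exact mul_mem (x_mem_Qs _ _ (he j)) ih

theorem toMat_mapI {K L : Type u} [Fintype K] [DecidableEq K] [Fintype L] [DecidableEq L]
    (e : K ↪ L) (g : St K R) (i j : K) :
    (toMat (mapI e g)).val (e i) (e j) = (toMat g).val i j := by
  induction g using St.induction generalizing i j with
  | h1 =>
    rw [map_one, map_one, map_one, Units.val_one, Units.val_one, Matrix.one_apply,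
      Matrix.one_apply]
    simp only [e.injective.eq_iff]
  | hx a b h r g ih =>
    rw [map_mul, map_mul, map_mul, mapI_x, toMat_x, toMat_x, Units.val_mul, Units.val_mul,
      elem_mul_apply, elem_mul_apply, ih, ih]
    simp only [e.injective.eq_iff]

theorem tau_eq {t t' : I} (htt : t ≠ t') {w : W (Option I) R} (hw : w ∈ FA (P2 t t')) :
    tau t w = mapI (et t t' htt) (ev (kap t t') w) * row t' (rh t t' w) := by
  refine FA_induction (p := fun w => tau t w = mapI (et t t' htt) (ev (kap t t') w) *
    row t' (rh t t' w)) ?_ ?_ hw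
  · rw [map_one, map_one, map_one, one_mul, ← row_zero t']
    apply row_congr
    intro j hj
    unfold rh
    rw [map_one, Units.val_one]
    by_cases h : j = t
    · subst h; rw [if_pos rfl, Matrix.one_apply_ne (by simp)]; rfl
    · rw [if_neg h, Matrix.one_apply_ne (by simpa using Ne.symm hj)]; rfl
  · intro u a b h s w hu hb hw ih
    have hnb := nu_of_P2 htt b hb
    by_cases hat' : a = some t'
    · subst hat'
      have e1 : tau t u = x t' (et t t' htt ⟨b, hb⟩) (Ne.symm (et_ne t t' htt _)) s := by
        unfold tau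
        rw [hu.ev, evl_some (nu_some_of_ne (Ne.symm htt)) hnb, xx_of_ne]
      have e2 : ev (kap t t') u = 1 := by
        rw [hu.ev, evl_none_left (kap_of_not (fun h => h.2 rfl))]
      rw [map_mul, map_mul, e1, e2, one_mul, ih, ← row_single, ← mul_assoc,
        row_mul_of_mem (mapI_mem_Qs _ _ (et_ne t t' htt) _), mul_assoc, ← row_add]
      congr 1
      apply row_congr
      intro j hj
      rw [Pi.add_apply]
      unfold rh
      rw [mt_Lk_mul hu, if_pos rfl, add_comm]
      congr 1
      rw [Finset.sum_eq_single (et t t' htt ⟨b, hb⟩)]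
      · rw [if_neg (et_ne t t' htt _), Pi.single_eq_same]
        congr 1
        have hc : ∃ c : K0 t t', et t t' htt c = j ∧ c.1 = if j = t then none else some j := by
          by_cases h : j = t
          · subst h
            exact ⟨⟨none, by simp, by simp⟩, rfl, by simp⟩
          · exact ⟨⟨some j, by simpa using h, by simpa using hj⟩, rfl, by simp [h]⟩
        obtain ⟨c, rfl, hc⟩ := hc
        rw [toMat_mapI, toMat_kap hw, hc]
      · intro l _ hl
        rw [Pi.single_eq_of_ne hl, zero_mul, ite_self]
      · intro h; exact absurd (Finset.mem_univ _) h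
    · have hrh : rh t t' (u * w) = rh t t' w := by
        funext j
        unfold rh
        rw [mt_Lk_mul hu, if_neg (Ne.symm hat'), add_zero]
      rw [map_mul, map_mul, hrh, map_mul, ih, ← mul_assoc]
      congr 2
      by_cases hat : a = some t
      · subst hat
        unfold tau
        rw [hu.ev, hu.ev, evl_none_left (nu_some_self t),
          evl_none_left (kap_of_not (fun h => h.1 rfl)), map_one]
      · unfold tau
        rw [hu.ev, hu.ev, evl_some (nu_of_P2 htt a ⟨hat, hat'⟩) hnb,
          evl_some (kap_of ⟨hat, hat'⟩) (kap_of hb)]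
        have hne : (⟨a, ⟨hat, hat'⟩⟩ : K0 t t') ≠ ⟨b, hb⟩ := fun e => h (congrArg Subtype.val e)
        rw [xx_of_ne hne, xx_of_ne ((et t t' htt).injective.ne hne), mapI_x]

theorem kap_symm_one {t t' : I} {w : W (Option I) R} (h : ev (kap t t') w = 1) :
    ev (kap t' t) w = 1 := by
  have hinj : Function.Injective (fun j : K0 t t' => (⟨j.1, j.2.2, j.2.1⟩ : K0 t' t)) := by
    intro a b h
    apply Subtype.ext
    have := congrArg (fun z : K0 t' t => z.1) h
    exact this
  have : kap t' t = fun j => (kap t t' j).map (⟨_, hinj⟩ : K0 t t' ↪ K0 t' t) := by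
    funext j
    by_cases hj : j ≠ some t ∧ j ≠ some t'
    · rw [kap_of ⟨hj.2, hj.1⟩, kap_of hj]; rfl
    · rw [kap_of_not (fun h => hj ⟨h.2, h.1⟩), kap_of_not hj]; rfl
  rw [this, ev_map, h, map_one]

theorem th_eq_of_kap {t t' : I} (htt : t ≠ t') {w : W (Option I) R} (hw : w ∈ FA (P2 t t'))
    (hs : Stb w) (h1 : ev (kap t t') w = 1) :
    th t w = row t' (fun j => (mt w).val (some t') (some j)) *
      row t (fun j => (mt w).val (some t) (some j)) := by
  have h0 : ∀ j : I, (mt w).val none (some j) = 0 := by
    intro j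
    by_cases hj : (some j : Option I) ≠ some t ∧ (some j : Option I) ≠ some t'
    · have := toMat_kap hw ⟨none, by simp, by simp⟩ ⟨some j, hj⟩
      rw [h1, map_one, Units.val_one, Matrix.one_apply_ne (by simp)] at this
      exact this.symm
    · rw [mt_col hw (some j) hj, if_neg (by simp)]
  unfold th
  rw [tau_eq htt hw, h1, map_one, one_mul]
  congr 1
  · apply row_congr
    intro j hj
    unfold rh
    by_cases h : j = t
    · subst h
      rw [if_pos rfl, hs, if_neg (by simp), mt_col hw (some j) (fun h => h.1 rfl),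
        if_neg (by simpa using Ne.symm htt)]
    · rw [if_neg h]
  · apply row_congr
    intro j hj
    unfold dl
    rw [h0, sub_zero]

theorem th_indep_of_kap {t t' : I} (htt : t ≠ t') {w : W (Option I) R} (hw : w ∈ FA (P2 t t'))
    (hs : Stb w) (h1 : ev (kap t t') w = 1) : th t w = th t' w := by
  have hw' : w ∈ FA (P2 t' t) := FA_mono (fun j h => ⟨h.2, h.1⟩) hw
  rw [th_eq_of_kap htt hw hs h1, th_eq_of_kap (Ne.symm htt) hw' hs (kap_symm_one h1)]
  apply (row_commute_row _ _ _ _ _ _).eq
  · rw [mt_col hw (some t) (fun h => h.1 rfl), if_neg (by simpa using Ne.symm htt)]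
  · rw [mt_col hw (some t') (fun h => h.2 rfl), if_neg (by simpa using htt)]

theorem card_K0 {t t' : I} (htt : t ≠ t') (hc : 4 ≤ Fintype.card I) :
    3 ≤ Fintype.card (K0 t t') := by
  have h1 : Fintype.card (K0 t t') = ((Finset.univ : Finset (Option I)).erase (some t)).card - 1 := by
    rw [Fintype.card_subtype, ← Finset.card_erase_of_mem (a := some t')]
    · congr 1
      ext j
      simp only [Finset.mem_filter, Finset.mem_univ, true_and, Finset.mem_erase, and_true]
      exact And.comm
    · simpa using Ne.symm htt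
  rw [h1, Finset.card_erase_of_mem (Finset.mem_univ _), Finset.card_univ, Fintype.card_option]
  omega

/-- independence of the spare index -/
theorem th_indep (hS : SURJ.{u, v} R) (hc : 4 ≤ Fintype.card I) {t t' : I} {w : W (Option I) R}
    (hw : w ∈ FT t) (hw' : w ∈ FT t') (hs : Stb w) : th t w = th t' w := by
  by_cases htt : t = t'
  · rw [htt]
  have hw2 : w ∈ FA (P2 t t') := FA_inter hw hw'
  have hQ : ev (kap t t') w ∈ Qs (K0 t t') R ⟨none, by simp, by simp⟩ := by
    apply hS _ _ (card_K0 htt hc)
    intro i
    rw [toMat_kap hw2, hs]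
    congr 1
    exact propext ⟨fun h => Subtype.ext h, fun h => congrArg Subtype.val h⟩
  have key : ∃ v ∈ FA (P2 t t'), Stb v ∧ th t v = th t' v ∧
      ev (kap t t') v = ev (kap t t') w := by
    refine Qs_induction (p := fun g => ∃ v ∈ FA (R := R) (P2 t t'), Stb v ∧ th t v = th t' v ∧
      ev (kap t t') v = g) ?_ ?_ hQ
    · exact ⟨1, one_mem _, Stb.one, by rw [th_one, th_one], map_one _⟩
    · rintro ⟨i, hi⟩ ⟨j, hj⟩ h r g hjo hg ⟨v, hv, hvs, hvt, rfl⟩
      have hij : i ≠ j := fun e => h (Subtype.ext e)
      have hjn : j ≠ none := fun e => hjo (Subtype.ext e)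
      have hl : lt i j hij r ∈ FA (P2 t t') := lt_mem hij r hj
      have hls : Stb (lt i j hij r) := Stb.lt hij r hjn
      refine ⟨lt i j hij r * v, mul_mem hl hv, hls.mul hvs, ?_, ?_⟩
      · rw [th_mul hS (by omega) (FA_P2_le hl) (FA_P2_le hv) hls hvs,
          th_mul hS (by omega) (FA_P2_le' hl) (FA_P2_le' hv) hls hvs, hvt]
        congr 1
        obtain ⟨j', rfl⟩ := Option.ne_none_iff_exists'.mp hjn
        have hjt : j' ≠ t := fun e => hj.1 (e ▸ rfl)
        have hjt' : j' ≠ t' := fun e => hj.2 (e ▸ rfl)
        rcases i with _ | i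
        · rw [th_lt_none _ _ hjt, th_lt_none _ _ hjt']
        · rw [th_lt_some _ _ hjt, th_lt_some _ _ hjt']
      · rw [map_mul, ev_lt, evl_some (kap_of hi) (kap_of hj), xx_of_ne]
  obtain ⟨v, hv, hvs, hvt, hvk⟩ := key
  have hu : w * v⁻¹ ∈ FA (P2 t t') := mul_mem hw2 (inv_mem hv)
  have hus : Stb (w * v⁻¹) := hs.mul hvs.inv
  have h1 : th t (w * v⁻¹) = th t' (w * v⁻¹) := by
    apply th_indep_of_kap htt hu hus
    rw [map_mul, map_inv, hvk, mul_inv_cancel]
  have h2 : w = w * v⁻¹ * v := by group
  rw [h2, th_mul hS (by omega) (FA_P2_le hu) (FA_P2_le hv) hus hvs,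
    th_mul hS (by omega) (FA_P2_le' hu) (FA_P2_le' hv) hus hvs, h1, hvt]

end Crest.Agent.R176.Inj115
end

-- ▼ part R176/Inj115D
section

/-! Row 176, part B, STAB step 2 (helper115): the action of `St (Option I) R` on
`Y × St I R` and injective `K₂`-stability (with surjective stability `SURJ` as a hypothesis). -/

set_option autoImplicit false
set_option linter.unusedVariables false
set_option linter.unusedSectionVars false

namespace Crest.Agent.R176.Inj115

open scoped commutatorElement
open Crest.Agent.R176 St Matrix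

universe u v w

variable {I : Type u} {R : Type v} [Ring R]

theorem evl_add {J K : Type u} [DecidableEq K] (f : J → Option K) (i j : J) (r s : R) :
    evl f i j (r + s) = evl f i j r * evl f i j s := by
  unfold evl
  split
  · rename_i i' j' _ _
    by_cases h : i' ≠ j'
    · rw [xx_of_ne h, xx_of_ne h, xx_of_ne h, x_add]
    · rw [xx, xx, xx, dif_neg h, dif_neg h, dif_neg h, one_mul]
  · rw [one_mul]

theorem evl_comm {J K : Type u} [Fintype K] [DecidableEq K] {f : J → Option K} (hf : PInj f) {i j k : J}
    (hij : i ≠ j) (hjk : j ≠ k) (hik : i ≠ k) (hj : f j ≠ none) (hk : f k ≠ none) (r s : R) :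
    evl f i j r * evl f j k s = evl f i k (r * s) * (evl f j k s * evl f i j r) := by
  obtain ⟨j', hj'⟩ := Option.ne_none_iff_exists'.mp hj
  obtain ⟨k', hk'⟩ := Option.ne_none_iff_exists'.mp hk
  rcases hi : f i with _ | i'
  · rw [evl_none_left hi, evl_none_left hi, one_mul, one_mul, mul_one]
  · have hij' : i' ≠ j' := by rintro rfl; exact hij (hf _ _ _ hi hj')
    have hjk' : j' ≠ k' := by rintro rfl; exact hjk (hf _ _ _ hj' hk')
    have hik' : i' ≠ k' := by rintro rfl; exact hik (hf _ _ _ hi hk')
    rw [evl_some hi hj', evl_some hj' hk', evl_some hi hk', xx_of_ne hij', xx_of_ne hjk',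
      xx_of_ne hik', ← x_comm i' j' k' hij' hjk' hik', commutatorElement_def]
    group

theorem evl_triv {J K : Type u} [DecidableEq K] {f : J → Option K} (hf : PInj f) {i j k l : J}
    (hij : i ≠ j) (hkl : k ≠ l) (hjk : j ≠ k) (hil : i ≠ l) (r s : R) :
    evl f i j r * evl f k l s = evl f k l s * evl f i j r := by
  rcases hi : f i with _ | i'
  · rw [evl_none_left hi, one_mul, mul_one]
  rcases hk : f k with _ | k'
  · rw [evl_none_left hk, one_mul, mul_one]
  rcases hj : f j with _ | j'
  · have : evl f i j r = 1 := by unfold evl; simp [hj]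
    rw [this, one_mul, mul_one]
  rcases hl : f l with _ | l'
  · have : evl f k l s = 1 := by unfold evl; simp [hl]
    rw [this, one_mul, mul_one]
  have hij' : i' ≠ j' := by rintro rfl; exact hij (hf _ _ _ hi hj)
  have hjk' : j' ≠ k' := by rintro rfl; exact hjk (hf _ _ _ hj hk)
  have hil' : i' ≠ l' := by rintro rfl; exact hil (hf _ _ _ hi hl)
  have hkl' : k' ≠ l' := by rintro rfl; exact hkl (hf _ _ _ hk hl)
  rw [evl_some hi hj, evl_some hk hl, xx_of_ne hij', xx_of_ne hkl']
  exact (x_commute _ _ _ _ _ _ hjk' hil' _ _).eq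

section Spare

variable [Fintype I]

theorem exists_spare (l : List (Option I)) (h : l.length < Fintype.card I) :
    ∃ t : I, some t ∉ l := by
  classical
  by_contra hcon
  push Not at hcon
  have h1 : (Finset.univ : Finset I).map Function.Embedding.some ⊆ l.toFinset := by
    intro j hj
    rw [Finset.mem_map] at hj
    obtain ⟨t, _, rfl⟩ := hj
    exact List.mem_toFinset.mpr (hcon t)
  have h2 := Finset.card_le_card h1
  rw [Finset.card_map, Finset.card_univ] at h2
  exact absurd (h2.trans (List.toFinset_card_le l)) (by omega)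

end Spare

variable [Fintype I] [DecidableEq I]

section Sec

/-- a column word -/
theorem exists_col (b : I → R) : ∃ c ∈ FA (R := R) (fun j : Option I => j = none),
    (mt c).val none none = 1 ∧ ∀ i, (mt c).val (some i) none = b i := by
  have key : ∀ S : Finset I, ∃ c ∈ FA (R := R) (fun j : Option I => j = none),
      (mt c).val none none = 1 ∧ ∀ i, (mt c).val (some i) none = if i ∈ S then b i else 0 := by
    intro S
    induction S using Finset.induction_on with
    | empty =>
      refine ⟨1, one_mem _, ?_, ?_⟩
      · rw [map_one, Units.val_one, Matrix.one_apply_eq]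
      · intro i
        rw [map_one, Units.val_one, Matrix.one_apply_ne (by simp), if_neg (by simp)]
    | insert i0 S hi0 ih =>
      obtain ⟨c, hc, h1, h2⟩ := ih
      have hne : (some i0 : Option I) ≠ none := by simp
      refine ⟨lt (some i0) none hne (b i0) * c, mul_mem (lt_mem _ _ rfl) hc, ?_, ?_⟩
      · rw [mt_Lk_mul (Lk.lt _ _ _ _), h1, if_neg (by simp), add_zero]
      · intro i
        rw [mt_Lk_mul (Lk.lt _ _ _ _), h1, h2, mul_one]
        by_cases hi : i = i0
        · subst hi; rw [if_neg hi0, if_pos rfl, if_pos (Finset.mem_insert_self _ _), zero_add]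
        · have h3 : (some i : Option I) ≠ some i0 := by simpa using hi
          rw [if_neg h3, add_zero]
          simp [Finset.mem_insert, hi]
  obtain ⟨c, hc, h1, h2⟩ := key Finset.univ
  exact ⟨c, hc, h1, fun i => by rw [h2, if_pos (Finset.mem_univ _)]⟩

variable {k : Type w} [Ring k] [Nontrivial k] (π : R →+* k)

theorem exists_sec_aux (hπ : ∀ r, π r ≠ 0 → IsUnit r) (y : Option I → R) (p : I)
    (hp : π (y (some p)) ≠ 0) :
    ∃ s ∈ FA (R := R) (fun j : Option I => j = none ∨ j = some p),
      ∀ i, (mt s).val i none = y i := by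
  obtain ⟨c, hc, h1, h2⟩ := exists_col (R := R) (fun i => y (some i))
  obtain ⟨u, hu⟩ := hπ _ hp
  have hne : (none : Option I) ≠ some p := by simp
  refine ⟨lt none (some p) hne ((y none - 1) * (u⁻¹ : Rˣ).val) * c,
    mul_mem (lt_mem _ _ (Or.inr rfl)) (FA_mono (fun j hj => Or.inl hj) hc), ?_⟩
  intro i
  rw [mt_Lk_mul (Lk.lt _ _ _ _), h2]
  rcases i with _ | i
  · rw [h1, if_pos rfl, mul_assoc, ← hu, Units.inv_mul, mul_one]
    abel
  · rw [h2, if_neg (by simp), add_zero]

/-- unimodular columns -/
abbrev Ym (I : Type u) (π : R →+* k) := {y : Option I → R // ∃ i, π (y i) ≠ 0}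

/-- base point -/
def y0 : Ym I π := ⟨Pi.single none 1, none, by simp⟩

theorem exists_sec [Nonempty I] (hπ : ∀ r, π r ≠ 0 → IsUnit r) (y : Ym I π) :
    ∃ p : I, ∃ s ∈ FA (R := R) (fun j : Option I => j = none ∨ j = some p),
      (∀ i, (mt s).val i none = y.1 i) ∧ (y = y0 π → s = 1) := by
  by_cases hy : y = y0 π
  · refine ⟨Classical.arbitrary I, 1, one_mem _, ?_, fun _ => rfl⟩
    intro i
    subst hy
    rw [map_one, Units.val_one, Matrix.one_apply, y0]
    show _ = (Pi.single none 1 : Option I → R) i
    rw [Pi.single_apply]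
  · have : ∃ p : I, ∃ s ∈ FA (R := R) (fun j : Option I => j = none ∨ j = some p),
        (∀ i, (mt s).val i none = y.1 i) := by
      by_cases hex : ∃ p : I, π (y.1 (some p)) ≠ 0
      · obtain ⟨p, hp⟩ := hex
        exact ⟨p, exists_sec_aux π hπ y.1 p hp⟩
      · push Not at hex
        obtain ⟨j, hj⟩ := y.2
        rcases j with _ | j
        swap
        · exact absurd (hex j) hj
        have p := Classical.arbitrary I
        obtain ⟨s, hs, hval⟩ := exists_sec_aux π hπ
          (fun i => if i = some p then y.1 (some p) + y.1 none else y.1 i) p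
          (by rw [if_pos rfl, map_add, hex p, zero_add]; exact hj)
        have hne : (some p : Option I) ≠ none := by simp
        refine ⟨p, lt (some p) none hne (-1) * s, mul_mem (lt_mem _ _ (Or.inl rfl)) hs, ?_⟩
        intro i
        rw [mt_Lk_mul (Lk.lt _ _ _ _), hval, hval, if_neg (Ne.symm hne)]
        by_cases hi : i = some p
        · rw [if_pos hi, if_pos hi, hi, neg_one_mul]; abel
        · rw [if_neg hi, if_neg hi, add_zero]
    obtain ⟨p, s, hs, hval⟩ := this
    exact ⟨p, s, hs, hval, fun h => absurd h hy⟩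

/-- action of invertible matrices on unimodular columns -/
def mY (M : (Matrix (Option I) (Option I) R)ˣ) (y : Ym I π) : Ym I π :=
  ⟨M.val *ᵥ y.1, by
    by_contra hcon
    push Not at hcon
    obtain ⟨i, hi⟩ := y.2
    apply hi
    have h1 : y.1 = M⁻¹.val *ᵥ (M.val *ᵥ y.1) := by
      rw [Matrix.mulVec_mulVec, Units.inv_mul, Matrix.one_mulVec]
    rw [h1]
    show π (∑ l, M⁻¹.val i l * (M.val *ᵥ y.1) l) = 0
    rw [map_sum]
    apply Finset.sum_eq_zero
    intro l _
    rw [map_mul, hcon, mul_zero]⟩

theorem mY_mul (M N : (Matrix (Option I) (Option I) R)ˣ) (y : Ym I π) :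
    mY π (M * N) y = mY π M (mY π N y) := by
  apply Subtype.ext
  show (M * N).val *ᵥ y.1 = M.val *ᵥ (N.val *ᵥ y.1)
  rw [Units.val_mul, Matrix.mulVec_mulVec]

theorem mY_one (y : Ym I π) : mY π 1 y = y := by
  apply Subtype.ext
  show (1 : (Matrix (Option I) (Option I) R)ˣ).val *ᵥ y.1 = y.1
  rw [Units.val_one, Matrix.one_mulVec]

end Sec

section Act

variable {k : Type w} [Ring k] [Nontrivial k] (π : R →+* k)

/-- the value `th t w` for any spare index -/
noncomputable def Th (w : W (Option I) R) : St I R :=
  open Classical in if h : ∃ t, w ∈ FT t then th h.choose w else 1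

theorem Th_eq (hS : SURJ.{u, v} R) (hc : 4 ≤ Fintype.card I) {t : I} {w : W (Option I) R}
    (hw : w ∈ FT t) (hs : Stb w) : Th w = th t w := by
  have h : ∃ t, w ∈ FT t := ⟨t, hw⟩
  unfold Th
  rw [dif_pos h]
  exact th_indep hS hc h.choose_spec hw hs

/-- section data -/
structure SecData (I : Type u) [Fintype I] [DecidableEq I] (π : R →+* k) where
  p : Ym I π → I
  s : Ym I π → W (Option I) R
  mem : ∀ y, s y ∈ FA (R := R) (fun j : Option I => j = none ∨ j = some (p y))
  val : ∀ y i, (mt (s y)).val i none = y.1 i
  base : s (y0 π) = 1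

theorem exists_secData [Nonempty I] (hπ : ∀ r, π r ≠ 0 → IsUnit r) :
    Nonempty (SecData I π) := by
  choose p s h1 h2 h3 using exists_sec (I := I) π hπ
  exact ⟨⟨p, s, h1, h2, h3 _ rfl⟩⟩

variable (D : SecData I π)

theorem SecData.mY_s (y : Ym I π) : mY π (mt (D.s y)) (y0 π) = y := by
  apply Subtype.ext
  funext i
  show ((mt (D.s y)).val *ᵥ (Pi.single none 1 : Option I → R)) i = y.1 i
  rw [Matrix.mulVec_single_one]
  exact D.val y i

theorem SecData.memFT {t : I} {y : Ym I π} (h : (some t : Option I) ≠ some (D.p y)) :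
    D.s y ∈ FT t := by
  apply FA_mono _ (D.mem y)
  rintro j (rfl | rfl)
  · simp
  · exact Ne.symm h

/-- the cocycle word -/
def cw (w : W (Option I) R) (y : Ym I π) : W (Option I) R :=
  (D.s (mY π (mt w) y))⁻¹ * w * D.s y

theorem stb_of_mY {w : W (Option I) R} (h : mY π (mt w) (y0 π) = y0 π) : Stb w := by
  intro i
  have h1 : ((mt w).val *ᵥ (Pi.single none 1 : Option I → R)) i =
      (Pi.single none 1 : Option I → R) i := congrFun (congrArg Subtype.val h) i
  rw [Matrix.mulVec_single_one, Pi.single_apply] at h1
  exact h1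

theorem stb_cw (w : W (Option I) R) (y : Ym I π) : Stb (cw π D w y) := by
  apply stb_of_mY π
  unfold cw
  rw [map_mul, map_mul, mY_mul, mY_mul, D.mY_s, map_inv]
  generalize mY π (mt w) y = z
  have h : mY π (mt (D.s z))⁻¹ (mY π (mt (D.s z)) (y0 π)) = y0 π := by
    rw [← mY_mul, inv_mul_cancel, mY_one]
  rwa [D.mY_s] at h

/-- the action on `Y × St I R` -/
noncomputable def F (w : W (Option I) R) (z : Ym I π × St I R) : Ym I π × St I R :=
  (mY π (mt w) z.1, Th (cw π D w z.1) * z.2)

theorem cw_mem {t : I} {w : W (Option I) R} {y : Ym I π} (hw : w ∈ FT t)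
    (h1 : (some t : Option I) ≠ some (D.p y))
    (h2 : (some t : Option I) ≠ some (D.p (mY π (mt w) y))) : cw π D w y ∈ FT t :=
  mul_mem (mul_mem (inv_mem (D.memFT π h2)) hw) (D.memFT π h1)

theorem F_mul (hS : SURJ.{u, v} R) (hc : 4 ≤ Fintype.card I) {t : I} {w w' : W (Option I) R}
    {y : Ym I π} (g : St I R) (hw : w ∈ FT t) (hw' : w' ∈ FT t)
    (h1 : (some t : Option I) ≠ some (D.p y))
    (h2 : (some t : Option I) ≠ some (D.p (mY π (mt w) y)))
    (h3 : (some t : Option I) ≠ some (D.p (mY π (mt w') (mY π (mt w) y)))) :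
    F π D (w' * w) (y, g) = F π D w' (F π D w (y, g)) := by
  unfold F
  apply Prod.ext
  · show mY π (mt (w' * w)) y = mY π (mt w') (mY π (mt w) y)
    rw [map_mul, mY_mul]
  · show Th (cw π D (w' * w) y) * g = Th (cw π D w' (mY π (mt w) y)) * (Th (cw π D w y) * g)
    rw [← mul_assoc]
    congr 1
    have e : cw π D (w' * w) y = cw π D w' (mY π (mt w) y) * cw π D w y := by
      unfold cw
      rw [map_mul, mY_mul]
      group
    have m1 : cw π D w y ∈ FT t := cw_mem π D hw h1 h2
    have m2 : cw π D w' (mY π (mt w) y) ∈ FT t := cw_mem π D hw' h2 h3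
    have m3 : cw π D (w' * w) y ∈ FT t := by rw [e]; exact mul_mem m2 m1
    rw [Th_eq hS hc m3 (stb_cw π D _ _), Th_eq hS hc m2 (stb_cw π D _ _),
      Th_eq hS hc m1 (stb_cw π D _ _), e,
      th_mul hS (by omega) m2 m1 (stb_cw π D _ _) (stb_cw π D _ _)]

theorem F_congr (hS : SURJ.{u, v} R) (hc : 4 ≤ Fintype.card I) {t : I} {w w' : W (Option I) R}
    {y : Ym I π} (g : St I R) (hw : w ∈ FT t) (hw' : w' ∈ FT t)
    (h1 : (some t : Option I) ≠ some (D.p y))
    (h2 : (some t : Option I) ≠ some (D.p (mY π (mt w) y)))
    (hm : mt w = mt w') (ht : tau t w = tau t w') :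
    F π D w (y, g) = F π D w' (y, g) := by
  unfold F
  apply Prod.ext
  · show mY π (mt w) y = mY π (mt w') y
    rw [hm]
  · show Th (cw π D w y) * g = Th (cw π D w' y) * g
    congr 1
    rw [Th_eq hS hc (cw_mem π D hw h1 h2) (stb_cw π D _ _),
      Th_eq hS hc (cw_mem π D hw' h1 (by rw [← hm]; exact h2)) (stb_cw π D _ _)]
    apply th_congr
    · unfold cw
      rw [map_mul, map_mul, map_mul, map_mul, hm, ht]
    · unfold cw
      rw [map_mul, map_mul, map_mul, map_mul, hm]

theorem F_one (hS : SURJ.{u, v} R) (hc : 4 ≤ Fintype.card I) (z : Ym I π × St I R) :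
    F π D 1 z = z := by
  obtain ⟨y, g⟩ := z
  have t : I := Classical.choice (Fintype.card_pos_iff.mp (by omega))
  unfold F
  apply Prod.ext
  · show mY π (mt 1) y = y
    rw [map_one, mY_one]
  · show Th (cw π D 1 y) * g = g
    have : cw π D 1 y = 1 := by
      unfold cw
      rw [map_one, mY_one, mul_one, inv_mul_cancel]
    rw [this, Th_eq hS hc (one_mem (FT t)) Stb.one, th_one, one_mul]

/-- the permutation attached to a generator -/
noncomputable def Pm (hS : SURJ.{u, v} R) (hc : 9 ≤ Fintype.card I) (i j : Option I) (h : i ≠ j)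
    (r : R) : Equiv.Perm (Ym I π × St I R) where
  toFun := F π D (lt i j h r)
  invFun := F π D (lt i j h (-r))
  left_inv := by
    rintro ⟨y, g⟩
    obtain ⟨t, ht⟩ := exists_spare [j, some (D.p y), some (D.p (mY π (mt (lt i j h r)) y)),
      some (D.p (mY π (mt (lt i j h (-r))) (mY π (mt (lt i j h r)) y)))]
      (by simp only [List.length_cons, List.length_nil]; omega)
    simp only [List.mem_cons, List.not_mem_nil, or_false, not_or] at ht
    obtain ⟨t1, t2, t3, t4⟩ := ht
    have hj : j ≠ some t := Ne.symm t1
    rw [← F_mul π D hS (by omega) g (lt_mem h r hj) (lt_mem h (-r) hj) t2 t3 t4,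
      F_congr π D hS (by omega) g (mul_mem (lt_mem h (-r) hj) (lt_mem h r hj)) (one_mem (FT t)) t2
        (by rw [map_mul, mY_mul]; exact t4), F_one π D hS (by omega)]
    · rw [map_mul, mt_lt, mt_lt, map_one, ← elem_add, neg_add_cancel]
      apply Units.ext
      rw [elem_val, Matrix.single_zero, add_zero, Units.val_one]
    · unfold tau
      rw [map_mul, ev_lt, ev_lt, map_one, ← evl_add, neg_add_cancel]
      have := evl_add (nu t) i j (0 : R) 0
      rw [add_zero] at this
      exact left_eq_mul.mp this
  right_inv := by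
    rintro ⟨y, g⟩
    obtain ⟨t, ht⟩ := exists_spare [j, some (D.p y), some (D.p (mY π (mt (lt i j h (-r))) y)),
      some (D.p (mY π (mt (lt i j h r)) (mY π (mt (lt i j h (-r))) y)))]
      (by simp only [List.length_cons, List.length_nil]; omega)
    simp only [List.mem_cons, List.not_mem_nil, or_false, not_or] at ht
    obtain ⟨t1, t2, t3, t4⟩ := ht
    have hj : j ≠ some t := Ne.symm t1
    rw [← F_mul π D hS (by omega) g (lt_mem h (-r) hj) (lt_mem h r hj) t2 t3 t4,
      F_congr π D hS (by omega) g (mul_mem (lt_mem h r hj) (lt_mem h (-r) hj)) (one_mem (FT t)) t2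
        (by rw [map_mul, mY_mul]; exact t4), F_one π D hS (by omega)]
    · rw [map_mul, mt_lt, mt_lt, map_one, ← elem_add, add_neg_cancel]
      apply Units.ext
      rw [elem_val, Matrix.single_zero, add_zero, Units.val_one]
    · unfold tau
      rw [map_mul, ev_lt, ev_lt, map_one, ← evl_add, add_neg_cancel]
      have := evl_add (nu t) i j (0 : R) 0
      rw [add_zero] at this
      exact left_eq_mul.mp this

theorem Pm_apply (hS : SURJ.{u, v} R) (hc : 9 ≤ Fintype.card I) (i j : Option I) (h : i ≠ j)
    (r : R) (z : Ym I π × St I R) : Pm π D hS hc i j h r z = F π D (lt i j h r) z := rfl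

/-- the action of the big Steinberg group -/
noncomputable def stHom (hS : SURJ.{u, v} R) (hc : 9 ≤ Fintype.card I) :
    St (Option I) R →* Equiv.Perm (Ym I π × St I R) :=
  St.lift (Pm π D hS hc)
    (by
      intro i j h r s
      apply Equiv.ext
      rintro ⟨y, g⟩
      rw [Equiv.Perm.mul_apply, Pm_apply, Pm_apply, Pm_apply]
      obtain ⟨t, ht⟩ := exists_spare [j, some (D.p y), some (D.p (mY π (mt (lt i j h s)) y)),
        some (D.p (mY π (mt (lt i j h r)) (mY π (mt (lt i j h s)) y)))]
        (by simp only [List.length_cons, List.length_nil]; omega)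
      simp only [List.mem_cons, List.not_mem_nil, or_false, not_or] at ht
      obtain ⟨t1, t2, t3, t4⟩ := ht
      have hj : j ≠ some t := Ne.symm t1
      rw [← F_mul π D hS (by omega) g (lt_mem h s hj) (lt_mem h r hj) t2 t3 t4]
      symm
      apply F_congr π D hS (by omega) g (mul_mem (lt_mem h r hj) (lt_mem h s hj))
        (lt_mem h (r + s) hj) t2 (by rw [map_mul, mY_mul]; exact t4)
      · rw [map_mul, mt_lt, mt_lt, mt_lt, elem_add]
      · unfold tau
        rw [map_mul, ev_lt, ev_lt, ev_lt, evl_add])
    (by
      intro i j l hij hjl hil r s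
      rw [commutatorElement_def, mul_inv_eq_iff_eq_mul, mul_inv_eq_iff_eq_mul, mul_assoc]
      apply Equiv.ext
      rintro ⟨y, g⟩
      rw [Equiv.Perm.mul_apply, Equiv.Perm.mul_apply, Equiv.Perm.mul_apply, Pm_apply, Pm_apply,
        Pm_apply, Pm_apply, Pm_apply]
      obtain ⟨t, ht⟩ := exists_spare [j, l, some (D.p y), some (D.p (mY π (mt (lt j l hjl s)) y)),
        some (D.p (mY π (mt (lt i j hij r)) (mY π (mt (lt j l hjl s)) y))),
        some (D.p (mY π (mt (lt i j hij r)) y)),
        some (D.p (mY π (mt (lt j l hjl s)) (mY π (mt (lt i j hij r)) y))),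
        some (D.p (mY π (mt (lt i l hil (r * s))) (mY π (mt (lt j l hjl s * lt i j hij r)) y)))]
        (by simp only [List.length_cons, List.length_nil]; omega)
      simp only [List.mem_cons, List.not_mem_nil, or_false, not_or] at ht
      obtain ⟨t1, t2, t3, t4, t5, t6, t7, t8⟩ := ht
      have hj : j ≠ some t := Ne.symm t1
      have hl : l ≠ some t := Ne.symm t2
      rw [← F_mul π D hS (by omega) g (lt_mem hjl s hl) (lt_mem hij r hj) t3 t4 t5,
        ← F_mul π D hS (by omega) g (lt_mem hij r hj) (lt_mem hjl s hl) t3 t6 t7,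
        ← F_mul π D hS (by omega) g (mul_mem (lt_mem hjl s hl) (lt_mem hij r hj))
          (lt_mem hil (r * s) hl) t3 (by rw [map_mul, mY_mul]; exact t7) t8]
      apply F_congr π D hS (by omega) g (mul_mem (lt_mem hij r hj) (lt_mem hjl s hl))
        (mul_mem (lt_mem hil (r * s) hl) (mul_mem (lt_mem hjl s hl) (lt_mem hij r hj))) t3
        (by rw [map_mul, mY_mul]; exact t5)
      · rw [map_mul, map_mul, map_mul, mt_lt, mt_lt, mt_lt, ← elem_comm i j l hij hjl hil,
          commutatorElement_def]
        group
      · unfold tau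
        rw [map_mul, map_mul, map_mul, ev_lt, ev_lt, ev_lt]
        exact evl_comm (nu_inj t) hij hjl hil ((nu_ne_none_iff t j).mpr hj)
          ((nu_ne_none_iff t l).mpr hl) r s)
    (by
      intro i j l m hij hlm hjl him r s
      rw [commutatorElement_eq_one_iff_mul_comm]
      apply Equiv.ext
      rintro ⟨y, g⟩
      rw [Equiv.Perm.mul_apply, Equiv.Perm.mul_apply, Pm_apply, Pm_apply, Pm_apply, Pm_apply]
      obtain ⟨t, ht⟩ := exists_spare [j, m, some (D.p y), some (D.p (mY π (mt (lt l m hlm s)) y)),
        some (D.p (mY π (mt (lt i j hij r)) (mY π (mt (lt l m hlm s)) y))),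
        some (D.p (mY π (mt (lt i j hij r)) y)),
        some (D.p (mY π (mt (lt l m hlm s)) (mY π (mt (lt i j hij r)) y)))]
        (by simp only [List.length_cons, List.length_nil]; omega)
      simp only [List.mem_cons, List.not_mem_nil, or_false, not_or] at ht
      obtain ⟨t1, t2, t3, t4, t5, t6, t7⟩ := ht
      have hj : j ≠ some t := Ne.symm t1
      have hm : m ≠ some t := Ne.symm t2
      rw [← F_mul π D hS (by omega) g (lt_mem hlm s hm) (lt_mem hij r hj) t3 t4 t5,
        ← F_mul π D hS (by omega) g (lt_mem hij r hj) (lt_mem hlm s hm) t3 t6 t7]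
      apply F_congr π D hS (by omega) g (mul_mem (lt_mem hij r hj) (lt_mem hlm s hm))
        (mul_mem (lt_mem hlm s hm) (lt_mem hij r hj)) t3
        (by rw [map_mul, mY_mul]; exact t5)
      · rw [map_mul, map_mul, mt_lt, mt_lt]
        exact commutatorElement_eq_one_iff_mul_comm.mp (elem_triv i j l m hij hlm hjl him r s)
      · unfold tau
        rw [map_mul, map_mul, ev_lt, ev_lt]
        exact evl_triv (nu_inj t) hij hlm hjl him r s)

theorem stHom_x (hS : SURJ.{u, v} R) (hc : 9 ≤ Fintype.card I) (i j : Option I) (h : i ≠ j)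
    (r : R) (z : Ym I π × St I R) :
    stHom π D hS hc (x i j h r) z = F π D (lt i j h r) z := by
  unfold stHom
  rw [lift_x]
  rfl

theorem F_base (hS : SURJ.{u, v} R) (hc : 9 ≤ Fintype.card I) (i j : I) (h : i ≠ j)
    (h' : (some i : Option I) ≠ some j) (r : R) (g : St I R) :
    F π D (lt (some i) (some j) h' r) (y0 π, g) = (y0 π, x i j h r * g) := by
  obtain ⟨t, ht⟩ := exists_spare [(some j : Option I)]
    (by simp only [List.length_cons, List.length_nil]; omega)
  simp only [List.mem_cons, List.not_mem_nil, or_false] at ht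
  have hjt : j ≠ t := fun e => ht (e ▸ rfl)
  have hs : Stb (lt (some i) (some j) h' r) := Stb.lt h' r (by simp)
  have hy : mY π (mt (lt (some i) (some j) h' r)) (y0 π) = y0 π := by
    apply Subtype.ext
    funext l
    show ((mt (lt (some i) (some j) h' r)).val *ᵥ (Pi.single none 1 : Option I → R)) l =
      (Pi.single none 1 : Option I → R) l
    rw [Matrix.mulVec_single_one, Pi.single_apply]
    exact hs l
  unfold F
  apply Prod.ext
  · exact hy
  · show Th (cw π D (lt (some i) (some j) h' r) (y0 π)) * g = x i j h r * g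
    congr 1
    have : cw π D (lt (some i) (some j) h' r) (y0 π) = lt (some i) (some j) h' r := by
      unfold cw
      rw [hy, D.base, inv_one, one_mul, mul_one]
    rw [this, Th_eq hS (by omega) (t := t) (lt_mem h' r (Ne.symm ht)) hs, th_lt_some h' r hjt]

theorem stHom_base (hS : SURJ.{u, v} R) (hc : 9 ≤ Fintype.card I) (g g' : St I R) :
    stHom π D hS hc (mapI (Function.Embedding.some : I ↪ Option I) g) (y0 π, g') =
      (y0 π, g * g') := by
  induction g using St.induction with
  | h1 => rw [map_one, map_one, one_mul]; rfl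
  | hx i j h r g ih =>
    rw [map_mul, map_mul, Equiv.Perm.mul_apply, ih, mapI_x, stHom_x]
    have h' : (Function.Embedding.some i : Option I) ≠ Function.Embedding.some j :=
      (Function.Embedding.some : I ↪ Option I).injective.ne h
    rw [mul_assoc]
    exact F_base π D hS hc i j h h' r (g * g')

end Act

/-- **injective `K₂`-stability** from surjective stability -/
theorem stab_of_surj (hS : SURJ.{u, v} R) {k : Type w} [Ring k] [Nontrivial k] (π : R →+* k)
    (hπ : ∀ r, π r ≠ 0 → IsUnit r) (hc : 9 ≤ Fintype.card I) :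
    Function.Injective (mapI (R := R) (Function.Embedding.some : I ↪ Option I)) := by
  have : Nonempty I := Fintype.card_pos_iff.mp (by omega)
  obtain ⟨D⟩ := exists_secData (I := I) π hπ
  rw [injective_iff_map_eq_one]
  intro g hg
  have h := stHom_base π D hS hc g 1
  rw [hg, map_one, mul_one] at h
  exact (congrArg Prod.snd h).symm

end Crest.Agent.R176.Inj115
end

-- ▼ part R176/Stab906
section

/-! Row 176, part B: STAB = surjective stability (906) + injectivity (115). -/

set_option autoImplicit false

universe u v w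

namespace Crest.Agent.R176.Surj906

open Crest.Agent.R176.St

theorem surjR {R : Type v} [Ring R] {k : Type w} [DivisionRing k] (π : R →+* k)
    (hπ : ∀ r, π r ≠ 0 → IsUnit r) : Inj115.SURJ.{u, v} R := by
  intro K _ _ o hc g hg
  have h3 : ∀ i : K, ∃ j, j ≠ i ∧ j ≠ o := by
    intro i
    by_contra hne
    have : (Finset.univ : Finset K) ⊆ {i, o} := by
      intro j _
      rw [Finset.mem_insert, Finset.mem_singleton]
      by_contra hj
      rw [not_or] at hj
      exact hne ⟨j, hj.1, hj.2⟩
    have h1 := Finset.card_le_card this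
    rw [Finset.card_univ] at h1
    have h2 : ({i, o} : Finset K).card ≤ 2 := Finset.card_le_two
    omega
  exact surj (φ := π) hπ h3 g hg

/-- **STAB**: injective `K_2`-stability for local rings, `|I| ≥ 9`. -/
theorem stab {I : Type u} [Fintype I] [DecidableEq I] {R : Type v} [Ring R] {k : Type w}
    [DivisionRing k] (π : R →+* k) (hπ : ∀ r, π r ≠ 0 → IsUnit r) (hc : 9 ≤ Fintype.card I) :
    Function.Injective (mapI (R := R) (Function.Embedding.some : I ↪ Option I)) :=
  Inj115.stab_of_surj (surjR π hπ) π hπ hc

end Crest.Agent.R176.Surj906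
end

-- ▼ part R176/Tors294
section

/-! Row 176, part B (helper294): injectivity of all index embeddings from one-step stability,
and 2-power torsion of `ker (St I R → GL)` for `R = QA step (ZMod 2)`. -/

set_option autoImplicit false

namespace Crest.Agent.R176.Cover294

open St

section Inj

/-- one-step stability for all finite index types of cardinality `≥ c` -/
def StabFor (c : ℕ) (R : Type*) [Ring R] : Prop :=
  ∀ (K : Type) [Fintype K], c ≤ Fintype.card K →
    Function.Injective (mapI (R := R) (Function.Embedding.some : K ↪ Option K))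

theorem mapI_equiv_injective {R : Type*} [Ring R] {I J : Type*} (e : I ↪ J)
    (he : Function.Surjective e) : Function.Injective (mapI (R := R) e) := by
  let E : I ≃ J := Equiv.ofBijective e ⟨e.injective, he⟩
  have h1 : ∀ g : St I R, mapI E.symm.toEmbedding (mapI e g) = g := by
    intro g
    rw [Cen370.mapI_comp_apply]
    have : e.trans E.symm.toEmbedding = Function.Embedding.refl I := by
      ext i
      exact E.symm_apply_apply i
    rw [this, Cen370.mapI_refl]
  exact Function.LeftInverse.injective h1

theorem mapI_injective {R : Type*} [Ring R] {c : ℕ} (hstab : StabFor c R) {I J : Type}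
    [Fintype I] [Fintype J] (hI : c ≤ Fintype.card I) (e : I ↪ J) :
    Function.Injective (mapI (R := R) e) := by
  obtain ⟨n, hn⟩ : ∃ n, n = Fintype.card J - Fintype.card I := ⟨_, rfl⟩
  induction n generalizing I with
  | zero =>
    apply mapI_equiv_injective e
    have h1 : Fintype.card I = Fintype.card J :=
      le_antisymm (Fintype.card_le_of_embedding e) (by omega)
    exact ((Fintype.bijective_iff_injective_and_card e).mpr ⟨e.injective, h1⟩).2
  | succ n ih =>
    have h1 : ¬ Function.Surjective e := by
      intro hs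
      have := Fintype.card_le_of_surjective e hs
      omega
    rw [Function.Surjective] at h1
    push Not at h1
    obtain ⟨z, hz⟩ := h1
    have hz' : z ∉ Set.range e := by
      rintro ⟨i, hi⟩
      exact hz i hi
    have h2 : e = (Function.Embedding.some : I ↪ Option I).trans
        (Function.Embedding.optionElim e z hz') := by
      ext i
      rfl
    have h3 := ih (I := Option I) (by rw [Fintype.card_option]; omega)
      (Function.Embedding.optionElim e z hz') (by rw [Fintype.card_option]; omega)
    intro g h hgh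
    rw [h2, ← Cen370.mapI_comp_apply, ← Cen370.mapI_comp_apply] at hgh
    exact hstab I hI (h3 hgh)

end Inj

section QA

open QAlg206

variable {L : Type*} (step : L → L → Option (L × L)) {I : Type*} [Fintype I] [DecidableEq I]

/-- kernel elements have trivial degree-zero part (`K₂(F_2) = 0`) -/
theorem map_projZero_eq_one (hI : 3 ≤ Fintype.card I) (k : St I (QA step (ZMod 2)))
    (hk : toMat k = 1) : map (GradedRing.projZeroRingHom (gr step (ZMod 2))) k = 1 := by
  have h1 : map (I := I) (aug step (ZMod 2)).toRingHom k = 1 := by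
    apply K2F2.toMat_injective hI
    rw [map_one]
    exact toMat_map_eq_one _ k hk
  have h2 : GradedRing.projZeroRingHom (gr step (ZMod 2))
      = (algebraMap (ZMod 2) (QA step (ZMod 2))).comp (aug step (ZMod 2)).toRingHom := by
    ext1 r
    rw [RingHom.comp_apply]
    exact proj_zero_eq step (ZMod 2) r
  have h3 : map (I := I) ((algebraMap (ZMod 2) (QA step (ZMod 2))).comp
      (aug step (ZMod 2)).toRingHom)
      = (map (algebraMap (ZMod 2) (QA step (ZMod 2)))).comp
        (map (aug step (ZMod 2)).toRingHom) := by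
    apply hom_ext
    intro i j h r
    simp
  rw [h2, h3, MonoidHom.comp_apply, h1, map_one]

/-- **htors** of the final assembly. -/
theorem htors_QA (hI : 3 ≤ Fintype.card I)
    (hinj : ∀ a : ℕ, ∀ p : Fin (2 ^ a),
      Function.Injective (mapI (R := QA step (ZMod 2)) (eN I p)))
    (k : St I (QA step (ZMod 2))) (hk : toMat k = 1) : ∃ a : ℕ, k ^ (2 ^ a) = 1 := by
  have : Nonempty I := Fintype.card_pos_iff.mp (by omega)
  exact two_power_torsion_of_inj (gr step (ZMod 2)) k hk (map_projZero_eq_one step hI k hk) hinj

end QA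

section Odd

variable {R : Type*} [Ring R] [Algebra (ZMod 2) R] (𝒜 : ℕ → Submodule (ZMod 2) R)
  [GradedAlgebra 𝒜] {I : Type*} [Fintype I] [DecidableEq I]

/-- **Odd-period trick.** If the cyclic cover of some odd large order acts on `g` like the scalar
cover, then `g = 1`. -/
theorem eq_one_of_odd [Nonempty I] (g : St I R) (hg : toMat g = 1)
    (h0 : map (GradedRing.projZeroRingHom 𝒜) g = 1)
    (hinj : ∀ n : ℕ, ∀ p : Fin n, Function.Injective (mapI (R := R) (eN I p)))
    (hexc : ∀ N₀ : ℕ, ∃ (n : ℕ) (_ : NeZero n), N₀ ≤ n ∧ Odd n ∧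
      Blk I (Fin n) R (map (twist 𝒜 (cycFam n)) g)
        = Blk I (Fin n) R (map (Matrix.scalar (Fin n)) g)) : g = 1 := by
  obtain ⟨D, hD⟩ := exists_HW 𝒜 g
  obtain ⟨n, hn0, hn, hodd, he⟩ := hexc (2 * D + 3)
  have hpos : 0 < n := by omega
  have h1 := Blk_cyc_eq_one 𝒜 g hg h0 hD n (by omega)
  rw [he, Blk_scalar_eq_pow g hg n (by omega) ⟨0, hpos⟩, ← map_pow] at h1
  have h2 : g ^ n = 1 := hinj _ _ (h1.trans (map_one _).symm)
  obtain ⟨a, ha⟩ := two_power_torsion_of_inj 𝒜 g hg h0 (fun a p => hinj _ p)
  have h3 : orderOf g ∣ n := orderOf_dvd_of_pow_eq_one h2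
  have h4 : orderOf g ∣ 2 ^ a := orderOf_dvd_of_pow_eq_one ha
  have h5 : Nat.Coprime n (2 ^ a) := Nat.Coprime.pow_right a (Nat.coprime_two_right.mpr hodd)
  have h6 : orderOf g = 1 := Nat.eq_one_of_dvd_coprimes h5 h3 h4
  exact orderOf_eq_one_iff.mp h6

end Odd

section QA'

open QAlg206

variable {L : Type*} (step : L → L → Option (L × L)) {I : Type} [Fintype I] [DecidableEq I]

theorem htors_QA' {c : ℕ} (hstab : StabFor c (QA step (ZMod 2))) (hI : 3 ≤ Fintype.card I)
    (hIc : c ≤ Fintype.card I) (k : St I (QA step (ZMod 2))) (hk : toMat k = 1) :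
    ∃ a : ℕ, k ^ (2 ^ a) = 1 :=
  htors_QA step hI (fun _ _ => mapI_injective hstab hIc _) k hk

end QA'

end Crest.Agent.R176.Cover294
end

-- ▼ part R176/StabQA906
section

/-! Row 176, part B: STAB for `R = QA step (ZMod 2)` and for its quotients `R ⧸ J m`,
in exactly the shapes consumed by `Final313.final_QA` and `Cover294.htors_QA'`. -/

set_option autoImplicit false

namespace Crest.Agent.R176.StabQA906

open Crest.Agent.R176 Crest.Agent.R176.St Crest.Agent.R176.QAlg206 Crest.Agent.R176.Final313

theorem zmod2_eq_one {a : ZMod 2} (h : a ≠ 0) : a = 1 := by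
  revert a; decide

theorem St_subsingleton {I R : Type*} [Ring R] [Subsingleton R] : Subsingleton (St I R) := by
  constructor
  have h : ∀ g : St I R, g = 1 := by
    intro g
    induction g using St.induction with
    | h1 => rfl
    | hx i j h r g ih => rw [ih, mul_one, Subsingleton.elim r 0, x_zero]
  intro a b
  rw [h a, h b]

theorem hstab_QA {L : Type} (step : L → L → Option (L × L)) {I : Type} [Fintype I]
    [DecidableEq I] (hI : 9 ≤ Fintype.card I) (m : ℕ) :
    Function.Injective (mapI (R := QA step (ZMod 2) ⧸ J step (ZMod 2) m)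
      (Function.Embedding.some : I ↪ Option I)) := by
  rcases Nat.eq_zero_or_pos m with rfl | hm
  · have h1 : (1 : QA step (ZMod 2)) ∈ J step (ZMod 2) 0 := by
      have : word step (ZMod 2) [] ∈ Jsub step (ZMod 2) 0 :=
        word_mem_Jsub step (ZMod 2) (Nat.zero_le _)
      rw [mem_J, ← word_nil]
      exact this
    have h2 : J step (ZMod 2) 0 = ⊤ := (Ideal.eq_top_iff_one _).mpr h1
    have : Subsingleton (QA step (ZMod 2) ⧸ J step (ZMod 2) 0) :=
      Ideal.Quotient.subsingleton_iff.mpr h2
    have := St_subsingleton (I := I) (R := QA step (ZMod 2) ⧸ J step (ZMod 2) 0)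
    exact Function.injective_of_subsingleton _
  · have hker : ∀ a : QA step (ZMod 2), a ∈ J step (ZMod 2) m →
        (aug step (ZMod 2)).toRingHom a = 0 := by
      intro a ha
      have ha' : a ∈ Jsub step (ZMod 2) m := ha
      unfold Jsub at ha'
      induction ha' using Submodule.span_induction with
      | mem s h =>
        obtain ⟨w, hw, rfl⟩ := h
        change aug step (ZMod 2) (word step (ZMod 2) w) = 0
        rw [aug_word, if_neg]
        rintro rfl
        simp at hw
        omega
      | zero => exact map_zero _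
      | add s t hs0 ht0 hs ht => rw [map_add, hs hs0, ht ht0, add_zero]
      | smul c s hs0 hs =>
        change aug step (ZMod 2) (c • s) = 0
        have : aug step (ZMod 2) s = 0 := hs hs0
        rw [map_smul, this, smul_zero]
    let φ : QA step (ZMod 2) ⧸ J step (ZMod 2) m →+* ZMod 2 :=
      Ideal.Quotient.lift (J step (ZMod 2) m) (aug step (ZMod 2)).toRingHom hker
    refine Surj906.stab φ ?_ hI
    intro r hr
    obtain ⟨s, rfl⟩ := qm_surjective step (ZMod 2) m r
    have h1 : φ (qm step (ZMod 2) m s) = aug step (ZMod 2) s := Ideal.Quotient.lift_mk _ _ _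
    rw [h1] at hr
    exact isUnit_qm step (zmod2_eq_one hr)

/-- elements of nonzero augmentation are units if all elements of zero augmentation are
nilpotent -/
theorem isUnit_QA {L : Type} (step : L → L → Option (L × L))
    (hnil : ∀ a : QA step (ZMod 2), aug step (ZMod 2) a = 0 → IsNilpotent a)
    (r : QA step (ZMod 2)) (hr : aug step (ZMod 2) r ≠ 0) : IsUnit r := by
  have h1 : aug step (ZMod 2) (r - 1) = 0 := by
    rw [map_sub, zmod2_eq_one hr, map_one, sub_self]
  have h3 : r = 1 + (r - 1) := by abel
  rw [h3]
  exact (hnil _ h1).isUnit_one_add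

/-- matrix-nilness implies nilness -/
theorem nil_of_matrix_nil {L : Type} (step : L → L → Option (L × L)) {I : Type} [Fintype I]
    [DecidableEq I] [Nonempty I]
    (hnil : ∀ A : Matrix I I (QA step (ZMod 2)),
      (∀ i j, aug step (ZMod 2) (A i j) = 0) → IsNilpotent A)
    (a : QA step (ZMod 2)) (ha : aug step (ZMod 2) a = 0) : IsNilpotent a := by
  obtain ⟨i₀⟩ := (inferInstance : Nonempty I)
  obtain ⟨n, hn⟩ := hnil (Matrix.scalar I a) (by
    intro i j
    rw [Matrix.scalar_apply, Matrix.diagonal_apply]
    split_ifs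
    · exact ha
    · exact map_zero _)
  refine ⟨n, ?_⟩
  rw [← map_pow] at hn
  have := congrFun (congrFun hn i₀) i₀
  rwa [Matrix.scalar_apply, Matrix.diagonal_apply_eq, Matrix.zero_apply] at this

theorem stabFor_QA {L : Type} (step : L → L → Option (L × L))
    (hnil : ∀ a : QA step (ZMod 2), aug step (ZMod 2) a = 0 → IsNilpotent a) :
    Cover294.StabFor 9 (QA step (ZMod 2)) := by
  intro K _ hK
  classical
  exact Surj906.stab (aug step (ZMod 2)).toRingHom (isUnit_QA step hnil) hK

end Crest.Agent.R176.StabQA906
end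

-- ▼ part R176/Gen/Bridge206
section

/-!
Row 176: the bridge between `Gen.A st k` and `QAlg206.QA st k` (helper206).
-/

set_option autoImplicit false

namespace Crest.Agent.R176.Gen

open QAlg206 (QA x word gr)

variable {L : Type} (st : L → L → Option (L × L)) (k : Type) [CommRing k]

/-- the map `A → QA` -/
noncomputable def A.toQA : A st k →ₐ[k] QA st k := A.lift (modelQA k)

/-- the map `QA → A` -/
noncomputable def A.ofQA : QA st k →ₐ[k] A st k :=
  QAlg206.lift (A.model st k).f
    (fun _ _ _ _ h => (A.model st k).rel_some h)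
    (fun _ _ h => (A.model st k).rel_none h)

@[simp] theorem A.toQA_f (a : L) : A.toQA st k ((A.model st k).f a) = x st k a := by
  simp [A.toQA]
  try rfl

@[simp] theorem A.ofQA_x (a : L) : A.ofQA st k (x st k a) = (A.model st k).f a := by
  simp [A.ofQA]

/-- THE BRIDGE. -/
noncomputable def A.equivQA : A st k ≃ₐ[k] QA st k :=
  AlgEquiv.ofAlgHom (A.toQA st k) (A.ofQA st k)
    (by
      refine QAlg206.algHom_ext fun a => ?_
      simp)
    (by
      refine A.algHom_ext fun a => ?_
      simp)

@[simp] theorem A.equivQA_f (a : L) : A.equivQA st k ((A.model st k).f a) = x st k a :=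
  A.toQA_f st k a

@[simp] theorem A.equivQA_w (w : List L) : A.equivQA st k (A.w st k w) = word st k w := by
  induction w with
  | nil => simp
  | cons a w ih => simp [ih]

@[simp] theorem A.equivQA_symm_x (a : L) :
    (A.equivQA st k).symm (x st k a) = (A.model st k).f a :=
  A.ofQA_x st k a

@[simp] theorem A.equivQA_symm_word (w : List L) :
    (A.equivQA st k).symm (word st k w) = A.w st k w := by
  rw [AlgEquiv.symm_apply_eq, A.equivQA_w]






theorem A.aug_equivQA (r : A st k) : QAlg206.aug st k (A.equivQA st k r) = A.aug st k r := by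
  have : (QAlg206.aug st k).comp (A.equivQA st k).toAlgHom = A.aug st k := by
    refine A.algHom_ext fun a => ?_
    simp
  exact DFunLike.congr_fun this r

/-- MATRIX NILPOTENCE in `QA step (ZMod 2)`, all index types. -/
theorem nilQA_of_QAll [Fintype L] (hQ : QAll st) {ι : Type*} [Fintype ι] [DecidableEq ι]
    (B : Matrix ι ι (QA st (ZMod 2)))
    (hB : ∀ i j, QAlg206.aug st (ZMod 2) (B i j) = 0) : IsNilpotent B := by
  let e := Fintype.equivFin ι
  have h1 := nil_of_QAll st hQ (Fintype.card ι)
    ((Matrix.reindexAlgEquiv (ZMod 2) (A st (ZMod 2)) e)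
      ((A.equivQA st (ZMod 2)).symm.toAlgHom.mapMatrix B)) (by
      intro i j
      rw [← A.aug_equivQA]
      simpa using hB (e.symm i) (e.symm j))
  obtain ⟨N, hN⟩ := h1
  refine ⟨N, ?_⟩
  rw [← map_pow] at hN
  have h3 := (EmbeddingLike.map_eq_zero_iff (f := Matrix.reindexAlgEquiv (ZMod 2)
    (A st (ZMod 2)) e)).1 hN
  have h4 := congrArg (A.equivQA st (ZMod 2)).toAlgHom.mapMatrix h3
  rw [map_pow, map_zero] at h4
  have h5 : (A.equivQA st (ZMod 2)).toAlgHom.mapMatrix
      ((A.equivQA st (ZMod 2)).symm.toAlgHom.mapMatrix B) = B := by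
    ext1 i j
    simp
  rwa [h5] at h4

end Crest.Agent.R176.Gen
end

-- ▼ part R176/Final313C

/-! Row 176, part B: the last assembly of S0265: everything except `EXC`, `PHASES` and part A
(matrix-nil + nonzero words) is discharged here. -/

set_option autoImplicit false
set_option linter.unusedVariables false
set_option linter.unusedSectionVars false

namespace Crest.Agent.R176.Final313

open Crest.Agent.R176 Crest.Agent.R176.St Crest.Agent.R176.QAlg206

variable {L : Type} (step : L → L → Option (L × L))

theorem proj_Jsub {k : Type*} [CommRing k] {m n : ℕ} (h : n < m) {r : QA step k}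
    (hr : r ∈ Jsub step k m) : GradedRing.proj (gr step k) n r = 0 := by
  unfold Jsub at hr
  induction hr using Submodule.span_induction with
  | mem s hs =>
    obtain ⟨w, hw, rfl⟩ := hs
    rw [proj_word, if_neg (by omega)]
  | zero => exact map_zero _
  | add s t _ _ hs ht => rw [map_add, hs, ht, add_zero]
  | smul c s _ hs =>
    have e : GradedRing.proj (gr step k) n (c • s) = c • GradedRing.proj (gr step k) n s := by
      simp only [GradedRing.proj_apply, DirectSum.decompose_smul, DirectSum.smul_apply,
        Submodule.coe_smul]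
    rw [e, hs, smul_zero]

theorem eq_zero_of_mem_all {k : Type*} [CommRing k] {r : QA step k}
    (hr : ∀ m, r ∈ Jsub step k m) : r = 0 := by
  have h : ∀ n, GradedRing.proj (gr step k) n r = 0 := fun n =>
    proj_Jsub step (Nat.lt_succ_self n) (hr (n + 1))
  classical
  rw [← DirectSum.sum_support_decompose (gr step k) r]
  apply Finset.sum_eq_zero
  intro n _
  exact h n

theorem map_qm_eq_one {I : Type} [Fintype I] [DecidableEq I] {m : ℕ}
    {g : St I (QA step (ZMod 2))} (hg : g ∈ Tits370.E I (Jadd step m)) :
    St.map (qm step (ZMod 2) m) g = 1 := by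
  unfold Tits370.E at hg
  induction hg using Subgroup.closure_induction with
  | mem g hg =>
    obtain ⟨i, j, h, r, hr, rfl⟩ := hg
    rw [map_x, (qm_eq_zero_iff step (ZMod 2)).mpr hr, x_zero]
  | one => exact map_one _
  | mul a b _ _ ha hb => rw [map_mul, ha, hb, one_mul]
  | inv a _ ha => rw [map_inv, ha, inv_one]

/-- phantoms have trivial matrix -/
theorem toMat_eq_one_of_phantom {I : Type} [Fintype I] [DecidableEq I]
    {g : St I (QA step (ZMod 2))} (hg : ∀ m, g ∈ Tits370.E I (Jadd step m)) : toMat g = 1 := by
  have key : ∀ i j, ((toMat g).val - 1) i j = 0 := by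
    intro i j
    apply eq_zero_of_mem_all step
    intro m
    rw [← qm_eq_zero_iff]
    have h1 : (toMat (St.map (qm step (ZMod 2) m) g)).val = 1 := by
      rw [map_qm_eq_one step (hg m), map_one, Units.val_one]
    rw [toMat_map] at h1
    have h2 := congrFun (congrFun h1 i) j
    rw [Matrix.map_apply] at h2
    rw [Matrix.sub_apply, map_sub, h2, Matrix.one_apply, Matrix.one_apply]
    split_ifs
    · rw [map_one, sub_self]
    · rw [map_zero, sub_self]
  apply Units.ext
  rw [Units.val_one]
  ext i j
  have := key i j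
  rw [Matrix.sub_apply, sub_eq_zero] at this
  exact this

theorem Jadd_eq (m : ℕ) : Jadd step m = Fpt396.J step m := by
  apply le_antisymm
  · intro r hr
    have hr' : r ∈ Jsub step (ZMod 2) m := hr
    unfold Jsub at hr'
    induction hr' using Submodule.span_induction with
    | mem s hs =>
      obtain ⟨w, hw, rfl⟩ := hs
      exact Fpt396.wd_mem_J hw
    | zero => exact AddSubgroup.zero_mem _
    | add s t hs0 ht0 hs ht => exact AddSubgroup.add_mem _ (hs hs0) (ht ht0)
    | smul c s hs0 hs => exact Fpt396.smul_mem_addSubgroup _ c (hs hs0)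
  · unfold Fpt396.J
    rw [AddSubgroup.closure_le]
    rintro _ ⟨w, hw, rfl⟩
    exact word_mem_Jsub step (ZMod 2) hw



/-- **S0265 from part A and X5** (no phantoms, in the form of helper664/275). -/
theorem s0265_of_noPhantom [Fintype L]
    (hinf : ∀ n : ℕ, ∃ w : List L, n ≤ w.length ∧ ¬ IsZ step w)
    (hQ : Gen.QAll step)
    (hX5 : Cover294.StabFor 9 (QA step (ZMod 2)) → ∀ g : St (Fin 9) (QA step (ZMod 2)),
      toMat g = 1 → (∀ m, g ∈ Tits370.E (Fin 9) (Fpt396.J step m)) → g = 1) :
    ∃ (G : Type) (_ : Group G),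
      Infinite G ∧ Group.IsFinitelyPresented G ∧ Group.ResiduallyFinite G ∧ IsPGroup 2 G := by
  classical
  have hnil : ∀ A : Matrix (Fin 9) (Fin 9) (QA step (ZMod 2)),
      (∀ i j, aug step (ZMod 2) (A i j) = 0) → IsNilpotent A := fun A hA =>
    Gen.nilQA_of_QAll step hQ A hA
  have hst : Cover294.StabFor 9 (QA step (ZMod 2)) :=
    StabQA906.stabFor_QA step (StabQA906.nil_of_matrix_nil step hnil)
  refine final_QA step (I := Fin 9) (by simp) hinf hnil
    (StabQA906.hstab_QA step (by simp)) (Cover294.htors_QA' step hst (by simp) (by simp))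
    (fun g hg => hX5 hst g (toMat_eq_one_of_phantom step hg)
      (fun m => by rw [← Jadd_eq]; exact hg m))


end Crest.Agent.R176.Final313
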