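import Crest.Agent.R176.QAlg206B

/-!
R176, part B, block (FPT) (helper396): balanced biadditive maps on the ideal `J m` of long words of
the quadratic rewriting algebra `QA step (ZMod 2)` factor through the product (in high degrees).

* `J step m` : additive subgroup spanned by the words of length `≥ m` (an ideal);
* `exists_tau` : scalar version;
* `exists_tau_matrix` : version for matrices over `J m`.
-/

set_option autoImplicit false
set_option linter.unusedSectionVars false

namespace Crest.Agent.R176.Fpt396

open QAlg206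

variable {L : Type*} (step : L → L → Option (L × L))

/-- the algebra over the field with two elements -/
abbrev QQ : Type _ := QA step (ZMod 2)

/-- words over the field with two elements -/
noncomputable abbrev wd (w : List L) : QQ step := word step (ZMod 2) w

/-- additive span of the words of length `≥ m` -/
noncomputable def J (m : ℕ) : AddSubgroup (QQ step) :=
  AddSubgroup.closure {r | ∃ w : List L, m ≤ w.length ∧ wd step w = r}

variable {step}

theorem wd_mem_J {m : ℕ} {w : List L} (h : m ≤ w.length) : wd step w ∈ J step m :=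
  AddSubgroup.subset_closure ⟨w, h, rfl⟩

theorem J_anti {m n : ℕ} (h : m ≤ n) : J step n ≤ J step m := by
  apply AddSubgroup.closure_mono
  rintro _ ⟨w, hw, rfl⟩
  exact ⟨w, h.trans hw, rfl⟩

theorem smul_mem_addSubgroup (H : AddSubgroup (QQ step)) (c : ZMod 2) {r : QQ step}
    (h : r ∈ H) : c • r ∈ H := by
  have : c = 0 ∨ c = 1 := by revert c; decide
  rcases this with rfl | rfl
  · rw [zero_smul]; exact H.zero_mem
  · rw [one_smul]; exact h

theorem mem_J_zero (r : QQ step) : r ∈ J step 0 := by
  induction r using induction_on with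
  | hw w => exact wd_mem_J (Nat.zero_le _)
  | hadd r s hr hs => exact AddSubgroup.add_mem _ hr hs
  | hsmul c r hr => exact smul_mem_addSubgroup _ c hr

theorem mul_mem_J {m n : ℕ} {u v : QQ step} (hu : u ∈ J step m) (hv : v ∈ J step n) :
    u * v ∈ J step (m + n) := by
  induction hu using AddSubgroup.closure_induction with
  | mem u hu =>
    obtain ⟨p, hp, rfl⟩ := hu
    induction hv using AddSubgroup.closure_induction with
    | mem v hv =>
      obtain ⟨q, hq, rfl⟩ := hv
      rw [← word_append]
      exact wd_mem_J (by simp only [List.length_append]; omega)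
    | zero => rw [mul_zero]; exact AddSubgroup.zero_mem _
    | add v v' _ _ h h' => rw [mul_add]; exact AddSubgroup.add_mem _ h h'
    | neg v _ h => rw [mul_neg]; exact AddSubgroup.neg_mem _ h
  | zero => rw [zero_mul]; exact AddSubgroup.zero_mem _
  | add v v' _ _ h h' => rw [add_mul]; exact AddSubgroup.add_mem _ h h'
  | neg v _ h => rw [neg_mul]; exact AddSubgroup.neg_mem _ h



theorem add_self_eq_zero' (u : QQ step) : u + u = 0 := by
  have : (2 : ZMod 2) • u = 0 := by
    rw [show (2 : ZMod 2) = 0 from rfl, zero_smul]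
  rwa [two_smul] at this

/-! ### The scalar version -/

/-- The hypotheses on a balanced biadditive map on `J m`. -/
structure Bal {T : Type*} [AddCommGroup T] (step : L → L → Option (L × L)) (m : ℕ)
    (D : QQ step → QQ step → T) : Prop where
  addl : ∀ u u' v, u ∈ J step m → u' ∈ J step m → v ∈ J step m → D (u + u') v = D u v + D u' v
  addr : ∀ u v v', u ∈ J step m → v ∈ J step m → v' ∈ J step m → D u (v + v') = D u v + D u v'
  bal : ∀ u b v, u ∈ J step m → b ∈ J step m → v ∈ J step m → D (u * b) v = D u (b * v)

namespace Bal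

variable {T : Type*} [AddCommGroup T] {m : ℕ} {D : QQ step → QQ step → T}

theorem zerol (h : Bal step m D) {v : QQ step} (hv : v ∈ J step m) : D 0 v = 0 := by
  have := h.addl 0 0 v (AddSubgroup.zero_mem _) (AddSubgroup.zero_mem _) hv
  rw [add_zero] at this
  exact left_eq_add.mp this

theorem zeror (h : Bal step m D) {u : QQ step} (hu : u ∈ J step m) : D u 0 = 0 := by
  have := h.addr u 0 0 hu (AddSubgroup.zero_mem _) (AddSubgroup.zero_mem _)
  rw [add_zero] at this
  exact left_eq_add.mp this

theorem two (h : Bal step m D) {u v : QQ step} (hu : u ∈ J step m) (hv : v ∈ J step m) :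
    D u v + D u v = 0 := by
  rw [← h.addl u u v hu hu hv, add_self_eq_zero', h.zerol hv]

/-- cutting far away -/
theorem cut_far (h : Bal step m D) (w : List L) {c c' : ℕ} (hc : m ≤ c) (hcc : c + m ≤ c')
    (hc' : c' + m ≤ w.length) :
    D (wd step (w.take c)) (wd step (w.drop c)) = D (wd step (w.take c')) (wd step (w.drop c')) := by
  have e1 : w.take c' = w.take c ++ (w.drop c).take (c' - c) := by
    conv_lhs => rw [show c' = c + (c' - c) by omega, List.take_add]
  have e2 : w.drop c = (w.drop c).take (c' - c) ++ w.drop c' := by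
    conv_lhs => rw [← List.take_append_drop (c' - c) (w.drop c)]
    rw [List.drop_drop, show c + (c' - c) = c' by omega]
  have h1 : m ≤ (w.take c).length := by rw [List.length_take]; omega
  have h2 : m ≤ ((w.drop c).take (c' - c)).length := by
    rw [List.length_take, List.length_drop]; omega
  have h3 : m ≤ (w.drop c').length := by rw [List.length_drop]; omega
  rw [e1]
  conv_lhs => rw [e2]
  rw [wd, wd, wd, wd, word_append, word_append, h.bal _ _ _ (wd_mem_J h1) (wd_mem_J h2) (wd_mem_J h3)]

/-- the cut does not matter -/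
theorem cut (h : Bal step m D) {w : List L} (hw : 4 * m ≤ w.length) {c c' : ℕ} (hc : m ≤ c)
    (hcl : c + m ≤ w.length) (hc' : m ≤ c') (hcl' : c' + m ≤ w.length) :
    D (wd step (w.take c)) (wd step (w.drop c)) = D (wd step (w.take c')) (wd step (w.drop c')) := by
  have key : ∀ c : ℕ, m ≤ c → c + m ≤ w.length →
      D (wd step (w.take c)) (wd step (w.drop c)) = D (wd step (w.take m)) (wd step (w.drop m)) := by
    intro c hc hcl
    by_cases h2 : 2 * m ≤ c
    · exact (h.cut_far w le_rfl (by omega) hcl).symm
    · have e1 := h.cut_far w (c := c) (c' := w.length - m) hc (by omega) (by omega)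
      have e2 := h.cut_far w (c := m) (c' := w.length - m) le_rfl (by omega) (by omega)
      rw [e1, e2]
  rw [key c hc hcl, key c' hc' hcl']

/-- value on a word -/
noncomputable def val (step : L → L → Option (L × L)) (m : ℕ) (D : QQ step → QQ step → T)
    (w : List L) : T :=
  if 4 * m ≤ w.length then D (wd step (w.take m)) (wd step (w.drop m)) else 0

/-- value on a word or zero -/
noncomputable def val0 (step : L → L → Option (L × L)) (m : ℕ) (D : QQ step → QQ step → T)
    (w : Option (List L)) : T := w.elim 0 (val step m D)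

theorem val_eq (h : Bal step m D) {w : List L} (hw : 4 * m ≤ w.length) {c : ℕ} (hc : m ≤ c)
    (hcl : c + m ≤ w.length) :
    val step m D w = D (wd step (w.take c)) (wd step (w.drop c)) := by
  rw [val, if_pos hw]
  exact h.cut hw le_rfl (by omega) hc hcl

theorem val0_inv (hm : 1 ≤ m) (h : Bal step m D) {x y : Option (List L)} (hxy : WEq step x y) :
    val0 step m D x = val0 step m D y := by
  refine WEq.inv (val0 step m D) ?_ hxy
  intro x y hxy
  cases hxy with
  | move p s hs =>
    rename_i a b a' b'
    show val step m D _ = val step m D _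
    by_cases hw : 4 * m ≤ (p ++ a :: b :: s).length
    swap
    · have hw' : ¬ 4 * m ≤ (p ++ a' :: b' :: s).length := by
        simpa using hw
      rw [val, val, if_neg hw, if_neg hw']
    · have hw' : 4 * m ≤ (p ++ a' :: b' :: s).length := by simpa using hw
      have hlen : (p ++ a :: b :: s).length = p.length + s.length + 2 := by simp; omega
      have hlen' : (p ++ a' :: b' :: s).length = p.length + s.length + 2 := by simp; omega
      rw [hlen] at hw
      by_cases hp : m ≤ p.length
      · rw [h.val_eq (by rw [hlen]; exact hw) (c := m) le_rfl (by omega),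
          h.val_eq hw' (c := m) le_rfl (by omega)]
        rw [List.take_append_of_le_length hp, List.take_append_of_le_length hp,
          List.drop_append_of_le_length hp, List.drop_append_of_le_length hp]
        congr 1
        exact word_eq_of_WEq step (ZMod 2) (WEq.of_move _ _ hs)
      · -- cut after the move
        have hc : m ≤ s.length + p.length + 2 - m := by omega
        set c := p.length + s.length + 2 - m with hcdef
        have hcp : p.length + 2 ≤ c := by omega
        rw [h.val_eq (by rw [hlen]; exact hw) (c := c) (by omega) (by omega),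
          h.val_eq hw' (c := c) (by omega) (by omega)]
        have e1 : ∀ a b : L, (p ++ a :: b :: s).take c = p ++ a :: b :: s.take (c - p.length - 2) := by
          intro a b
          rw [List.take_append, List.take_of_length_le (by omega : p.length ≤ c)]
          obtain ⟨t, ht⟩ : ∃ t, c - p.length = t + 2 := ⟨c - p.length - 2, by omega⟩
          rw [ht]
          simp
        have e2 : ∀ a b : L, (p ++ a :: b :: s).drop c = s.drop (c - p.length - 2) := by
          intro a b
          rw [List.drop_append, List.drop_of_length_le (by omega : p.length ≤ c)]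
          obtain ⟨t, ht⟩ : ∃ t, c - p.length = t + 2 := ⟨c - p.length - 2, by omega⟩
          rw [ht]
          simp
        rw [e1, e1, e2, e2]
        congr 1
        exact word_eq_of_WEq step (ZMod 2) (WEq.of_move _ _ hs)
  | zero p s hs =>
    rename_i a b
    show val step m D _ = 0
    by_cases hw : 4 * m ≤ (p ++ a :: b :: s).length
    swap
    · rw [val, if_neg hw]
    · have hlen : (p ++ a :: b :: s).length = p.length + s.length + 2 := by simp; omega
      rw [hlen] at hw
      by_cases hp : m ≤ p.length
      · rw [h.val_eq (by rw [hlen]; exact hw) (c := m) le_rfl (by omega)]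
        rw [List.take_append_of_le_length hp, List.drop_append_of_le_length hp]
        rw [show wd step (List.drop m p ++ a :: b :: s) = 0 from
          word_eq_zero_of_isZ step (ZMod 2) (WEq.of_zero _ _ hs)]
        exact h.zeror (wd_mem_J (by rw [List.length_take]; omega))
      · set c := p.length + s.length + 2 - m with hcdef
        have hcp : p.length + 2 ≤ c := by omega
        rw [h.val_eq (by rw [hlen]; exact hw) (c := c) (by omega) (by omega)]
        have e1 : (p ++ a :: b :: s).take c = p ++ a :: b :: s.take (c - p.length - 2) := by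
          rw [List.take_append, List.take_of_length_le (by omega : p.length ≤ c)]
          obtain ⟨t, ht⟩ : ∃ t, c - p.length = t + 2 := ⟨c - p.length - 2, by omega⟩
          rw [ht]
          simp
        rw [e1, show wd step (p ++ a :: b :: List.take (c - p.length - 2) s) = 0 from
          word_eq_zero_of_isZ step (ZMod 2) (WEq.of_zero _ _ hs)]
        exact h.zerol (wd_mem_J (by rw [List.length_drop]; omega))

theorem two_val (hm : 1 ≤ m) (h : Bal step m D) (x : Option (List L)) :
    (2 : ℤ) • val0 step m D x = 0 := by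
  cases x with
  | none => simp [val0]
  | some w =>
    show (2 : ℤ) • val step m D w = 0
    rw [val]
    split_ifs with hw
    · rw [two_zsmul]
      exact h.two (wd_mem_J (by rw [List.length_take]; omega))
        (wd_mem_J (by rw [List.length_drop]; omega))
    · simp

/-- value on classes -/
noncomputable def valCl (hm : 1 ≤ m) (h : Bal step m D) (q : Cl step) : T :=
  Quotient.lift (val0 step m D) (fun _ _ hxy => h.val0_inv hm hxy) q

theorem two_valCl (hm : 1 ≤ m) (h : Bal step m D) (q : Cl step) : (2 : ℤ) • valCl hm h q = 0 := by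
  obtain ⟨w, rfl⟩ := cl_surj q
  exact h.two_val hm w

/-- the map `τ` -/
noncomputable def tau (hm : 1 ≤ m) (h : Bal step m D) : QQ step →+ T :=
  (Finsupp.liftAddHom (fun q : NZ step =>
    (ZMod.lift 2 ⟨(zmultiplesHom T) (valCl hm h q.1), by
      show (2 : ℤ) • valCl hm h q.1 = 0
      exact two_valCl hm h q.1⟩ : ZMod 2 →+ T))).comp (coord step (ZMod 2)).toAddMonoidHom

theorem tau_word (hm : 1 ≤ m) (h : Bal step m D) (w : List L) :
    tau hm h (wd step w) = val step m D w := by
  have e : val step m D w = valCl hm h (cl (some w)) := rfl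
  rw [e]
  show (Finsupp.liftAddHom _) (coord step (ZMod 2) (word step (ZMod 2) w)) = _
  rw [coord_word]
  by_cases hz : cl (step := step) (some w) = cl none
  · rw [hz, sg_zero, map_zero]; rfl
  · rw [sg_of_ne step (ZMod 2) hz]
    simp only [Finsupp.liftAddHom_apply_single]
    have : (1 : ZMod 2) = ((1 : ℤ) : ZMod 2) := by norm_num
    rw [this, ZMod.lift_coe]
    simp

theorem tau_word_mul (hm : 1 ≤ m) (h : Bal step m D) {p q : List L} (hp : m ≤ p.length)
    (hq : m ≤ q.length) (hpq : 4 * m ≤ p.length + q.length) :
    tau hm h (wd step p * wd step q) = D (wd step p) (wd step q) := by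
  rw [wd, wd, ← word_append]
  have := tau_word hm h (p ++ q)
  rw [wd] at this
  rw [this, h.val_eq (c := p.length) (by rw [List.length_append]; exact hpq) hp
    (by rw [List.length_append]; omega)]
  simp

theorem tau_mul (hm : 1 ≤ m) (h : Bal step m D) {a b : ℕ} (ha : m ≤ a) (hb : m ≤ b)
    (hab : 4 * m ≤ a + b) {u v : QQ step} (hu : u ∈ J step a) (hv : v ∈ J step b) :
    tau hm h (u * v) = D u v := by
  have hneg : ∀ u v : QQ step, u ∈ J step m → v ∈ J step m → D (-u) v = - D u v := by
    intro u v hu hv
    rw [eq_neg_iff_add_eq_zero, ← h.addl _ _ _ (AddSubgroup.neg_mem _ hu) hu hv,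
      neg_add_cancel, h.zerol hv]
  have hneg' : ∀ u v : QQ step, u ∈ J step m → v ∈ J step m → D u (-v) = - D u v := by
    intro u v hu hv
    rw [eq_neg_iff_add_eq_zero, ← h.addr _ _ _ hu (AddSubgroup.neg_mem _ hv) hv,
      neg_add_cancel, h.zeror hu]
  induction hu using AddSubgroup.closure_induction with
  | mem u hu =>
    obtain ⟨p, hp, rfl⟩ := hu
    induction hv using AddSubgroup.closure_induction with
    | mem v hv =>
      obtain ⟨q, hq, rfl⟩ := hv
      exact tau_word_mul hm h (by omega) (by omega) (by omega)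
    | zero => rw [mul_zero, map_zero, h.zeror (wd_mem_J (by omega))]
    | add v v' h1 h2 e1 e2 =>
      rw [mul_add, map_add, e1, e2, h.addr _ _ _ (wd_mem_J (by omega)) (J_anti hb h1)
        (J_anti hb h2)]
    | neg v h1 e1 =>
      rw [mul_neg, map_neg, e1, hneg' _ _ (wd_mem_J (by omega)) (J_anti hb h1)]
  | zero => rw [zero_mul, map_zero, h.zerol (J_anti hb hv)]
  | add u u' h1 h2 e1 e2 =>
    rw [add_mul, map_add, e1, e2, h.addl _ _ _ (J_anti ha h1) (J_anti ha h2) (J_anti hb hv)]
  | neg u h1 e1 =>
    rw [neg_mul, map_neg, e1, hneg _ _ (J_anti ha h1) (J_anti hb hv)]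

end Bal


theorem J_induction {m a : ℕ} (h2 : 2 * m ≤ a) {P : QQ step → Prop} (h0 : P 0)
    (hadd : ∀ u v, u ∈ J step a → v ∈ J step a → P u → P v → P (u + v))
    (hmul : ∀ b c, b ∈ J step m → c ∈ J step m → b * c ∈ J step a → P (b * c))
    {u : QQ step} (hu : u ∈ J step a) : P u := by
  have hneg : ∀ u : QQ step, -u = u := fun u => by
    rw [neg_eq_iff_add_eq_zero]; exact add_self_eq_zero' u
  induction hu using AddSubgroup.closure_induction with
  | mem u hu =>
    obtain ⟨w, hw, rfl⟩ := hu
    have e : wd step w = wd step (w.take m) * wd step (w.drop m) := by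
      rw [wd, wd, wd, ← word_append, List.take_append_drop]
    have h := hmul (wd step (w.take m)) (wd step (w.drop m))
      (wd_mem_J (by rw [List.length_take]; omega)) (wd_mem_J (by rw [List.length_drop]; omega))
      (by rw [← e]; exact wd_mem_J hw)
    rwa [← e] at h
  | zero => exact h0
  | add u v hu hv h h' => exact hadd u v hu hv h h'
  | neg u _ h => rw [hneg]; exact h

/-! ### The matrix version -/

section matrix

variable {n : Type*} [Fintype n] [DecidableEq n]

/-- matrices with entries in `J m` -/
def MJ (n : Type*) (step : L → L → Option (L × L)) (m : ℕ) : AddSubgroup (Matrix n n (QQ step)) where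
  carrier := {A | ∀ i j, A i j ∈ J step m}
  add_mem' := fun ha hb i j => AddSubgroup.add_mem _ (ha i j) (hb i j)
  zero_mem' := fun _ _ => AddSubgroup.zero_mem _
  neg_mem' := fun ha i j => AddSubgroup.neg_mem _ (ha i j)


theorem single_mem_MJ {m : ℕ} (i j : n) {u : QQ step} (hu : u ∈ J step m) :
    Matrix.single i j u ∈ MJ n step m := by
  intro a b
  rw [Matrix.single_apply]
  split_ifs
  · exact hu
  · exact AddSubgroup.zero_mem _

theorem MJ_anti {m m' : ℕ} (h : m ≤ m') : MJ n step m' ≤ MJ n step m :=
  fun _ hA i j => J_anti h (hA i j)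

theorem mul_mem_MJ {m m' : ℕ} {A B : Matrix n n (QQ step)} (hA : A ∈ MJ n step m)
    (hB : B ∈ MJ n step m') : A * B ∈ MJ n step (m + m') := by
  intro i j
  rw [Matrix.mul_apply]
  exact AddSubgroup.sum_mem _ fun k _ => mul_mem_J (hA i k) (hB k j)

/-- The hypotheses on a balanced biadditive map on matrices over `J m`. -/
structure BalM {T : Type*} [AddCommGroup T] (n : Type*) [Fintype n] [DecidableEq n]
    (step : L → L → Option (L × L)) (m : ℕ)
    (D : Matrix n n (QQ step) → Matrix n n (QQ step) → T) : Prop where
  addl : ∀ u u' v, u ∈ MJ n step m → u' ∈ MJ n step m → v ∈ MJ n step m →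
    D (u + u') v = D u v + D u' v
  addr : ∀ u v v', u ∈ MJ n step m → v ∈ MJ n step m → v' ∈ MJ n step m →
    D u (v + v') = D u v + D u v'
  bal : ∀ u b v, u ∈ MJ n step m → b ∈ MJ n step m → v ∈ MJ n step m → D (u * b) v = D u (b * v)

namespace BalM

variable {T : Type*} [AddCommGroup T] {m : ℕ} {D : Matrix n n (QQ step) → Matrix n n (QQ step) → T}

theorem zerol (h : BalM n step m D) {v : Matrix n n (QQ step)} (hv : v ∈ MJ n step m) :
    D 0 v = 0 := by
  have := h.addl 0 0 v (AddSubgroup.zero_mem _) (AddSubgroup.zero_mem _) hv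
  rw [add_zero] at this
  exact left_eq_add.mp this

theorem zeror (h : BalM n step m D) {u : Matrix n n (QQ step)} (hu : u ∈ MJ n step m) :
    D u 0 = 0 := by
  have := h.addr u 0 0 hu (AddSubgroup.zero_mem _) (AddSubgroup.zero_mem _)
  rw [add_zero] at this
  exact left_eq_add.mp this

theorem suml (h : BalM n step m D) {ι : Type*} (s : Finset ι) (f : ι → Matrix n n (QQ step))
    (hf : ∀ i ∈ s, f i ∈ MJ n step m) {v : Matrix n n (QQ step)} (hv : v ∈ MJ n step m) :
    D (∑ i ∈ s, f i) v = ∑ i ∈ s, D (f i) v := by
  classical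
  induction s using Finset.induction_on with
  | empty => simpa using h.zerol hv
  | insert a s ha ih =>
    rw [Finset.sum_insert ha, Finset.sum_insert ha,
      h.addl _ _ _ (hf a (Finset.mem_insert_self _ _))
        (AddSubgroup.sum_mem _ fun i hi => hf i (Finset.mem_insert_of_mem hi)) hv,
      ih fun i hi => hf i (Finset.mem_insert_of_mem hi)]

theorem sumr (h : BalM n step m D) {ι : Type*} (s : Finset ι) (f : ι → Matrix n n (QQ step))
    (hf : ∀ i ∈ s, f i ∈ MJ n step m) {u : Matrix n n (QQ step)} (hu : u ∈ MJ n step m) :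
    D u (∑ i ∈ s, f i) = ∑ i ∈ s, D u (f i) := by
  classical
  induction s using Finset.induction_on with
  | empty => simpa using h.zeror hu
  | insert a s ha ih =>
    rw [Finset.sum_insert ha, Finset.sum_insert ha,
      h.addr _ _ _ hu (hf a (Finset.mem_insert_self _ _))
        (AddSubgroup.sum_mem _ fun i hi => hf i (Finset.mem_insert_of_mem hi)),
      ih fun i hi => hf i (Finset.mem_insert_of_mem hi)]

open Matrix in
/-- the scalar map at `(i, j, l)` -/
theorem bal_entry (h : BalM n step m D) (i j l : n) :
    Bal step m (fun u v => D (Matrix.single i j u) (Matrix.single j l v)) where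
  addl u u' v hu hu' hv := by
    rw [Matrix.single_add, h.addl _ _ _ (single_mem_MJ _ _ hu) (single_mem_MJ _ _ hu')
      (single_mem_MJ _ _ hv)]
  addr u v v' hu hv hv' := by
    rw [Matrix.single_add, h.addr _ _ _ (single_mem_MJ _ _ hu) (single_mem_MJ _ _ hv)
      (single_mem_MJ _ _ hv')]
  bal u b v hu hb hv := by
    rw [show Matrix.single i j (u * b) = Matrix.single i j u * Matrix.single j j b by
        rw [Matrix.single_mul_single_same],
      h.bal _ _ _ (single_mem_MJ _ _ hu) (single_mem_MJ _ _ hb) (single_mem_MJ _ _ hv),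
      Matrix.single_mul_single_same]

theorem ss (i j l : n) (b c : QQ step) :
    Matrix.single i l (b * c) = Matrix.single i j b * Matrix.single j l c := by
  rw [Matrix.single_mul_single_same]

/-- distinct middle indices -/
theorem off (h : BalM n step m D) {a b : ℕ} (ha : m ≤ a) (hb : m ≤ b) (hab : 4 * m ≤ a + b)
    {u v : QQ step} (hu : u ∈ J step a) (hv : v ∈ J step b) (i j k l : n) (hjk : j ≠ k) :
    D (Matrix.single i j u) (Matrix.single k l v) = 0 := by
  have hu' := J_anti ha hu
  have hv' := J_anti hb hv
  rcases Nat.lt_or_ge a (2 * m) with h2 | h2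
  · have h3 : 2 * m ≤ b := by omega
    refine J_induction (P := fun v => D (Matrix.single i j u) (Matrix.single k l v) = 0) h3
      ?_ ?_ ?_ hv
    · rw [Matrix.single_zero]; exact h.zeror (single_mem_MJ _ _ hu')
    · intro v w hv hw e1 e2
      rw [Matrix.single_add, h.addr _ _ _ (single_mem_MJ _ _ hu')
        (single_mem_MJ _ _ (J_anti hb hv)) (single_mem_MJ _ _ (J_anti hb hw)), e1, e2, add_zero]
    · intro b c hb hc _
      rw [ss k k l b c,
        ← h.bal _ _ _ (single_mem_MJ _ _ hu') (single_mem_MJ _ _ hb) (single_mem_MJ _ _ hc),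
        Matrix.single_mul_single_of_ne _ _ _ _ hjk]
      exact h.zerol (single_mem_MJ _ _ hc)
  · refine J_induction (P := fun u => D (Matrix.single i j u) (Matrix.single k l v) = 0) h2
      ?_ ?_ ?_ hu
    · rw [Matrix.single_zero]; exact h.zerol (single_mem_MJ _ _ hv')
    · intro u w hu hw e1 e2
      rw [Matrix.single_add, h.addl _ _ _ (single_mem_MJ _ _ (J_anti ha hu))
        (single_mem_MJ _ _ (J_anti ha hw)) (single_mem_MJ _ _ hv'), e1, e2, add_zero]
    · intro b c hb hc _
      rw [ss i j j b c,
        h.bal _ _ _ (single_mem_MJ _ _ hb) (single_mem_MJ _ _ hc) (single_mem_MJ _ _ hv'),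
        Matrix.single_mul_single_of_ne _ _ _ _ hjk]
      exact h.zeror (single_mem_MJ _ _ hb)

/-- the middle index does not matter -/
theorem mid (h : BalM n step m D) {a b : ℕ} (ha : m ≤ a) (hb : m ≤ b) (hab : 4 * m ≤ a + b)
    {u v : QQ step} (hu : u ∈ J step a) (hv : v ∈ J step b) (i j l : n) :
    D (Matrix.single i j u) (Matrix.single j l v) =
      D (Matrix.single i i u) (Matrix.single i l v) := by
  have hu' := J_anti ha hu
  have hv' := J_anti hb hv
  rcases Nat.lt_or_ge a (2 * m) with h2 | h2
  · have h3 : 2 * m ≤ b := by omega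
    refine J_induction (P := fun v => D (Matrix.single i j u) (Matrix.single j l v) =
      D (Matrix.single i i u) (Matrix.single i l v)) h3 ?_ ?_ ?_ hv
    · rw [Matrix.single_zero, Matrix.single_zero, h.zeror (single_mem_MJ _ _ hu'),
        h.zeror (single_mem_MJ _ _ hu')]
    · intro v w hv hw e1 e2
      rw [Matrix.single_add, h.addr _ _ _ (single_mem_MJ _ _ hu')
        (single_mem_MJ _ _ (J_anti hb hv)) (single_mem_MJ _ _ (J_anti hb hw)), e1, e2,
        Matrix.single_add, h.addr _ _ _ (single_mem_MJ _ _ hu')
        (single_mem_MJ _ _ (J_anti hb hv)) (single_mem_MJ _ _ (J_anti hb hw))]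
    · intro b c hb hc _
      rw [ss j i l b c,
        ← h.bal _ _ _ (single_mem_MJ _ _ hu') (single_mem_MJ _ _ hb) (single_mem_MJ _ _ hc),
        Matrix.single_mul_single_same,
        ss i i l b c,
        ← h.bal _ _ _ (single_mem_MJ _ _ hu') (single_mem_MJ _ _ hb) (single_mem_MJ _ _ hc),
        Matrix.single_mul_single_same]
  · refine J_induction (P := fun u => D (Matrix.single i j u) (Matrix.single j l v) =
      D (Matrix.single i i u) (Matrix.single i l v)) h2 ?_ ?_ ?_ hu
    · rw [Matrix.single_zero, Matrix.single_zero, h.zerol (single_mem_MJ _ _ hv'),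
        h.zerol (single_mem_MJ _ _ hv')]
    · intro u w hu hw e1 e2
      rw [Matrix.single_add, h.addl _ _ _ (single_mem_MJ _ _ (J_anti ha hu))
        (single_mem_MJ _ _ (J_anti ha hw)) (single_mem_MJ _ _ hv'), e1, e2,
        Matrix.single_add, h.addl _ _ _ (single_mem_MJ _ _ (J_anti ha hu))
        (single_mem_MJ _ _ (J_anti ha hw)) (single_mem_MJ _ _ hv')]
    · intro b c hb hc _
      rw [ss i i j b c,
        h.bal _ _ _ (single_mem_MJ _ _ hb) (single_mem_MJ _ _ hc) (single_mem_MJ _ _ hv'),
        Matrix.single_mul_single_same,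
        ss i i i b c,
        h.bal _ _ _ (single_mem_MJ _ _ hb) (single_mem_MJ _ _ hc) (single_mem_MJ _ _ hv'),
        Matrix.single_mul_single_same]

/-- the map `τ` on matrices -/
noncomputable def tauM (hm : 1 ≤ m) (h : BalM n step m D) : Matrix n n (QQ step) →+ T where
  toFun A := ∑ i, ∑ l, Bal.tau hm (h.bal_entry i i l) (A i l)
  map_zero' := by simp
  map_add' A B := by
    simp only [Matrix.add_apply, map_add, Finset.sum_add_distrib]

theorem tauM_mul (hm : 1 ≤ m) (h : BalM n step m D) {a b : ℕ} (ha : m ≤ a) (hb : m ≤ b)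
    (hab : 4 * m ≤ a + b) {U V : Matrix n n (QQ step)} (hU : U ∈ MJ n step a)
    (hV : V ∈ MJ n step b) : tauM hm h (U * V) = D U V := by
  have e1 : D U V = ∑ i, ∑ j, ∑ k, ∑ l, D (Matrix.single i j (U i j)) (Matrix.single k l (V k l)) := by
    conv_lhs => rw [Matrix.matrix_eq_sum_single U, Matrix.matrix_eq_sum_single V]
    have hV' : ∀ k l, Matrix.single k l (V k l) ∈ MJ n step m := fun k l =>
      single_mem_MJ _ _ (J_anti hb (hV k l))
    have hU' : ∀ k l, Matrix.single k l (U k l) ∈ MJ n step m := fun k l =>
      single_mem_MJ _ _ (J_anti ha (hU k l))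
    have hVs : (∑ k, ∑ l, Matrix.single k l (V k l)) ∈ MJ n step m :=
      AddSubgroup.sum_mem _ fun k _ => AddSubgroup.sum_mem _ fun l _ => hV' k l
    rw [h.suml _ _ (fun i _ => AddSubgroup.sum_mem _ fun l _ => hU' i l) hVs]
    refine Finset.sum_congr rfl fun i _ => ?_
    rw [h.suml _ _ (fun l _ => hU' i l) hVs]
    refine Finset.sum_congr rfl fun j _ => ?_
    rw [h.sumr _ _ (fun k _ => AddSubgroup.sum_mem _ fun l _ => hV' k l) (hU' i j)]
    refine Finset.sum_congr rfl fun k _ => ?_
    rw [h.sumr _ _ (fun l _ => hV' k l) (hU' i j)]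
  have e2 : ∀ i j l, (∑ k, D (Matrix.single i j (U i j)) (Matrix.single k l (V k l))) =
      D (Matrix.single i i (U i j)) (Matrix.single i l (V j l)) := by
    intro i j l
    rw [Finset.sum_eq_single j]
    · exact h.mid ha hb hab (hU i j) (hV j l) i j l
    · intro k _ hk
      exact h.off ha hb hab (hU i j) (hV k l) i j k l hk.symm
    · intro hj; exact absurd (Finset.mem_univ _) hj
  rw [e1]
  show (∑ i, ∑ l, Bal.tau hm (h.bal_entry i i l) ((U * V) i l)) = _
  refine Finset.sum_congr rfl fun i _ => ?_
  have e3 : (∑ j, ∑ k, ∑ l, D (Matrix.single i j (U i j)) (Matrix.single k l (V k l))) =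
      ∑ l, ∑ j, D (Matrix.single i i (U i j)) (Matrix.single i l (V j l)) := by
    rw [Finset.sum_comm (s := Finset.univ (α := n)) (t := Finset.univ (α := n))
      (f := fun l j => D (Matrix.single i i (U i j)) (Matrix.single i l (V j l)))]
    refine Finset.sum_congr rfl fun j _ => ?_
    rw [Finset.sum_comm]
    exact Finset.sum_congr rfl fun l _ => e2 i j l
  rw [e3]
  refine Finset.sum_congr rfl fun l _ => ?_
  rw [Matrix.mul_apply, map_sum]
  refine Finset.sum_congr rfl fun j _ => ?_
  exact Bal.tau_mul hm (h.bal_entry i i l) ha hb hab (hU i j) (hV j l)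

end BalM

/-- **(FPT), matrix version.** -/
theorem exists_tau_matrix {T : Type*} [AddCommGroup T] {m : ℕ} (hm : 1 ≤ m)
    {D : Matrix n n (QQ step) → Matrix n n (QQ step) → T} (h : BalM n step m D) :
    ∃ τ : Matrix n n (QQ step) →+ T, ∀ a b : ℕ, m ≤ a → m ≤ b → 4 * m ≤ a + b →
      ∀ U ∈ MJ n step a, ∀ V ∈ MJ n step b, τ (U * V) = D U V :=
  ⟨BalM.tauM hm h, fun _ _ ha hb hab _ hU _ hV => BalM.tauM_mul hm h ha hb hab hU hV⟩

/-- Every matrix over `J (a + b)` is a sum of products of matrices over `J a` and `J b`. -/
theorem MJ_induction {a b : ℕ} {P : Matrix n n (QQ step) → Prop}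
    (h0 : P 0) (hadd : ∀ u v, u ∈ MJ n step (a + b) → v ∈ MJ n step (a + b) → P u → P v → P (u + v))
    (hmul : ∀ u v, u ∈ MJ n step a → v ∈ MJ n step b → P (u * v))
    {U : Matrix n n (QQ step)} (hU : U ∈ MJ n step (a + b)) : P U := by
  have hneg : ∀ u : QQ step, -u = u := fun u => by
    rw [neg_eq_iff_add_eq_zero]; exact add_self_eq_zero' u
  have hs : ∀ i j : n, ∀ u ∈ J step (a + b), P (Matrix.single i j u) := by
    intro i j u hu
    induction hu using AddSubgroup.closure_induction with
    | mem u hu =>
      obtain ⟨w, hw, rfl⟩ := hu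
      have e : wd step w = wd step (w.take a) * wd step (w.drop a) := by
        rw [wd, wd, wd, ← word_append, List.take_append_drop]
      rw [e, BalM.ss i j j]
      exact hmul _ _ (single_mem_MJ _ _ (wd_mem_J (by rw [List.length_take]; omega)))
        (single_mem_MJ _ _ (wd_mem_J (by rw [List.length_drop]; omega)))
    | zero => rw [Matrix.single_zero]; exact h0
    | add u v hu hv h h' =>
      rw [Matrix.single_add]
      exact hadd _ _ (single_mem_MJ _ _ hu) (single_mem_MJ _ _ hv) h h'
    | neg u _ h => rw [hneg]; exact h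
  have hsum : ∀ s : Finset (n × n), (∑ p ∈ s, Matrix.single p.1 p.2 (U p.1 p.2)) ∈
      MJ n step (a + b) ∧ P (∑ p ∈ s, Matrix.single p.1 p.2 (U p.1 p.2)) := by
    intro s
    induction s using Finset.induction_on with
    | empty => exact ⟨by rw [Finset.sum_empty]; exact AddSubgroup.zero_mem _, by simpa using h0⟩
    | insert p s hp ih =>
      rw [Finset.sum_insert hp]
      have h1 : Matrix.single p.1 p.2 (U p.1 p.2) ∈ MJ n step (a + b) :=
        single_mem_MJ _ _ (hU p.1 p.2)
      exact ⟨AddSubgroup.add_mem _ h1 ih.1, hadd _ _ h1 ih.1 (hs _ _ _ (hU _ _)) ih.2⟩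
  have e : U = ∑ p : n × n, Matrix.single p.1 p.2 (U p.1 p.2) := by
    conv_lhs => rw [Matrix.matrix_eq_sum_single U]
    rw [Fintype.sum_prod_type]
  rw [e]
  exact (hsum Finset.univ).2

end matrix

end Crest.Agent.R176.Fpt396
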