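import Mathlib

/-!
R176, general theory of the quadratic rewriting algebra `QA step k`.

Letters `L`, rule `step : L → L → Option (L × L)`; `step a b = some (a',b')` imposes `ab = a'b'`,
`step a b = none` imposes `ab = 0`.
-/

set_option autoImplicit false

namespace Crest.Agent.R176.QAlg206

open FreeAlgebra
open scoped DirectSum

variable {L : Type*} (step : L → L → Option (L × L))

/-! ### Words -/

/-- One elementary move on words with zero (`none` = the zero word). -/
inductive Mv : Option (List L) → Option (List L) → Prop
  | move (p s : List L) {a b a' b' : L} (h : step a b = some (a', b')) :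
      Mv (some (p ++ a :: b :: s)) (some (p ++ a' :: b' :: s))
  | zero (p s : List L) {a b : L} (h : step a b = none) :
      Mv (some (p ++ a :: b :: s)) none

/-- Equality of words in the monoid with zero. -/
def WEq (x y : Option (List L)) : Prop := Relation.EqvGen (Mv step) x y

/-- The word `w` is zero. -/
def IsZ (w : List L) : Prop := WEq step (some w) none

variable {step}

theorem WEq.refl (x : Option (List L)) : WEq step x x := Relation.EqvGen.refl _
theorem WEq.symm {x y : Option (List L)} (h : WEq step x y) : WEq step y x :=
  Relation.EqvGen.symm _ _ h
theorem WEq.trans {x y z : Option (List L)} (h : WEq step x y) (h' : WEq step y z) :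
    WEq step x z := Relation.EqvGen.trans _ _ _ h h'

theorem WEq.of_move (p s : List L) {a b a' b' : L} (h : step a b = some (a', b')) :
    WEq step (some (p ++ a :: b :: s)) (some (p ++ a' :: b' :: s)) :=
  Relation.EqvGen.rel _ _ (Mv.move p s h)

theorem WEq.of_zero (p s : List L) {a b : L} (h : step a b = none) :
    WEq step (some (p ++ a :: b :: s)) none :=
  Relation.EqvGen.rel _ _ (Mv.zero p s h)

/-- Invariants: a function constant along moves is constant along `WEq`. -/
theorem WEq.inv {C : Type*} (f : Option (List L) → C)
    (hf : ∀ x y, Mv step x y → f x = f y) {x y : Option (List L)} (h : WEq step x y) :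
    f x = f y := by
  induction h with
  | rel x y h => exact hf _ _ h
  | refl x => rfl
  | symm x y _ ih => exact ih.symm
  | trans x y z _ _ ih1 ih2 => exact ih1.trans ih2

/-- Invariants given on words. -/
theorem WEq.inv' {C : Type*} (f : List L → Option C)
    (hm : ∀ (p s : List L) (a b a' b' : L), step a b = some (a', b') →
      f (p ++ a :: b :: s) = f (p ++ a' :: b' :: s))
    (hz : ∀ (p s : List L) (a b : L), step a b = none → f (p ++ a :: b :: s) = none)
    {x y : Option (List L)} (h : WEq step x y) :
    x.bind f = y.bind f := by
  refine WEq.inv (fun x => x.bind f) ?_ h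
  intro x y hxy
  cases hxy with
  | move p s h => simpa using hm _ _ _ _ _ _ h
  | zero p s h => simpa using hz _ _ _ _ h


/-- Length is invariant on nonzero words. -/
theorem WEq.length_eq {w w' : List L} (h : WEq step (some w) (some w')) (hw : ¬ IsZ step w) :
    w.length = w'.length := by
  classical
  have key : ∀ x y : Option (List L), WEq step x y →
      (WEq step x none ∧ WEq step y none) ∨ x.map List.length = y.map List.length := by
    intro x y h
    induction h with
    | rel x y h =>
      cases h with
      | move p s h => right; simp
      | zero p s h => left; exact ⟨WEq.of_zero p s h, WEq.refl _⟩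
    | refl x => right; rfl
    | symm x y _ ih => rcases ih with ih | ih
                       · exact Or.inl ih.symm
                       · exact Or.inr ih.symm
    | trans x y z h1 h2 ih1 ih2 =>
      rcases ih1 with ih1 | ih1
      · left; exact ⟨ih1.1, (WEq.symm h2).trans ih1.2⟩
      · rcases ih2 with ih2 | ih2
        · left; exact ⟨WEq.trans h1 ih2.1, ih2.2⟩
        · right; exact ih1.trans ih2
  rcases key _ _ h with h' | h'
  · exact absurd h'.1 hw
  · simpa using h'

/-- Contexts. -/
theorem WEq.context (p s : List L) {x y : Option (List L)} (h : WEq step x y) :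
    WEq step (x.map fun w => p ++ w ++ s) (y.map fun w => p ++ w ++ s) := by
  induction h with
  | rel x y h =>
    cases h with
    | move p' s' h =>
      have := WEq.of_move (step := step) (p ++ p') (s' ++ s) h
      simpa [List.append_assoc] using this
    | zero p' s' h =>
      have := WEq.of_zero (step := step) (p ++ p') (s' ++ s) h
      simpa [List.append_assoc] using this
  | refl x => exact WEq.refl _
  | symm x y _ ih => exact ih.symm
  | trans x y z _ _ ih1 ih2 => exact ih1.trans ih2

theorem IsZ.context (p s : List L) {w : List L} (h : IsZ step w) : IsZ step (p ++ w ++ s) := by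
  simpa [IsZ] using WEq.context p s h

theorem WEq.append {u u' v v' : List L} (hu : WEq step (some u) (some u'))
    (hv : WEq step (some v) (some v')) : WEq step (some (u ++ v)) (some (u' ++ v')) := by
  have h1 := WEq.context [] v hu
  have h2 := WEq.context u' [] hv
  simp only [List.nil_append, List.append_nil, Option.map_some] at h1 h2
  exact h1.trans h2

/-! ### The algebra -/

variable (step)

/-- The defining relations. -/
inductive Rel (k : Type*) [CommRing k] : FreeAlgebra k L → FreeAlgebra k L → Prop
  | move {a b a' b' : L} (h : step a b = some (a', b')) :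
      Rel k (ι k a * ι k b) (ι k a' * ι k b')
  | zero {a b : L} (h : step a b = none) : Rel k (ι k a * ι k b) 0

/-- The quadratic rewriting algebra over `k`. -/
def QA (k : Type*) [CommRing k] : Type _ := RingQuot (Rel step k)

noncomputable instance (k : Type*) [CommRing k] : Ring (QA step k) :=
  inferInstanceAs (Ring (RingQuot (Rel step k)))

noncomputable instance (k : Type*) [CommRing k] : Algebra k (QA step k) :=
  inferInstanceAs (Algebra k (RingQuot (Rel step k)))

variable (k : Type*) [CommRing k]

/-- The quotient map. -/
noncomputable def mk : FreeAlgebra k L →ₐ[k] QA step k := RingQuot.mkAlgHom k (Rel step k)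

theorem mk_surjective : Function.Surjective (mk step k) :=
  RingQuot.mkAlgHom_surjective k (Rel step k)

/-- The generators. -/
noncomputable def x (a : L) : QA step k := mk step k (ι k a)

theorem x_mul_x_of_some {a b a' b' : L} (h : step a b = some (a', b')) :
    x step k a * x step k b = x step k a' * x step k b' := by
  unfold x
  rw [← map_mul, ← map_mul]
  exact RingQuot.mkAlgHom_rel k (Rel.move h)

theorem x_mul_x_of_none {a b : L} (h : step a b = none) :
    x step k a * x step k b = 0 := by
  unfold x
  rw [← map_mul, ← map_zero (mk step k)]
  exact RingQuot.mkAlgHom_rel k (Rel.zero h)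

/-- The word as an element of the algebra. -/
noncomputable def word (w : List L) : QA step k := (w.map (x step k)).prod

@[simp] theorem word_nil : word step k [] = 1 := rfl
@[simp] theorem word_cons (a : L) (w : List L) :
    word step k (a :: w) = x step k a * word step k w := by simp [word]
theorem word_append (u v : List L) :
    word step k (u ++ v) = word step k u * word step k v := by simp [word]

/-- word with zero -/
noncomputable def word0 (w : Option (List L)) : QA step k := w.elim 0 (word step k)

@[simp] theorem word0_none : word0 step k none = 0 := rfl
@[simp] theorem word0_some (w : List L) : word0 step k (some w) = word step k w := rfl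

theorem word0_eq_of_WEq {u v : Option (List L)} (h : WEq step u v) :
    word0 step k u = word0 step k v := by
  refine WEq.inv (word0 step k) ?_ h
  intro u v h
  cases h with
  | move p s h =>
    simp only [word0_some, word_append, word_cons]
    rw [← mul_assoc (x step k _) (x step k _), x_mul_x_of_some step k h, mul_assoc]
  | zero p s h =>
    simp only [word0_some, word0_none, word_append, word_cons]
    rw [← mul_assoc (x step k _) (x step k _), x_mul_x_of_none step k h, zero_mul, mul_zero]

theorem word_eq_of_WEq {u v : List L} (h : WEq step (some u) (some v)) :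
    word step k u = word step k v := word0_eq_of_WEq step k h

theorem word_eq_zero_of_isZ {u : List L} (h : IsZ step u) :
    word step k u = 0 := word0_eq_of_WEq step k h

variable {step k}

/-- Universal property. -/
noncomputable def lift {B : Type*} [Ring B] [Algebra k B] (g : L → B)
    (hm : ∀ a b a' b', step a b = some (a', b') → g a * g b = g a' * g b')
    (hz : ∀ a b, step a b = none → g a * g b = 0) : QA step k →ₐ[k] B :=
  RingQuot.liftAlgHom k ⟨FreeAlgebra.lift k g, by
    intro u v h
    cases h with
    | move h => simp [hm _ _ _ _ h]
    | zero h => simp [hz _ _ h]⟩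

theorem lift_mk {B : Type*} [Ring B] [Algebra k B] (g : L → B)
    (hm : ∀ a b a' b', step a b = some (a', b') → g a * g b = g a' * g b')
    (hz : ∀ a b, step a b = none → g a * g b = 0) (f : FreeAlgebra k L) :
    lift (step := step) g hm hz (mk step k f) = FreeAlgebra.lift k g f := by
  unfold lift mk
  exact RingQuot.liftAlgHom_mkAlgHom_apply k _ _ _

@[simp] theorem lift_x {B : Type*} [Ring B] [Algebra k B] (g : L → B)
    (hm : ∀ a b a' b', step a b = some (a', b') → g a * g b = g a' * g b')
    (hz : ∀ a b, step a b = none → g a * g b = 0) (a : L) :
    lift (step := step) g hm hz (x step k a) = g a := by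
  unfold x
  rw [lift_mk]; simp


theorem algHom_ext {B : Type*} [Ring B] [Algebra k B] {f g : QA step k →ₐ[k] B}
    (h : ∀ a, f (x step k a) = g (x step k a)) : f = g := by
  refine RingQuot.ringQuot_ext' k _ _ ?_
  refine FreeAlgebra.hom_ext ?_
  funext a
  exact h a

/-- Words span. -/
theorem span_words : Submodule.span k (Set.range (word step k)) = ⊤ := by
  rw [eq_top_iff]
  rintro r -
  obtain ⟨f, rfl⟩ := mk_surjective step k r
  induction f using FreeAlgebra.induction with
  | grade0 c =>
    rw [AlgHom.commutes, Algebra.algebraMap_eq_smul_one]
    exact Submodule.smul_mem _ _ (Submodule.subset_span ⟨[], rfl⟩)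
  | grade1 a => exact Submodule.subset_span ⟨[a], by simp [x]⟩
  | mul f g hf hg =>
    rw [map_mul]
    have hmul : ∀ u ∈ Submodule.span k (Set.range (word step k)),
        ∀ v ∈ Submodule.span k (Set.range (word step k)),
        u * v ∈ Submodule.span k (Set.range (word step k)) := by
      intro u hu v hv
      have := Submodule.mul_mem_mul hu hv
      rw [Submodule.span_mul_span] at this
      refine Submodule.span_mono ?_ this
      rintro _ ⟨_, ⟨p, rfl⟩, _, ⟨q, rfl⟩, rfl⟩
      exact ⟨p ++ q, by simp [word_append]⟩
    exact hmul _ hf _ hg
  | add f g hf hg => rw [map_add]; exact Submodule.add_mem _ hf hg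

theorem induction_on {P : QA step k → Prop} (r : QA step k)
    (hw : ∀ w, P (word step k w)) (hadd : ∀ r s, P r → P s → P (r + s))
    (hsmul : ∀ (c : k) r, P r → P (c • r)) : P r := by
  have hr : r ∈ Submodule.span k (Set.range (word step k)) := by
    rw [span_words]; trivial
  induction hr using Submodule.span_induction with
  | mem r hr => obtain ⟨w, rfl⟩ := hr; exact hw w
  | zero => simpa using hsmul 0 _ (hw [])
  | add r s _ _ hr hs => exact hadd r s hr hs
  | smul c r _ hr => exact hsmul c r hr

/-! ### The basis of nonzero classes of words -/

variable (step)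

/-- The setoid on words with zero. -/
def setoid : Setoid (Option (List L)) :=
  ⟨WEq step, ⟨WEq.refl, fun h => h.symm, fun h h' => h.trans h'⟩⟩

/-- Classes of words (with zero). -/
def Cl : Type _ := Quotient (setoid step)

variable {step}

/-- class of a word -/
def cl (w : Option (List L)) : Cl step := Quotient.mk (setoid step) w

theorem cl_eq_iff {u v : Option (List L)} : cl (step := step) u = cl v ↔ WEq step u v :=
  ⟨fun h => Quotient.exact h, fun h => Quotient.sound h⟩

variable (step) in
/-- Nonzero classes. -/
abbrev NZ : Type _ := {q : Cl step // q ≠ cl none}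

theorem cl_surj (q : Cl step) : ∃ w, q = cl w := by
  obtain ⟨w, rfl⟩ := Quotient.exists_rep q
  exact ⟨w, rfl⟩

theorem nz_surj (q : NZ step) : ∃ (w : List L) (h : cl (step := step) (some w) ≠ cl none),
    q = ⟨cl (some w), h⟩ := by
  obtain ⟨q, hq⟩ := q
  obtain ⟨w, rfl⟩ := cl_surj q
  cases w with
  | none => exact absurd rfl hq
  | some w => exact ⟨w, hq, rfl⟩

/-- left multiplication by a letter on classes -/
def lmul (a : L) : Cl step → Cl step :=
  Quotient.map' (fun w => w.map fun w => a :: w) (by
    intro u v h
    have := WEq.context [a] [] h
    simp only [List.append_nil, List.singleton_append] at this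
    exact this)

@[simp] theorem lmul_cl (a : L) (w : List L) :
    lmul (step := step) a (cl (some w)) = cl (some (a :: w)) := rfl
@[simp] theorem lmul_zero (a : L) : lmul (step := step) a (cl none) = cl none := rfl

variable (step)

variable (k)

open Classical in
/-- the linear map `single q` with zero class killed -/
noncomputable def sg (q : Cl step) : NZ step →₀ k :=
  if h : q = cl none then 0 else Finsupp.single ⟨q, h⟩ 1

@[simp] theorem sg_zero : sg step k (cl none) = 0 := by simp [sg]
theorem sg_of_ne {q : Cl step} (h : q ≠ cl none) : sg step k q = Finsupp.single ⟨q, h⟩ 1 := by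
  simp [sg, h]

/-- The action of a letter on the free module on nonzero classes. -/
noncomputable def act (a : L) : (NZ step →₀ k) →ₗ[k] (NZ step →₀ k) :=
  Finsupp.linearCombination k fun q : NZ step => sg step k (lmul a q.1)

theorem act_sg (a : L) (q : Cl step) : act step k a (sg step k q) = sg step k (lmul a q) := by
  by_cases h : q = cl none
  · subst h; simp
  · rw [sg_of_ne step k h]
    unfold act
    rw [Finsupp.linearCombination_single, one_smul]

theorem end_ext {f g : (NZ step →₀ k) →ₗ[k] (NZ step →₀ k)}
    (h : ∀ w : List L, f (sg step k (cl (some w))) = g (sg step k (cl (some w)))) : f = g := by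
  refine Finsupp.lhom_ext' fun q => LinearMap.ext_ring ?_
  obtain ⟨w, hq, rfl⟩ := nz_surj q
  have e : Finsupp.lsingle (R := k) (⟨cl (some w), hq⟩ : NZ step) (1 : k) =
      sg step k (cl (some w)) := by
    rw [sg_of_ne step k hq]; rfl
  rw [LinearMap.comp_apply, LinearMap.comp_apply, e]
  exact h w

/-- The regular representation. -/
noncomputable def reg : QA step k →ₐ[k] Module.End k (NZ step →₀ k) :=
  lift (act step k) (by
    intro a b a' b' h
    refine end_ext step k fun w => ?_
    rw [Module.End.mul_apply, Module.End.mul_apply, act_sg, act_sg, act_sg, act_sg]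
    exact congrArg (sg step k) (cl_eq_iff.2 (WEq.of_move [] w h))) (by
    intro a b h
    refine end_ext step k fun w => ?_
    rw [Module.End.mul_apply, act_sg, act_sg, LinearMap.zero_apply]
    have : lmul a (lmul b (cl (step := step) (some w))) = cl none :=
      cl_eq_iff.2 (WEq.of_zero [] w h)
    rw [this, sg_zero])

theorem reg_word (w : List L) (v : List L) :
    reg step k (word step k w) (sg step k (cl (some v))) = sg step k (cl (some (w ++ v))) := by
  induction w with
  | nil => simp
  | cons a w ih =>
    rw [word_cons, map_mul, Module.End.mul_apply, ih]
    unfold reg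
    rw [lift_x, act_sg]; rfl

/-- coordinates in the basis of nonzero classes -/
noncomputable def coord : QA step k →ₗ[k] (NZ step →₀ k) :=
  (LinearMap.applyₗ (sg step k (cl (some [])))).comp (reg step k).toLinearMap

@[simp] theorem coord_word (w : List L) :
    coord step k (word step k w) = sg step k (cl (some w)) := by
  simp [coord, reg_word]

/-- the element of a class -/
noncomputable def ofCl (q : Cl step) : QA step k :=
  Quotient.lift (word0 step k) (fun _ _ h => word0_eq_of_WEq step k h) q

@[simp] theorem ofCl_some (w : List L) : ofCl step k (cl (some w)) = word step k w := rfl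
@[simp] theorem ofCl_none : ofCl step k (cl none) = 0 := rfl



theorem word_ne_zero [Nontrivial k] {w : List L} (h : ¬ IsZ step w) : word step k w ≠ 0 := by
  intro e
  have h' : cl (step := step) (some w) ≠ cl none := fun e => h (cl_eq_iff.1 e)
  have := coord_word step k w
  rw [e, map_zero, sg_of_ne step k h'] at this
  exact one_ne_zero (Finsupp.single_eq_zero.1 this.symm)

theorem word_eq_zero_iff [Nontrivial k] {w : List L} : word step k w = 0 ↔ IsZ step w :=
  ⟨fun e => by_contra fun h => word_ne_zero step k h e, word_eq_zero_of_isZ step k⟩

theorem word_eq_iff [Nontrivial k] {u v : List L} :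
    word step k u = word step k v ↔ WEq step (some u) (some v) := by
  refine ⟨fun e => ?_, word_eq_of_WEq step k⟩
  by_cases hu : IsZ step u
  · have : word step k v = 0 := by rw [← e]; exact word_eq_zero_of_isZ step k hu
    exact hu.trans (((word_eq_zero_iff step k).1 this).symm)
  · by_cases hv : IsZ step v
    · exact absurd (by rw [e]; exact word_eq_zero_of_isZ step k hv) (word_ne_zero step k hu)
    · have hu' : cl (step := step) (some u) ≠ cl none := fun e => hu (cl_eq_iff.1 e)
      have hv' : cl (step := step) (some v) ≠ cl none := fun e => hv (cl_eq_iff.1 e)
      have := congrArg (coord step k) e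
      rw [coord_word, coord_word, sg_of_ne step k hu', sg_of_ne step k hv',
        Finsupp.single_left_inj one_ne_zero] at this
      exact cl_eq_iff.1 (congrArg Subtype.val this)

end Crest.Agent.R176.QAlg206
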